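import Crest.Agent.N337.Gas.Bridge
import Crest.Agent.N337.Top.Defs
import Crest.Agent.N337.Free.Tor
import Crest.Agent.N337.Rg.Defs
import Crest.Agent.N337.Pc.Defs

-- ▼ part N337/A/Stage
section

/-!
# Row 337, block (a): numbers, corridors and blocks, the box stage in gas form
-/

set_option autoImplicit false
set_option linter.unusedSectionVars false

namespace Crest.Agent.N337.A

open Finset Equiv Crest.Agent.N337.Gas

/-! ### numbers -/

/-- one step of the tower of speeds (`Kn r` = rate bound at radius `r`). -/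
def vn (Kn : ℕ → ℕ) (lg v : ℕ) : ℕ := (40 * Kn (v + 2) + lg + 1) * (v + 1)
/-- the tower of speeds. -/
def vt (Kn : ℕ → ℕ) (lg v i : ℕ) : ℕ := (vn Kn lg)^[i] v
/-- winding cut-off. -/
def mw (Tn lg : ℕ) : ℕ := 2 * Tn * lg
/-- range of the clustering. -/
def Dn (K Tn lg v : ℕ) : ℕ :=
  (2 * (40 * K + 2 * (mw Tn lg + 1) * lg) + 3) * (2 * ((40 * K + 2 * (mw Tn lg + 1) * lg + 1) * (v + 1)) + 2)

lemma vt_succ (Kn : ℕ → ℕ) (lg v i : ℕ) : vt Kn lg v (i + 1) = vn Kn lg (vt Kn lg v i) :=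
  Function.iterate_succ_apply' _ _ _

lemma le_vn (Kn : ℕ → ℕ) (lg v : ℕ) : v ≤ vn Kn lg v := by unfold vn; nlinarith

lemma vt_mono (Kn : ℕ → ℕ) (lg v : ℕ) : Monotone (vt Kn lg v) :=
  monotone_nat_of_le_succ fun i => by rw [vt_succ]; exact le_vn _ _ _

section num
variable {N Tn lg : ℕ} {Tf δ : ℝ} (hN : 1 ≤ N) (hT : 1 ≤ Tf) (hTn : Tf ≤ Tn) (hδ : 0 < δ)
  (hδ1 : δ ≤ 1 / 8) (hl : 6400 * N ^ 2 * Tf ≤ δ * Real.exp lg)
include hN hT hδ hδ1 hl

lemma num_aux : 6400 * N ^ 2 * Tf * Real.exp (-lg) ≤ δ ∧ 16 * N ≤ Real.exp lg ∧ 1 ≤ lg := by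
  have h1 : (1 : ℝ) ≤ N := by exact_mod_cast hN
  have h2 := Real.exp_pos lg
  have h3 : 16 * N ≤ Real.exp lg := by nlinarith
  refine ⟨by rwa [Real.exp_neg, ← div_eq_mul_inv, div_le_iff₀ h2], h3, ?_⟩
  by_contra h
  obtain rfl : lg = 0 := by omega
  rw [Nat.cast_zero, Real.exp_zero] at h3
  linarith

lemma fast_ok (K : ℕ) : N * Real.exp (40 * (K : ℝ) - (40 * K + lg : ℕ)) ≤ δ := by
  have h1 : (1 : ℝ) ≤ N := by exact_mod_cast hN
  rw [show 40 * (K : ℝ) - (40 * K + lg : ℕ) = -lg by push_cast; ring]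
  refine le_trans (mul_le_mul_of_nonneg_right ?_ (Real.exp_pos _).le) (num_aux hN hT hδ hδ1 hl).1
  nlinarith

include hTn in
lemma num_ok (K v : ℕ) :
    Num N Tf K δ v (mw Tn lg) (40 * K + 2 * (mw Tn lg + 1) * lg) (Dn K Tn lg v) := by
  obtain ⟨a1, a2, a3⟩ := num_aux hN hT hδ hδ1 hl
  have h1 : (1 : ℝ) ≤ N := by exact_mod_cast hN
  have hlg : (0 : ℝ) ≤ lg := Nat.cast_nonneg _
  refine ⟨hT, hδ, hδ1, le_trans ?_ a1, le_trans ?_ a1, le_rfl, ?_⟩
  · refine mul_le_mul (mul_le_mul_of_nonneg_right (by nlinarith) (by linarith))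
      (Real.exp_le_exp.2 ?_) (Real.exp_pos _).le (by positivity)
    rw [div_le_iff₀ (by linarith), mw]; push_cast; nlinarith
  · set m := mw Tn lg
    have b1 : (16 * N : ℝ) ^ m ≤ Real.exp (m * lg) := by
      rw [Real.exp_nat_mul]; exact pow_le_pow_left₀ (by positivity) a2 _
    have b2 : (1 / 2 : ℝ) ^ (40 * K + 2 * (m + 1) * lg) ≤ Real.exp (-((m + 1) * lg)) := by
      have c1 : (1 / 2 : ℝ) ^ 2 ≤ Real.exp (-1) := by
        rw [Real.exp_neg, le_inv_comm₀ (by norm_num) (Real.exp_pos 1)]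
        linarith [Real.exp_one_lt_d9]
      calc (1 / 2 : ℝ) ^ (40 * K + 2 * (m + 1) * lg) ≤ (1 / 2) ^ (2 * ((m + 1) * lg)) :=
            pow_le_pow_of_le_one (by norm_num) (by norm_num) (by nlinarith)
        _ ≤ Real.exp (-1) ^ ((m + 1) * lg) := by
            rw [pow_mul]; exact pow_le_pow_left₀ (by norm_num) c1 _
        _ = _ := by rw [← Real.exp_nat_mul]; push_cast; ring_nf
    have b3 : Real.exp (40 * (K : ℝ) - (40 * K + 2 * (m + 1) * lg : ℕ)) ≤
        Real.exp (-((m + 1) * lg)) := Real.exp_le_exp.2 (by push_cast; nlinarith [Nat.cast_nonneg (α := ℝ) m])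
    have b4 : Real.exp (-((m + 1) * lg)) * Real.exp (m * lg) = Real.exp (-lg) := by
      rw [← Real.exp_add]; ring_nf
    have b5 := Real.exp_pos (-((m + 1) * lg))
    have b6 := Real.exp_pos (-(lg : ℝ))
    calc _ ≤ 3200 * N * ((1 + N) * Real.exp (-((m + 1) * lg))) * Real.exp (m * lg) := by
          gcongr; nlinarith
      _ = 3200 * N * (1 + N) * Real.exp (-lg) := by rw [← b4]; ring
      _ ≤ _ := mul_le_mul_of_nonneg_right
          (by nlinarith [mul_le_mul_of_nonneg_left hT (sq_nonneg (N : ℝ))]) b6.le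
  · unfold Dn
    generalize mw Tn lg = m
    have : m + 1 ≤ 40 * K + 2 * (m + 1) * lg := by nlinarith
    generalize 40 * K + 2 * (m + 1) * lg = f at this
    generalize (f + 1) * (v + 1) = w
    nlinarith

end num

/-- crude size of the tower. -/
lemma vt_le {Kn : ℕ → ℕ} {lg v Y : ℕ} (hY : 10 ≤ Y) (hK : ∀ r, Kn r ≤ Y * (2 * r + 1) ^ 3)
    (hl : lg ≤ Y) (hv : v ≤ Y) (i : ℕ) : vt Kn lg v i ≤ Y ^ 10 ^ i := by
  induction i with
  | zero => simpa [vt] using hv
  | succ i ih =>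
    have h1 : Y ≤ Y ^ 10 ^ i := Nat.le_self_pow (by positivity) _
    rw [vt_succ, pow_succ, pow_mul]
    generalize Y ^ 10 ^ i = W at ih h1
    generalize vt Kn lg v i = u at ih
    have h2 : Kn (u + 2) ≤ W * (3 * W) ^ 3 :=
      (hK _).trans (Nat.mul_le_mul h1 (Nat.pow_le_pow_left (by omega) _))
    have h3 : W ≤ W ^ 4 := Nat.le_self_pow (by norm_num) _
    have h4 : 10 ^ 5 ≤ W ^ 5 := Nat.pow_le_pow_left (by omega) _
    calc vn Kn lg u ≤ (1082 * W ^ 4) * (2 * W) := Nat.mul_le_mul (by nlinarith) (by omega)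
      _ = 2164 * W ^ 5 := by ring
      _ ≤ W ^ 5 * W ^ 5 := Nat.mul_le_mul_right _ (by omega)
      _ = W ^ 10 := by ring

lemma Dn_le {K Tn lg v Y : ℕ} (hY : 10 ≤ Y) (hK : K ≤ Y) (hl : lg ≤ Y) (hv : v ≤ Y) :
    Dn K Tn lg v ≤ Y ^ 8 * (Tn + 1) ^ 2 := by
  have h1 : 40 * K + 2 * (mw Tn lg + 1) * lg + 2 ≤ 9 * (Y ^ 2 * (Tn + 1)) := by
    have : 2 * (mw Tn lg + 1) * lg ≤ 2 * (2 * Tn * Y + 1) * Y := by unfold mw; gcongr
    nlinarith
  unfold Dn
  generalize 40 * K + 2 * (mw Tn lg + 1) * lg = f at h1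
  have h2 : Y ^ 8 * (Tn + 1) ^ 2 = Y ^ 3 * Y * (Y ^ 2 * (Tn + 1)) ^ 2 := by ring
  have h3 : 10 ^ 3 ≤ Y ^ 3 := Nat.pow_le_pow_left hY _
  rw [h2]
  generalize Y ^ 2 * (Tn + 1) = X at h1
  calc _ ≤ (18 * X) * (2 * (9 * X) * (2 * Y)) := Nat.mul_le_mul (by omega) (by nlinarith)
    _ = 648 * Y * X ^ 2 := by ring
    _ ≤ _ := by gcongr; omega

/-! ### corridors and blocks -/

section cor
variable {Λ : Type} [Fintype Λ] [DecidableEq Λ] (S : Finset Λ) (co : Λ → Fin 3 → ℕ) (q wd : ℕ)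

/-- the corridors of layer `l`: period `4 q`, width `wd`, shift `l q` along the diagonal. -/
def Cor (l : Fin 4) : Finset Λ := S.filter fun x => ∃ a, (co x a + l * q) % (4 * q) < wd
/-- the blocks of layer `l`. -/
def Blk (l : Fin 4) (i : Fin 3 → ℕ) : Finset Λ :=
  (S \ Cor S co q wd l).filter fun x => ∀ a, (co x a + l * q) / (4 * q) = i a

variable {S co q wd} {d : Λ → Λ → ℕ} {l : Fin 4} {x y : Λ} {i : Fin 3 → ℕ}

lemma mem_Cor : x ∈ Cor S co q wd l ↔ x ∈ S ∧ ∃ a, (co x a + l * q) % (4 * q) < wd := mem_filter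

lemma mem_Blk : x ∈ Blk S co q wd l i ↔ (x ∈ S ∧ x ∉ Cor S co q wd l) ∧
    ∀ a, (co x a + l * q) / (4 * q) = i a := by simp only [Blk, mem_filter, mem_sdiff]

lemma exists_Blk (hx : x ∈ S) (h : x ∉ Cor S co q wd l) :
    x ∈ Blk S co q wd l fun a => (co x a + l * q) / (4 * q) := mem_Blk.2 ⟨⟨hx, h⟩, fun _ => rfl⟩

lemma Cor_cover (hs : ∀ x y, d x y = d y x) (hco : ∀ x ∈ S, ∀ y ∈ S, ∀ a, co x a ≤ co y a + d x y)
    {R : ℕ} (hq : wd + 2 * R ≤ q) (hx : x ∈ S) : ∃ l, x ∉ nbd d R (Cor S co q wd l) := by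
  have key : ∀ l : Fin 4, x ∈ nbd d R (Cor S co q wd l) → ∃ a, ((co x a + R) / q + l) % 4 = 0 := by
    intro l h
    obtain ⟨y, hy, h1⟩ := mem_nbd.1 h
    obtain ⟨h2, a, h3⟩ := mem_Cor.1 hy
    have h4 := hco x hx y h2 a
    have h5 := hco y h2 x hx a
    rw [hs] at h5
    have hq0 : 0 < q := by omega
    have h6 := Nat.div_add_mod (co y a + l * q) (4 * q)
    refine ⟨a, ?_⟩
    rw [← Nat.add_mul_div_right _ _ hq0, show co x a + R + l * q = (co y a + l * q) % (4 * q) +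
      (co x a + R - co y a) + 4 * ((co y a + l * q) / (4 * q)) * q by
        have : 4 * ((co y a + l * q) / (4 * q)) * q = 4 * q * ((co y a + l * q) / (4 * q)) := by ring
        omega, Nat.add_mul_div_right _ _ hq0, Nat.div_eq_of_lt (by omega)]
    omega
  by_contra h
  push Not at h
  obtain ⟨a0, h0⟩ := key 0 (h 0)
  obtain ⟨a1, h1⟩ := key 1 (h 1)
  obtain ⟨a2, h2⟩ := key 2 (h 2)
  obtain ⟨a3, h3⟩ := key 3 (h 3)
  revert h0 h1 h2 h3
  generalize (fun a => (co x a + R) / q) = c at *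
  fin_cases a0 <;> fin_cases a1 <;> fin_cases a2 <;> fin_cases a3 <;> simp <;> omega

lemma Blk_diam (hq : 0 < q) (hx : x ∈ Blk S co q wd l i) (hy : y ∈ Blk S co q wd l i) (a : Fin 3) :
    co x a ≤ co y a + 4 * q := by
  have h1 := Nat.div_add_mod (co x a + l * q) (4 * q)
  have h2 := Nat.div_add_mod (co y a + l * q) (4 * q)
  have h3 := Nat.mod_lt (co x a + l * q) (by omega : 0 < 4 * q)
  rw [(mem_Blk.1 hx).2 a] at h1
  rw [(mem_Blk.1 hy).2 a] at h2
  omega

lemma Blk_apart {T : ℕ} [NeZero T] {ex ey : Fin T → Λ} (hd : Met ex ey d)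
    (hco : ∀ x ∈ S, ∀ y ∈ S, ∀ a, co x a ≤ co y a + d x y) (hw : 1 ≤ wd) :
    Apart ex ey (Blk S co q wd l) := by
  refine ⟨fun i j x hi hj => funext fun a => ((mem_Blk.1 hi).2 a).symm.trans ((mem_Blk.1 hj).2 a),
    fun i j s hi hj => funext fun a => ?_⟩
  obtain ⟨⟨h1, h2⟩, h3⟩ := mem_Blk.1 hi
  obtain ⟨⟨h4, h5⟩, h6⟩ := mem_Blk.1 hj
  have h7 := hco _ h1 _ h4 a
  have h8 := hco _ h4 _ h1 a
  have h9 := hd.2.2.2 s
  rw [hd.2.1] at h8
  have key : ∀ u : ℕ, 1 ≤ (u + 1) % (4 * q) → (u + 1) / (4 * q) = u / (4 * q) := fun u h => by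
    rw [Nat.succ_div, if_neg fun h' => by rw [Nat.mod_eq_zero_of_dvd h'] at h; omega, add_zero]
  have b1 : wd ≤ (co (ex s) a + l * q) % (4 * q) := not_lt.1 fun h => h2 (mem_Cor.2 ⟨h1, a, h⟩)
  have b2 : wd ≤ (co (ey s) a + l * q) % (4 * q) := not_lt.1 fun h => h5 (mem_Cor.2 ⟨h4, a, h⟩)
  rw [← h3 a, ← h6 a]
  obtain e | e | e : co (ex s) a + l * q = co (ey s) a + l * q ∨
      co (ex s) a + l * q = co (ey s) a + l * q + 1 ∨
      co (ey s) a + l * q = co (ex s) a + l * q + 1 := by omega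
  · rw [e]
  · rw [e] at b1 ⊢; exact key _ (hw.trans b1)
  · rw [e] at b2 ⊢; exact (key _ (hw.trans b2)).symm

end cor

/-! ### the stage -/

variable {Λ : Type} [Fintype Λ] [DecidableEq Λ] {T : ℕ} [NeZero T] {ex ey : Fin T → Λ}
  {d : Λ → Λ → ℕ} {M : Mdl T Λ} {S : Finset Λ} {Kn : ℕ → ℕ} {N Tn lg v : ℕ} {Tf δ : ℝ}

/-- the hypotheses of the box stage that do not see the pins. -/
structure BoxHyp (ex ey : Fin T → Λ) (d : Λ → Λ → ℕ) (M : Mdl T Λ) (S : Finset Λ) (Kn : ℕ → ℕ)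
    (N Tn lg v : ℕ) (Tf δ : ℝ) : Prop where
  met : Met ex ey d
  ok : M.Ok (Real.exp (-1 / Tf))
  sup : ∀ u, M.b u ≠ 0 → u.2 ∈ S
  card : S.card ≤ N
  N1 : 1 ≤ N
  T1 : 1 ≤ Tf
  Tn : Tf ≤ Tn
  δ0 : 0 < δ
  δ1 : δ ≤ 1 / 8
  big : 6400 * N ^ 2 * Tf ≤ δ * Real.exp lg
  rate : ∀ r ≤ vt Kn lg v 4 + 2, Rate ex ey d M r (Kn r)

lemma BoxHyp.child (h : BoxHyp ex ey d M S Kn N Tn lg v Tf δ) {M' : Mdl T Λ}
    (ho : M'.Ok (Real.exp (-1 / Tf))) (hb : ∀ u, M'.b u ≠ 0 → u.2 ∈ S)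
    (hp : ∀ s, M'.p s = M.p s ∨ M'.p s = 0 ∨ M'.p s = 1) : BoxHyp ex ey d M' S Kn N Tn lg v Tf δ :=
  { h with
    ok := ho
    sup := hb
    rate := fun r hr => (h.rate r hr).of_le le_rfl (fun s => (h.ok.1 s).1) hp }

open Classical in
/-- the bad set of the box stage is rare in every slow model `M'` that keeps the pins of `M`. -/
theorem BoxHyp.rare {M' : Mdl T Λ} (h : BoxHyp ex ey d M' S Kn N Tn lg v Tf δ)
    (hs : ∀ u, M.b u ≠ 0 → u.2 ∈ S) (hp : ∀ s, M.p s = 1 → M'.p s = 1)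
    (hS : Slow ex ey d (Cheap ex ey d M') (fun u => M.b u ≠ 0) v) :
    Op.ex (law ex ey M') (Op.ind fun A => ¬ GdG ex ey d M (mw Tn lg) (vt Kn lg v 1) A) ≤ 2 * δ := by
  have h1 := Pb_not_Gd (mw Tn lg) (40 * Kn (v + 2) + lg) h.met h.ok (Real.exp_pos _).le lab_lab1 hs
    h.sup h.card hp (h.rate (v + 2) (Nat.add_le_add_right (vt_mono Kn lg v (Nat.zero_le 4)) 2)) hS
  have h2 := ((num_ok h.N1 h.T1 h.Tn h.δ0 h.δ1 h.big 0 0).small h.N1).2
  have h3 := fast_ok h.N1 h.T1 h.δ0 h.δ1 h.big (Kn (v + 2))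
  exact (dn_le_Pb h.ok fun ω hw a b => a ((gd_dn (wt_cl hw) d M _ _).1 b)).trans
    (h1.trans (by linarith))

open Classical in
/-- **the box stage.** -/
theorem BoxHyp.var_le (h : BoxHyp ex ey d M S Kn N Tn lg v Tf δ) {C : Fin 4 → Finset Λ}
    (hC : ∀ x ∈ S, ∃ l, x ∉ nbd d (12 * Dn (Kn (vt Kn lg v 4 + 2)) Tn lg (vt Kn lg v 4)) (C l))
    (B : Finset (Lp T Λ) → Prop)
    (hB : ∀ A, law ex ey M A ≠ 0 → ¬ B A → GdG ex ey d M (mw Tn lg) (vt Kn lg v 1) A)
    (he : δ + Op.ex (law ex ey M) (Op.ind B) ≤ 1 / 1600) (F : Finset (Lp T Λ) → ℝ) :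
    Op.var (law ex ey M) F ≤ 20 * ∑ l, Op.ex (law ex ey M) (fun A =>
      Op.var (Op.cond (law ex ey M) (filter (Hit (cyl (C l)))) (A.filter (Hit (cyl (C l))))) F) +
        40 * Op.ex (law ex ey M) fun A => Op.ind B A * (F A - Op.ex (law ex ey M) F) ^ 2 := by
  have hp := pr_law (ex := ex) (ey := ey) h.ok
  have hδ := h.δ0
  have h1 := box_tr (U := fun l => cyl (C l)) h.ok hδ.le (boxS (K := fun i => Kn (vt Kn lg v (i + 1) + 2))
    (v := fun i => vt Kn lg v (i + 1)) (g := fun i => 40 * Kn (vt Kn lg v (i + 1) + 2) + lg)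
    h.sup h.card h.N1 h.met h.ok (fun i hi => ⟨vt_succ _ _ _ _,
      h.rate _ (Nat.add_le_add_right (vt_mono Kn lg v (by omega)) 2),
      fast_ok h.N1 h.T1 hδ h.δ1 h.big _⟩) (num_ok h.N1 h.T1 h.Tn hδ h.δ1 h.big _ _)
    (fun x ⟨s, hx⟩ => hC x (h.sup _ hx)) lab_lab1) B hB he
  have hk : ∀ k ∈ [Op.ps B (law ex ey M), Op.ce (law ex ey M) (filter (Hit (cyl (C 0)))),
      Op.ce (law ex ey M) (filter (Hit (cyl (C 1)))), Op.ce (law ex ey M) (filter (Hit (cyl (C 2)))),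
      Op.ce (law ex ey M) (filter (Hit (cyl (C 3))))], Op.Proj (law ex ey M) k := by
    simp only [List.forall_mem_cons, List.not_mem_nil, false_imp_iff, implies_true, and_true]
    exact ⟨Op.proj_ps hp (by linarith), Op.proj_ce hp.nn _, Op.proj_ce hp.nn _, Op.proj_ce hp.nn _,
      Op.proj_ce hp.nn _⟩
  have h2 := Op.var_le_word hp (fun k h => (hk k h).ker) (fun k h => (hk k h).ctr hp.nn)
    (by norm_num) (by norm_num) h1 F
  have h3 := Op.res_ps_le (S := B) hp (by linarith) F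
  simp only [List.map_cons, List.map_nil, List.sum_cons, List.sum_nil, List.length_cons,
    List.length_nil, Op.res_ce hp.nn] at h2
  rw [Fin.sum_univ_four]
  norm_num at h2
  linarith

end Crest.Agent.N337.A
end

-- ▼ part N337/Top/ShortA
section

/-!
# Row 337, TOP: pressure closing, abstract part (finite tilted sums)
-/

set_option autoImplicit false

namespace Crest.Agent.N337.Top.Sh

open Finset

variable {Ω : Type} [Fintype Ω]

theorem pos_mul {w g : Ω → ℝ} (hw : ∀ ω, 0 ≤ w ω) (hp : 0 < ∑ ω, w ω) (hg : ∀ ω, 0 < g ω) :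
    0 < ∑ ω, w ω * g ω := by
  obtain ⟨ω, -, h⟩ := exists_ne_zero_of_sum_ne_zero hp.ne'
  exact sum_pos' (fun ω _ => mul_nonneg (hw ω) (hg ω).le)
    ⟨ω, mem_univ _, mul_pos ((hw ω).lt_of_ne h.symm) (hg ω)⟩

theorem jensen {w : Ω → ℝ} (X : Ω → ℝ) (hw : ∀ ω, 0 ≤ w ω) (hp : 0 < ∑ ω, w ω) :
    (∑ ω, w ω * X ω) / (∑ ω, w ω) ≤
      Real.log (∑ ω, w ω * Real.exp (X ω)) - Real.log (∑ ω, w ω) := by
  set μ := (∑ ω, w ω * X ω) / (∑ ω, w ω) with hμ
  have h1 : Real.exp μ * ∑ ω, w ω ≤ ∑ ω, w ω * Real.exp (X ω) := by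
    have h2 : ∑ ω, w ω * (Real.exp μ * (X ω - μ + 1)) = Real.exp μ * ∑ ω, w ω := by
      have : ∑ ω, w ω * X ω = μ * ∑ ω, w ω := by rw [hμ, div_mul_cancel₀ _ hp.ne']
      calc ∑ ω, w ω * (Real.exp μ * (X ω - μ + 1))
          = Real.exp μ * ((∑ ω, w ω * X ω) + (1 - μ) * ∑ ω, w ω) := by
            rw [mul_sum, ← sum_add_distrib, mul_sum]
            exact sum_congr rfl fun ω _ => by ring
        _ = _ := by rw [this]; ring
    rw [← h2]
    refine sum_le_sum fun ω _ => mul_le_mul_of_nonneg_left ?_ (hw ω)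
    calc Real.exp μ * (X ω - μ + 1) ≤ Real.exp μ * Real.exp (X ω - μ) :=
          mul_le_mul_of_nonneg_left (Real.add_one_le_exp _) (Real.exp_pos _).le
      _ = _ := by rw [← Real.exp_add]; ring_nf
  have h3 := Real.log_le_log (mul_pos (Real.exp_pos _) hp) h1
  rw [Real.log_mul (Real.exp_pos _).ne' hp.ne', Real.log_exp] at h3
  linarith

/-- tilted moments. -/
noncomputable def mo (w X : Ω → ℝ) (t : ℝ) (j : ℕ) : ℝ :=
  ∑ ω, w ω * (Real.exp (t * X ω) * X ω ^ j)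

theorem hasDerivAt_mo (w X : Ω → ℝ) (t : ℝ) (j : ℕ) :
    HasDerivAt (fun t => mo w X t j) (mo w X t (j + 1)) t := by
  unfold mo
  refine HasDerivAt.fun_sum fun ω _ => ?_
  have := ((((hasDerivAt_id t).mul_const (X ω)).exp).mul_const (X ω ^ j)).const_mul (w ω)
  refine this.congr_deriv ?_
  simp only [id]; ring

theorem taylor {w : Ω → ℝ} (X : Ω → ℝ) (hw : ∀ ω, 0 ≤ w ω) (hp : 0 < ∑ ω, w ω) {lam c : ℝ}
    (hl : 0 < lam) (h : ∀ t, 0 ≤ t → t ≤ lam →
      lam * (mo w X t 2 * mo w X t 0 - mo w X t 1 ^ 2) ≤ c * mo w X t 0 ^ 2) :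
    Real.log (∑ ω, w ω * Real.exp (lam * X ω)) - Real.log (∑ ω, w ω) ≤
      lam * ((∑ ω, w ω * X ω) / (∑ ω, w ω) + c) := by
  have m0 : ∀ t, 0 < mo w X t 0 := fun t => pos_mul hw hp fun ω => by
    simpa using Real.exp_pos (t * X ω)
  have hd : ∀ t, HasDerivAt (fun t => mo w X t 1 / mo w X t 0)
      ((mo w X t 2 * mo w X t 0 - mo w X t 1 * mo w X t 1) / mo w X t 0 ^ 2) t := fun t =>
    (hasDerivAt_mo w X t 1).div (hasDerivAt_mo w X t 0) (m0 t).ne'
  obtain ⟨t, ht, he⟩ := exists_hasDerivAt_eq_slope _ _ hl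
    (fun t _ => (hd t).continuousAt.continuousWithinAt) fun t _ => hd t
  have h1 := h t ht.1.le ht.2.le
  have h2 : mo w X lam 1 / mo w X lam 0 - mo w X 0 1 / mo w X 0 0 ≤ c := by
    rw [sub_zero, eq_div_iff hl.ne'] at he
    rw [← he, div_mul_eq_mul_div, div_le_iff₀ (pow_pos (m0 t) 2)]
    nlinarith
  have hp' : 0 < ∑ ω, w ω * Real.exp (lam * X ω) := pos_mul hw hp fun ω => Real.exp_pos _
  have h3 := jensen (w := fun ω => w ω * Real.exp (lam * X ω)) (fun ω => -(lam * X ω))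
    (fun ω => mul_nonneg (hw ω) (Real.exp_pos _).le) hp'
  have e1 : ∑ ω, w ω * Real.exp (lam * X ω) * Real.exp (-(lam * X ω)) = ∑ ω, w ω :=
    sum_congr rfl fun ω _ => by rw [mul_assoc, ← Real.exp_add]; simp
  have e2 : ∑ ω, w ω * Real.exp (lam * X ω) * -(lam * X ω) = -(lam * mo w X lam 1) := by
    unfold mo; rw [mul_sum, ← sum_neg_distrib]; exact sum_congr rfl fun ω _ => by ring
  have e3 : mo w X lam 0 = ∑ ω, w ω * Real.exp (lam * X ω) := by simp [mo]
  have e4 : mo w X 0 0 = ∑ ω, w ω := by simp [mo]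
  have e5 : mo w X 0 1 = ∑ ω, w ω * X ω := by simp [mo]
  rw [e1, e2, ← e3, neg_div, mul_div_assoc] at h3
  rw [← e3, ← e5, ← e4]
  rw [← e4] at h3
  nlinarith

/-- partition function with field `x` and tilt `t`. -/
noncomputable def Zf (w N X : Ω → ℝ) (x t : ℝ) : ℝ :=
  ∑ ω, w ω * Real.exp (-(x * N ω)) * Real.exp (t * X ω)

/-- mean of `F` at field `x`. -/
noncomputable def av (w N : Ω → ℝ) (x : ℝ) (F : Ω → ℝ) : ℝ :=
  (∑ ω, w ω * Real.exp (-(x * N ω)) * F ω) / ∑ ω, w ω * Real.exp (-(x * N ω))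

theorem Zf_zero (w N X : Ω → ℝ) (x : ℝ) : Zf w N X x 0 = ∑ ω, w ω * Real.exp (-(x * N ω)) := by
  simp [Zf]

theorem Zf_pos {w : Ω → ℝ} (N X : Ω → ℝ) (hw : ∀ ω, 0 ≤ w ω) (hp : 0 < ∑ ω, w ω) (x t : ℝ) :
    0 < Zf w N X x t := by
  unfold Zf
  simp only [mul_assoc]
  exact pos_mul hw hp fun ω => mul_pos (Real.exp_pos _) (Real.exp_pos _)

/-- Jensen in the field. -/
theorem jensen_N {w : Ω → ℝ} (N X : Ω → ℝ) (hw : ∀ ω, 0 ≤ w ω) (hp : 0 < ∑ ω, w ω) (x x' : ℝ) :
    (x - x') * av w N x N ≤ Real.log (Zf w N X x' 0) - Real.log (Zf w N X x 0) := by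
  have h := jensen (w := fun ω => w ω * Real.exp (-(x * N ω))) (fun ω => (x - x') * N ω)
    (fun ω => mul_nonneg (hw ω) (Real.exp_pos _).le) (pos_mul hw hp fun ω => Real.exp_pos _)
  have e1 : ∑ ω, w ω * Real.exp (-(x * N ω)) * Real.exp ((x - x') * N ω) =
      ∑ ω, w ω * Real.exp (-(x' * N ω)) :=
    sum_congr rfl fun ω _ => by rw [mul_assoc, ← Real.exp_add]; ring_nf
  have e2 : ∑ ω, w ω * Real.exp (-(x * N ω)) * ((x - x') * N ω) =
      (x - x') * ∑ ω, w ω * Real.exp (-(x * N ω)) * N ω := by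
    rw [mul_sum]; exact sum_congr rfl fun ω _ => by ring
  rw [e1, e2, mul_div_assoc] at h
  rw [Zf_zero, Zf_zero]; exact h

theorem chain {I : Type} [Fintype I] {w : Ω → ℝ} {wb : I → Ω → ℝ} {N X : Ω → ℝ}
    (hw : ∀ ω, 0 ≤ w ω) (hp : 0 < ∑ ω, w ω) (hwb : ∀ i ω, 0 ≤ wb i ω)
    (hpb : ∀ i, 0 < ∑ ω, wb i ω) {x x' lam c e B : ℝ} (hXN : ∀ ω, X ω ≤ N ω)
    (hN : ∀ ω, 0 ≤ N ω ∧ N ω ≤ B) (hx : 0 < x) (hx0 : 0 ≤ x') (hx' : x' ≤ x) (hl : 0 < lam)
    (hK : ∀ y t, 0 ≤ y → 0 ≤ t → t ≤ lam → ∏ i, Zf (wb i) N X y t ≤ Zf w N X y t ∧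
      Zf w N X y t ≤ Real.exp c * ∏ i, Zf (wb i) N X y t)
    (hV : ∀ i t, 0 ≤ t → t ≤ lam →
      let m := mo (fun ω => wb i ω * Real.exp (-(x * N ω))) X t
      lam * (m 2 * m 0 - m 1 ^ 2) ≤ e * m 0 ^ 2) :
    av w N x' X ≤ av w N (x / 2) N + (x * B + c) / lam + 2 * c / x + Fintype.card I * e := by
  have Zp := Zf_pos N X hw hp
  have Zb := fun i => Zf_pos N X (hwb i) (hpb i)
  have hlo : ∀ y t, 0 ≤ y → 0 ≤ t → t ≤ lam →
      ∑ i, Real.log (Zf (wb i) N X y t) ≤ Real.log (Zf w N X y t) := fun y t a b d => by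
    rw [← Real.log_prod fun i _ => (Zb i y t).ne']
    exact Real.log_le_log (prod_pos fun i _ => Zb i y t) (hK y t a b d).1
  have hup : ∀ y t, 0 ≤ y → 0 ≤ t → t ≤ lam →
      Real.log (Zf w N X y t) ≤ c + ∑ i, Real.log (Zf (wb i) N X y t) := fun y t a b d => by
    rw [← Real.log_prod fun i _ => (Zb i y t).ne']
    have := Real.log_le_log (Zp y t) (hK y t a b d).2
    rwa [Real.log_mul (Real.exp_pos _).ne' (prod_pos fun i _ => Zb i y t).ne', Real.log_exp] at this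
  have s1 : lam * av w N x' X ≤ Real.log (Zf w N X x' lam) - Real.log (Zf w N X x' 0) := by
    have h := jensen (w := fun ω => w ω * Real.exp (-(x' * N ω))) (fun ω => lam * X ω)
      (fun ω => mul_nonneg (hw ω) (Real.exp_pos _).le) (pos_mul hw hp fun ω => Real.exp_pos _)
    have e2 : ∑ ω, w ω * Real.exp (-(x' * N ω)) * (lam * X ω) =
        lam * ∑ ω, w ω * Real.exp (-(x' * N ω)) * X ω := by
      rw [mul_sum]; exact sum_congr rfl fun ω _ => by ring
    rw [e2, mul_div_assoc] at h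
    rw [Zf_zero]; exact h
  have s2 : Real.log (Zf w N X x' lam) ≤ x * B + Real.log (Zf w N X x lam) := by
    have : Zf w N X x' lam ≤ Real.exp (x * B) * Zf w N X x lam := by
      unfold Zf
      rw [mul_sum]
      refine sum_le_sum fun ω _ => ?_
      have h1 : Real.exp (-(x' * N ω)) ≤ Real.exp (x * B) * Real.exp (-(x * N ω)) := by
        rw [← Real.exp_add]
        refine Real.exp_le_exp.2 ?_
        nlinarith [hN ω, mul_nonneg hx0 (hN ω).1, mul_le_mul_of_nonneg_left (hN ω).2 hx.le]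
      calc w ω * Real.exp (-(x' * N ω)) * Real.exp (lam * X ω)
          ≤ w ω * (Real.exp (x * B) * Real.exp (-(x * N ω))) * Real.exp (lam * X ω) :=
            mul_le_mul_of_nonneg_right (mul_le_mul_of_nonneg_left h1 (hw ω)) (Real.exp_pos _).le
        _ = _ := by ring
    have := Real.log_le_log (Zp _ _) this
    rwa [Real.log_mul (Real.exp_pos _).ne' (Zp _ _).ne', Real.log_exp] at this
  have s3 := hup x lam hx.le hl.le le_rfl
  have s4 : Real.log (Zf w N X x 0) ≤ Real.log (Zf w N X x' 0) := by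
    refine Real.log_le_log (Zp _ _) ?_
    rw [Zf_zero, Zf_zero]
    refine sum_le_sum fun ω _ => mul_le_mul_of_nonneg_left (Real.exp_le_exp.2 ?_) (hw ω)
    nlinarith [hN ω]
  have s4' := hlo x 0 hx.le le_rfl hl.le
  have s5 : ∀ i, Real.log (Zf (wb i) N X x lam) - Real.log (Zf (wb i) N X x 0) ≤
      lam * (2 / x * (Real.log (Zf (wb i) N X (x / 2) 0) - Real.log (Zf (wb i) N X x 0)) + e) := by
    intro i
    have hpi := pos_mul (hwb i) (hpb i) fun ω => Real.exp_pos (-(x * N ω))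
    have a := taylor (w := fun ω => wb i ω * Real.exp (-(x * N ω))) X
      (fun ω => mul_nonneg (hwb i ω) (Real.exp_pos _).le) hpi hl (hV i)
    have b := jensen_N N X (hwb i) (hpb i) x (x / 2)
    have d : av (wb i) N x X ≤ av (wb i) N x N :=
      div_le_div_of_nonneg_right (sum_le_sum fun ω _ => mul_le_mul_of_nonneg_left (hXN ω)
        (mul_nonneg (hwb i ω) (Real.exp_pos _).le)) hpi.le
    have f : av (wb i) N x N ≤
        2 / x * (Real.log (Zf (wb i) N X (x / 2) 0) - Real.log (Zf (wb i) N X x 0)) := by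
      rw [div_mul_eq_mul_div, le_div_iff₀ hx]; linarith
    rw [← Zf_zero (wb i) N X x] at a
    refine le_trans a (mul_le_mul_of_nonneg_left ?_ hl.le)
    have : (∑ ω, wb i ω * Real.exp (-(x * N ω)) * X ω) / Zf (wb i) N X x 0 = av (wb i) N x X := by
      rw [Zf_zero]; rfl
    rw [this]; linarith
  have s6 := sum_le_sum fun i (_ : i ∈ univ) => s5 i
  rw [sum_sub_distrib, ← mul_sum, sum_add_distrib, ← mul_sum, sum_sub_distrib, sum_const, card_univ,
    nsmul_eq_mul] at s6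
  have s7 := hlo (x / 2) 0 (by linarith) le_rfl hl.le
  have s7' := hup x 0 hx.le le_rfl hl.le
  have s8 := jensen_N N X hw hp (x / 2) x
  have s9 : 2 / x * (∑ i, Real.log (Zf (wb i) N X (x / 2) 0) - ∑ i, Real.log (Zf (wb i) N X x 0)) ≤
      av w N (x / 2) N + 2 * c / x := by
    rw [div_mul_eq_mul_div, div_le_iff₀ hx, add_mul, div_mul_cancel₀ _ hx.ne']; linarith
  have s10 := mul_le_mul_of_nonneg_left s9 hl.le
  have : av w N x' X ≤ (x * B + c) / lam + (av w N (x / 2) N + 2 * c / x + Fintype.card I * e) := by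
    rw [← sub_le_iff_le_add, le_div_iff₀ hl]; nlinarith
  linarith

end Crest.Agent.N337.Top.Sh
end

-- ▼ part N337/Top/Short
section

/-!
# Row 337, TOP: pressure closing (`ShortStmt` from `KillStmt` and `VarStmt`)
-/

set_option autoImplicit false
set_option linter.unusedSectionVars false

namespace Crest.Agent.N337.Top.Sh

open Finset Equiv Filter Crest.Agent.N337.Rep Crest.Agent.N337.Slot

section model
variable {Λ : Type} [Fintype Λ] [DecidableEq Λ] {T : ℕ} [NeZero T]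

/-- fugacity `y` at time `0`, killing off `S`. -/
def bk (S : Λ → Prop) [DecidablePred S] (y : ℝ) (v : Fin T × Λ) : ℝ := if S v.2 then bt y v else 0

/-- weights at fugacity one. -/
noncomputable def ww (ex ey : Fin T → Λ) (p : Fin T → ℝ) (S : Λ → Prop) [DecidablePred S]
    (ω : (Fin T → Bool) × (Fin T × Λ → Bool)) : ℝ :=
  Pw p ω.1 * if ∀ v, ω.2 (Sg ex ey ω.1 v) = ω.2 v then zd (bk S 1) ω.2 else 0

theorem zd_bk (S : Λ → Prop) [DecidablePred S] (y : ℝ) (D : Fin T × Λ → Bool) :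
    zd (bk S y) D = zd (bk S 1) D * y ^ N0 D := by
  have h : y ^ N0 D = ∏ v : Fin T × Λ, if v.1 = 0 ∧ D v = true then y else 1 := by
    rw [N0, Rep.pow_cnt, Fintype.prod_prod_type,
      Finset.prod_eq_single (0 : Fin T) (fun s _ hs => by simp [hs]) (by simp)]
    simp
  rw [h, zd, zd, ← prod_mul_distrib]
  refine prod_congr rfl fun v _ => ?_
  unfold bk bt
  by_cases h1 : D v = true <;> by_cases h2 : S v.2 <;> by_cases h3 : v.1 = 0 <;> simp [h1, h2, h3]

theorem zd_bk_nonneg (S : Λ → Prop) [DecidablePred S] (D : Fin T × Λ → Bool) :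
    0 ≤ zd (bk S 1) D :=
  prod_nonneg fun v _ => by unfold bk bt; split_ifs <;> norm_num

variable {ex ey : Fin T → Λ} {p : Fin T → ℝ}

theorem ww_nonneg (hp : ∀ s, 0 ≤ p s ∧ p s ≤ 1) (S : Λ → Prop) [DecidablePred S]
    (ω : (Fin T → Bool) × (Fin T × Λ → Bool)) : 0 ≤ ww ex ey p S ω := by
  refine mul_nonneg (Pw_nonneg hp _) ?_
  split_ifs
  · exact zd_bk_nonneg S _
  · exact le_rfl

theorem ww_pos (hp : ∀ s, 0 ≤ p s ∧ p s ≤ 1) (S : Λ → Prop) [DecidablePred S] :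
    0 < ∑ ω, ww ex ey p S ω := by
  obtain ⟨ξ, -, hξ⟩ := exists_ne_zero_of_sum_ne_zero ((sum_Pw p).trans_ne one_ne_zero)
  refine sum_pos' (fun ω _ => ww_nonneg hp S ω) ⟨(ξ, fun _ => false), mem_univ _, ?_⟩
  simpa [ww, zd] using (Pw_nonneg hp ξ).lt_of_ne hξ.symm

theorem EE_bk (S : Λ → Prop) [DecidablePred S] (x : ℝ)
    (F : Perm (Fin T × Λ) → (Fin T × Λ → Bool) → ℝ) :
    EE ex ey p (bk S (Real.exp (-x))) F =
      ∑ ω, ww ex ey p S ω * Real.exp (-(x * N0 ω.2)) * F (Sg ex ey ω.1) ω.2 := by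
  rw [EE, Fintype.sum_prod_type]
  refine sum_congr rfl fun ξ _ => ?_
  rw [mul_sum]
  refine sum_congr rfl fun D _ => ?_
  simp only [ww]
  split_ifs
  · rw [zd_bk, ← Real.exp_nat_mul]
    have : (N0 D : ℝ) * -x = -(x * N0 D) := by ring
    rw [this]; ring
  · simp

theorem Ns_le (K : ℕ) (π : Perm (Fin T × Λ)) (D : Fin T × Λ → Bool) : Ns K π D ≤ N0 D :=
  card_le_card fun x hx => by
    simp only [mem_filter, mem_univ, true_and] at hx ⊢
    exact hx.1

theorem N0_le (D : Fin T × Λ → Bool) : N0 D ≤ Fintype.card Λ := card_le_univ _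

end model

section geo
variable {L : ℕ} [NeZero L]

/-- the box of a site (`none`: corridor). -/
def bs (l m : ℕ) (x : Tor 3 L) : Option (Fin 3 → Fin m) :=
  if h : ∀ a, (x a).val % (l + 1) < l ∧ (x a).val / (l + 1) < m then
    some fun a => ⟨(x a).val / (l + 1), (h a).2⟩ else none

/-- corner of a box. -/
def cz (l : ℕ) {m : ℕ} (j : Fin 3 → Fin m) : Tor 3 L := fun a => (((j a).val * (l + 1) : ℕ) : ZMod L)

theorem bs_some {l m : ℕ} {x : Tor 3 L} {j : Fin 3 → Fin m} :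
    bs l m x = some j ↔ ∀ a, (x a).val % (l + 1) < l ∧ (x a).val / (l + 1) = (j a).val := by
  unfold bs
  split_ifs with h
  · simp only [Option.some.injEq]
    constructor
    · rintro rfl a; exact ⟨(h a).1, rfl⟩
    · intro h'; funext a; exact Fin.ext (h' a).2
  · simp only [false_iff]
    exact fun h' => h fun a => ⟨(h' a).1, (h' a).2 ▸ (j a).2⟩

theorem bs_none {l m : ℕ} {x : Tor 3 L} (h : bs l m x = none) :
    ∃ a, ¬ ((x a).val % (l + 1) < l ∧ (x a).val / (l + 1) < m) := by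
  unfold bs at h
  split_ifs at h with h'
  exact not_forall.1 h'

theorem val_sub_lt {l m j : ℕ} (hm : m * (l + 1) ≤ L) (hj : j < m) (u : ZMod L) :
    (u - ((j * (l + 1) : ℕ) : ZMod L)).val < l ↔ u.val % (l + 1) < l ∧ u.val / (l + 1) = j := by
  have h1 : j * (l + 1) + (l + 1) ≤ L := by
    have := Nat.mul_le_mul_right (l + 1) (Nat.succ_le_of_lt hj)
    rw [Nat.succ_mul] at this; omega
  have hc : (((j * (l + 1) : ℕ) : ZMod L)).val = j * (l + 1) := ZMod.val_cast_of_lt (by omega)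
  have hu := ZMod.val_lt u
  have hd := Nat.div_add_mod u.val (l + 1)
  have hr := Nat.mod_lt u.val (show 0 < l + 1 by omega)
  by_cases h : j * (l + 1) ≤ u.val
  · rw [ZMod.val_sub (by rwa [hc]), hc]
    constructor
    · intro h2
      have e : u.val / (l + 1) = j := Nat.div_eq_of_lt_le h (by rw [Nat.succ_mul]; omega)
      rw [e, mul_comm] at hd
      exact ⟨by omega, e⟩
    · rintro ⟨h2, e⟩
      rw [e, mul_comm] at hd; omega
  · have e : u - ((j * (l + 1) : ℕ) : ZMod L) = ((u.val + L - j * (l + 1) : ℕ) : ZMod L) := by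
      rw [Nat.cast_sub (by omega)]; simp
    rw [e, ZMod.val_cast_of_lt (by omega)]
    constructor
    · intro h2; omega
    · rintro ⟨h2, e⟩
      rw [e, mul_comm] at hd; omega

theorem mem_cube {l m : ℕ} (hm : m * (l + 1) ≤ L) (j : Fin 3 → Fin m) (x : Tor 3 L) :
    x ∈ cube (cz l j) l ↔ bs l m x = some j := by
  rw [bs_some]
  exact forall_congr' fun a => val_sub_lt hm (j a).2 (x a)

theorem bs_step {l m : ℕ} (hm : m * (l + 1) ≤ L) {x : Tor 3 L} {a : Fin 3} {i j : Fin 3 → Fin m}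
    (h1 : bs l m x = some i) (h2 : bs l m (x + Pi.single a 1) = some j) : i = j := by
  rw [bs_some] at h1 h2
  funext c
  refine Fin.ext ?_
  rw [← (h1 c).2, ← (h2 c).2]
  by_cases hc : c = a
  · subst hc
    have k1 := (h1 c).1
    have k2 := (h1 c).2
    have hd := Nat.div_add_mod (x c).val (l + 1)
    have h3 : (i c).val * (l + 1) + (l + 1) ≤ L := by
      have := Nat.mul_le_mul_right (l + 1) (Nat.succ_le_of_lt (i c).2)
      rw [Nat.succ_mul] at this; omega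
    rw [k2, mul_comm] at hd
    have e : (x c + 1).val = (x c).val + 1 := by
      have : x c + 1 = (((x c).val + 1 : ℕ) : ZMod L) := by simp
      rw [this, ZMod.val_cast_of_lt (by omega)]
    simp only [Pi.add_apply, Pi.single_eq_same]
    rw [e, k2]
    exact (Nat.div_eq_of_lt_le (by omega) (by rw [Nat.succ_mul]; omega)).symm
  · simp [Pi.single_eq_of_ne hc]

theorem card_bad {l m : ℕ} (hm : m = L / (l + 1)) (hq : l + 1 ≤ m) :
    (univ.filter fun u : ZMod L => ¬ (u.val % (l + 1) < l ∧ u.val / (l + 1) < m)).card ≤ 2 * m := by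
  have h : (univ.filter fun u : ZMod L => ¬ (u.val % (l + 1) < l ∧ u.val / (l + 1) < m)).card ≤
      ((range m).image (fun k => k * (l + 1) + l) ∪ Ico (m * (l + 1)) L).card := by
    refine card_le_card_of_injOn ZMod.val (fun u hu => ?_) (ZMod.val_injective L).injOn
    simp only [coe_filter, mem_univ, true_and, Set.mem_ofPred_eq] at hu
    have hd := Nat.div_add_mod u.val (l + 1)
    have hr := Nat.mod_lt u.val (show 0 < l + 1 by omega)
    simp only [coe_union, Set.mem_union, mem_coe, mem_image, mem_range, mem_Ico]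
    by_cases h1 : u.val / (l + 1) < m
    · refine Or.inl ⟨_, h1, ?_⟩
      have : ¬ u.val % (l + 1) < l := fun h => hu ⟨h, h1⟩
      rw [mul_comm]; omega
    · refine Or.inr ⟨?_, ZMod.val_lt u⟩
      exact (Nat.mul_le_mul_right _ (not_lt.1 h1)).trans (Nat.div_mul_le_self _ _)
  refine h.trans ((card_union_le _ _).trans ?_)
  have h1 : ((range m).image fun k => k * (l + 1) + l).card ≤ m := card_image_le.trans (by simp)
  have h2 := Nat.div_add_mod L (l + 1)
  have h3 := Nat.mod_lt L (show 0 < l + 1 by omega)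
  rw [← hm, mul_comm] at h2
  rw [Nat.card_Ico]; omega

theorem card_coord (a : Fin 3) (B : Finset (ZMod L)) :
    (univ.filter fun x : Tor 3 L => x a ∈ B).card = B.card * L ^ 2 := by
  have : (univ.filter fun x : Tor 3 L => x a ∈ B) =
      Fintype.piFinset (Function.update (fun _ => (univ : Finset (ZMod L))) a B) := by
    ext x
    simp only [mem_filter, mem_univ, true_and, Fintype.mem_piFinset]
    constructor
    · intro h c
      by_cases hc : c = a
      · subst hc; simpa using h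
      · simp [Function.update_of_ne hc]
    · intro h; simpa using h a
  rw [this, Fintype.card_piFinset, ← mul_prod_erase univ _ (mem_univ a), Function.update_self,
    prod_congr rfl fun c hc => by rw [Function.update_of_ne (ne_of_mem_erase hc)]]
  simp [ZMod.card]

theorem card_corr {l m : ℕ} (hm : m = L / (l + 1)) (hq : l + 1 ≤ m) :
    (univ.filter fun x : Tor 3 L => bs l m x = none).card * l ≤ 6 * L ^ 3 := by
  set B := univ.filter fun u : ZMod L => ¬ (u.val % (l + 1) < l ∧ u.val / (l + 1) < m)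
  have h : (univ.filter fun x : Tor 3 L => bs l m x = none).card ≤ 3 * (2 * m * L ^ 2) := by
    have : (univ.filter fun x : Tor 3 L => bs l m x = none) ⊆
        univ.biUnion fun a : Fin 3 => univ.filter fun x : Tor 3 L => x a ∈ B := by
      intro x hx
      obtain ⟨a, ha⟩ := bs_none (mem_filter.1 hx).2
      exact mem_biUnion.2 ⟨a, mem_univ _, mem_filter.2 ⟨mem_univ _, mem_filter.2 ⟨mem_univ _, ha⟩⟩⟩
    refine (card_le_card this).trans (card_biUnion_le.trans ?_)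
    refine (sum_le_card_nsmul _ _ (2 * m * L ^ 2) fun a _ => ?_).trans (by simp)
    rw [card_coord]
    exact Nat.mul_le_mul_right _ (card_bad hm hq)
  have h2 : m * l ≤ L := by
    have := Nat.div_mul_le_self L (l + 1)
    rw [← hm, Nat.mul_succ] at this; omega
  calc _ ≤ 3 * (2 * m * L ^ 2) * l := Nat.mul_le_mul_right _ h
    _ = 6 * L ^ 2 * (m * l) := by ring
    _ ≤ 6 * L ^ 2 * L := Nat.mul_le_mul_left _ h2
    _ = _ := by ring

end geo

section word
variable {L n : ℕ} [NeZero L] [NeZero n] {β : ℝ} {w : ℕ} {sy : List (Sl L n × Sl L n × ℝ)}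

theorem stp_cases (hs : Sym sy) (s : Fin (TT β w sy)) :
    (s % (lay sy).length < (bl L n).length ∧ ∃ q, stp β w sy s = ends q) ∨
      (¬ s % (lay sy).length < (bl L n).length ∧ stp β w sy s ∈ sy) := by
  have _ := hs
  have hlt : s % (lay sy).length < (bl L n ++ sy).length := Nat.mod_lt _ (NeZero.pos (lay sy).length)
  have e : stp β w sy s = (bl L n ++ sy)[s % (lay sy).length] := rfl
  by_cases h : s % (lay sy).length < (bl L n).length
  · refine Or.inl ⟨h, ?_⟩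
    have : stp β w sy s ∈ bl L n := by
      rw [e, List.getElem_append_left h]
      exact List.getElem_mem _
    obtain ⟨q, -, hq⟩ := List.mem_map.1 this
    exact ⟨q, hq.symm⟩
  · refine Or.inr ⟨h, ?_⟩
    rw [e, List.getElem_append_right (not_lt.1 h)]
    exact List.getElem_mem _

theorem le_MM (β : ℝ) (w : ℕ) : β ≤ MM β w := by
  have h1 := Nat.lt_floor_add_one β
  have h2 : ⌊β⌋₊ + 1 ≤ MM β w := Nat.le_mul_of_pos_right _ (Nat.succ_pos w)
  have h3 : ((⌊β⌋₊ + 1 : ℕ) : ℝ) ≤ MM β w := by exact_mod_cast h2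
  push_cast at h3; linarith

theorem MM_pos (β : ℝ) (w : ℕ) : (0 : ℝ) < MM β w := by exact_mod_cast NeZero.pos (MM β w)

theorem pp_mem (hβ : 0 ≤ β) (hs : Sym sy) (s : Fin (TT β w sy)) :
    0 ≤ pp β w sy s ∧ pp β w sy s ≤ 1 / 2 := by
  have hM := MM_pos β w
  unfold pp
  rcases stp_cases (β := β) (w := w) hs s with ⟨h, -⟩ | ⟨h, h'⟩
  · rw [if_pos h]
    refine ⟨by positivity, ?_⟩
    rw [div_le_iff₀ (by positivity)]; linarith [le_MM β w]
  · rw [if_neg h]
    split_ifs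
    · exact hs.prob _ h'
    · norm_num

theorem sum_mod (M E : ℕ) (g : ℕ → ℝ) :
    ∑ s ∈ range (M * E), g (s % E) = M * ∑ i ∈ range E, g i := by
  induction M with
  | zero => simp
  | succ M ih =>
    rw [Nat.succ_mul, sum_range_add, ih]
    have : ∑ i ∈ range E, g ((M * E + i) % E) = ∑ i ∈ range E, g i :=
      sum_congr rfl fun i hi => by rw [Nat.mul_add_mod_self_right, Nat.mod_eq_of_lt (mem_range.1 hi)]
    rw [this]; push_cast; ring

theorem sum_stp (G : Sl L n × Sl L n × ℝ → ℝ) :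
    ∑ s, G (stp β w sy s) = MM β w * ((lay sy).map G).sum := by
  set g : ℕ → ℝ := fun i => if h : i < (lay sy).length then G ((lay sy).get ⟨i, h⟩) else 0 with hg
  have h1 : ∑ s, G (stp β w sy s) = ∑ s : Fin (TT β w sy), g (s.val % (lay sy).length) :=
    sum_congr rfl fun s _ => by simp only [hg]; rw [dif_pos (Nat.mod_lt _ (NeZero.pos _))]; rfl
  rw [h1, Fin.sum_univ_eq_sum_range (fun s => g (s % (lay sy).length)), sum_mod,
    ← Fin.sum_univ_eq_sum_range, ← Fin.sum_univ_fun_getElem]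
  congr 1
  exact sum_congr rfl fun i _ => by simp [hg]

theorem cross_le (hβ : 0 ≤ β) (hs : Sym sy) (P : Tor 3 L → Prop) [DecidablePred P] :
    ∑ s ∈ univ.filter (fun s => ¬ (P (ex β w sy s).1 ↔ P (ey β w sy s).1)), pp β w sy s ≤
      3 * n ^ 2 * β * (univ.filter P).card := by
  set G : Sl L n × Sl L n × ℝ → ℝ := fun r => if ¬ (P r.1.1 ↔ P r.2.1.1) then 1 else 0 with hG
  have hM := MM_pos β w
  have h1 : ∑ s ∈ univ.filter (fun s => ¬ (P (ex β w sy s).1 ↔ P (ey β w sy s).1)), pp β w sy s =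
      β / (2 * MM β w) * ∑ s, G (stp β w sy s) := by
    rw [sum_filter, mul_sum]
    refine sum_congr rfl fun s _ => ?_
    simp only [hG]
    by_cases h : ¬ (P (ex β w sy s).1 ↔ P (ey β w sy s).1)
    · rw [if_pos h, if_pos (show ¬ (P (stp β w sy s).1.1 ↔ P (stp β w sy s).2.1.1) from h), mul_one]
      rcases stp_cases (β := β) (w := w) hs s with ⟨h2, -⟩ | ⟨-, h'⟩
      · rw [pp, if_pos h2]
      · exact absurd (by rw [ex, ey, hs.site _ h']) h
    · rw [if_neg h, if_neg (show ¬ ¬ (P (stp β w sy s).1.1 ↔ P (stp β w sy s).2.1.1) from h),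
        mul_zero]
  have h2 : ((lay sy).map G).sum = ∑ q : Bd L n, G (ends q) := by
    rw [lay, List.map_append, List.sum_append, bl, List.map_map, sum_map_toList,
      List.sum_eq_zero (l := sy.map G), add_zero]
    · rfl
    · intro r hr
      obtain ⟨q, hq, rfl⟩ := List.mem_map.1 hr
      simp [hG, hs.site _ hq]
  have h3 : ∑ q : Bd L n, G (ends q) ≤ 6 * n ^ 2 * (univ.filter P).card := by
    have a : ∀ q : Bd L n, G (ends q) ≤ (if P q.1 then 1 else 0) +
        (if P (q.1 + Pi.single q.2.1 1) then 1 else 0) := fun q => by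
      simp only [hG, ends]
      by_cases c1 : P q.1 <;> by_cases c2 : P (q.1 + Pi.single q.2.1 1) <;> simp [c1, c2]
    have b : ∀ e : Tor 3 L, ∑ z : Tor 3 L, (if P (z + e) then (1 : ℝ) else 0) =
        (univ.filter P).card := fun e => by
      refine (Equiv.sum_comp (Equiv.addRight e) fun z => if P z then (1 : ℝ) else 0).trans ?_
      simp
    have b0 := b 0
    simp only [add_zero] at b0
    refine (sum_le_sum fun q _ => a q).trans (le_of_eq ?_)
    rw [Fintype.sum_prod_type_right]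
    simp only [sum_add_distrib, b, b0, sum_const, card_univ, Fintype.card_prod, Fintype.card_fin,
      nsmul_eq_mul]
    push_cast; ring
  rw [h1, sum_stp, h2, ← mul_assoc, show β / (2 * MM β w) * MM β w = β / 2 by field_simp]
  calc β / 2 * ∑ q : Bd L n, G (ends q) ≤ β / 2 * (6 * n ^ 2 * (univ.filter P).card) :=
        mul_le_mul_of_nonneg_left h3 (by linarith)
    _ = _ := by ring

theorem card_slot (P : Tor 3 L → Prop) [DecidablePred P] :
    (univ.filter fun x : Sl L n => P x.1).card = (univ.filter P).card * n := by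
  have : (univ.filter fun x : Sl L n => P x.1) = univ.filter P ×ˢ univ := by ext x; simp
  rw [this, card_product]; simp

end word

end Crest.Agent.N337.Top.Sh

namespace Crest.Agent.N337.Top

open Finset Equiv Filter Crest.Agent.N337.Rep Crest.Agent.N337.Slot Sh

theorem short (hK : KillStmt) (hV : VarStmt) : ShortStmt := by
  intro n _
  obtain ⟨β0, hV⟩ := hV n
  refine ⟨max β0 1, fun β hβ K ε hε => ?_⟩
  have hβ1 : 1 ≤ β := (le_max_right _ _).trans hβ
  have hn : (1 : ℝ) ≤ n := by exact_mod_cast NeZero.pos n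
  set e : ℝ := min (ε / (400 * n ^ 2)) (1 / (K + 1)) with he
  have e0 : 0 < e := lt_min (by positivity) (by positivity)
  have e1 : e * (400 * n ^ 2) ≤ ε := (le_div_iff₀ (by positivity)).1 (min_le_left _ _)
  have e2 : e * (K + 1) ≤ 1 := (le_div_iff₀ (by positivity)).1 (min_le_right _ _)
  have hK0 : (0 : ℝ) ≤ K := Nat.cast_nonneg K
  have e3 : e ≤ 1 := by nlinarith
  obtain ⟨x, lam, l, hx, hxl, hle, hbl, hV⟩ := hV β ((le_max_left _ _).trans hβ) K e e0
  have hl : 0 < lam := pos_of_mul_pos_left (hx.trans_le (hxl.trans_eq (mul_comm _ _))) e0.le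
  refine ⟨x, hx, ?_⟩
  filter_upwards [hV, eventually_ge_atTop ((l + 1) * (l + 1))] with L hV hL sy hs
  filter_upwards [hV sy hs] with w hV x' hx0 hx'
  obtain ⟨m, hm⟩ : ∃ m, m = (L + 1) / (l + 1) := ⟨_, rfl⟩
  have hq : l + 1 ≤ m := hm ▸ (Nat.le_div_iff_mul_le (Nat.succ_pos l)).2 (hL.trans (Nat.le_succ L))
  have hmq : m * (l + 1) ≤ L + 1 := hm ▸ Nat.div_mul_le_self _ _
  have hp := pp_mem (w := w) (show 0 ≤ β by linarith) hs
  have hp1 : ∀ s, 0 ≤ pp β w sy s ∧ pp β w sy s ≤ 1 := fun s => ⟨(hp s).1, by linarith [(hp s).2]⟩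
  set V : ℝ := ((L + 1 : ℕ) : ℝ) ^ 3 with hVd
  set Cs : ℝ := ((univ.filter fun z : Tor 3 (L + 1) => bs l m z = none).card : ℝ) with hCs
  have hC0 : 0 ≤ Cs := Nat.cast_nonneg _
  have hC : Cs * l ≤ 6 * V := by
    have := card_corr (L := L + 1) hm hq
    rw [hCs, hVd]; exact_mod_cast this
  set c : ℝ := 17 * n ^ 2 * β * Cs with hc
  have hbt : ∀ y : ℝ, (bt y : Fin (TT β w sy) × Sl (L + 1) n → ℝ) = bk (fun _ => True) y :=
    fun y => by funext v; simp [bk]
  have key := chain (I := Fin 3 → Fin m)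
    (w := ww (ex β w sy) (ey β w sy) (pp β w sy) fun _ => True)
    (wb := fun j => ww (ex β w sy) (ey β w sy) (pp β w sy) fun v => bs l m v.1 = some j)
    (N := fun ω => (N0 ω.2 : ℝ)) (X := fun ω => (Ns K (Sg (ex β w sy) (ey β w sy) ω.1) ω.2 : ℝ))
    (ww_nonneg hp1 _) (ww_pos hp1 _) (fun j => ww_nonneg hp1 _) (fun j => ww_pos hp1 _)
    (x := x) (x' := x') (lam := lam) (c := c) (e := e * (l : ℝ) ^ 3) (B := V * n)
    (fun ω => by exact_mod_cast Ns_le K _ _)
    (fun ω => ⟨Nat.cast_nonneg _, by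
      have := N0_le ω.2
      simp only [Fintype.card_prod, Fintype.card_pi, ZMod.card, prod_const, card_univ,
        Fintype.card_fin] at this
      rw [hVd]; exact_mod_cast this⟩) hx hx0 hx' hl ?_ ?_
  · have a1 : ∀ (y : ℝ) (F : Perm (Fin (TT β w sy) × Sl (L + 1) n) →
        (Fin (TT β w sy) × Sl (L + 1) n → Bool) → ℝ),
        EW β w sy (bt (Real.exp (-y))) F / EW β w sy (bt (Real.exp (-y))) (fun _ _ => 1) =
          av (ww (ex β w sy) (ey β w sy) (pp β w sy) fun _ => True) (fun ω => (N0 ω.2 : ℝ)) y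
            fun ω => F (Sg (ex β w sy) (ey β w sy) ω.1) ω.2 := fun y F => by
      rw [EW, EW, hbt, EE_bk, EE_bk]; simp [av]
    rw [a1, a1]
    refine key.trans ?_
    have V0 : 0 ≤ V := by positivity
    have hn2 : (n : ℝ) ≤ n ^ 2 := by nlinarith
    have b1 : c ≤ 102 * n ^ 2 * e * x * V := by
      calc c ≤ 17 * n ^ 2 * (e * x * l) * Cs := by
            rw [hc]; gcongr
        _ = 17 * n ^ 2 * e * x * (Cs * l) := by ring
        _ ≤ 17 * n ^ 2 * e * x * (6 * V) := by gcongr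
        _ = _ := by ring
    have b2 : 2 * c / x ≤ 204 * (n ^ 2 * e * V) := by
      rw [div_le_iff₀ hx]; nlinarith
    have b3 : (x * (V * n) + c) / lam ≤ 103 * (n ^ 2 * e * V) := by
      rw [div_le_iff₀ hl]
      have t1 : x * (V * n) ≤ e * lam * (V * n ^ 2) := by gcongr
      have t2 : x ≤ lam := hxl.trans (mul_le_of_le_one_left hl.le e3)
      have t3 : 102 * n ^ 2 * e * x * V ≤ 102 * n ^ 2 * e * lam * V := by gcongr
      nlinarith
    have b4 : (Fintype.card (Fin 3 → Fin m) : ℝ) * (e * (l : ℝ) ^ 3) ≤ n ^ 2 * e * V := by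
      have t1 : (m : ℝ) * l ≤ (L + 1 : ℕ) := by
        have : m * l ≤ L + 1 := (Nat.mul_le_mul_left m (Nat.le_succ l)).trans hmq
        exact_mod_cast this
      have t2 : ((m : ℝ) * l) ^ 3 ≤ V := pow_le_pow_left₀ (by positivity) t1 3
      have t3 : (1 : ℝ) ≤ n ^ 2 := by nlinarith
      simp only [Fintype.card_pi, Fintype.card_fin, prod_const, card_univ]
      push_cast
      calc (m : ℝ) ^ 3 * (e * l ^ 3) = 1 * e * (m * l) ^ 3 := by ring
        _ ≤ n ^ 2 * e * V := by gcongr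
    have b5 : 400 * (n ^ 2 * e * V) ≤ ε * V := by nlinarith
    have b6 : 0 ≤ n ^ 2 * e * V := by positivity
    linarith
  · intro y t hy ht htl
    have hy1 : Real.exp (-y) ≤ 1 := Real.exp_le_one_iff.2 (by linarith)
    have k := hK (Sl (L + 1) n) (TT β w sy) (ex β w sy) (ey β w sy) (pp β w sy)
      (bt (Real.exp (-y))) (Fin 3 → Fin m) (fun v => bs l m v.1) K t hp
      (fun v => by unfold bt; split_ifs; exacts [⟨(Real.exp_pos _).le, hy1⟩, by norm_num]) ht
      (by nlinarith [mul_le_mul_of_nonneg_right (htl.trans hle) hK0])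
      (by
        intro s i j h1 h2
        rcases stp_cases (β := β) (w := w) hs s with ⟨-, q, hq⟩ | ⟨-, h'⟩
        · simp only [ex, ey, hq, ends] at h1 h2
          exact bs_step hmq h1 h2
        · simp only [ex, ey] at h1 h2
          rw [hs.site _ h', h2] at h1
          exact (Option.some.inj h1).symm)
    simp only at k
    have r1 : ∀ j : Fin 3 → Fin m, (fun v : Fin (TT β w sy) × Sl (L + 1) n =>
        if bs l m v.2.1 = some j then bt (Real.exp (-y)) v else 0) =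
        bk (fun v => bs l m v.1 = some j) (Real.exp (-y)) := fun j => rfl
    simp only [r1] at k
    rw [hbt] at k
    simp only [EE_bk] at k
    refine ⟨k.1, k.2.trans (mul_le_mul_of_nonneg_right (Real.exp_le_exp.2 ?_)
      (prod_nonneg fun j _ => (Zf_pos _ _ (ww_nonneg hp1 _) (ww_pos hp1 _) _ _).le))⟩
    have c1 := cross_le (w := w) (show 0 ≤ β by linarith) hs fun z => bs l m z = none
    rw [card_slot (n := n) fun z => bs l m z = none]
    push_cast
    rw [← hCs] at c1 ⊢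
    have : Cs * n ≤ n ^ 2 * β * Cs := by
      rw [mul_comm]; exact mul_le_mul_of_nonneg_right (by nlinarith) hC0
    linarith
  · intro j t ht htl
    have k := hV (cz l j) t ht htl
    have r1 : (bx (Real.exp (-x)) (cz l j) l : Fin (TT β w sy) × Sl (L + 1) n → ℝ) =
        bk (fun v => bs l m v.1 = some j) (Real.exp (-x)) := by
      funext v; simp only [bx, bk, mem_cube hmq]
    simp only [EW, r1, EE_bk] at k
    exact k

end Crest.Agent.N337.Top
end

-- ▼ part N337/A/Lat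
section

/-!
# Row 337, block (a): the word of the torus (metric, rates, coordinates); slow pins from the rung
-/

set_option autoImplicit false
set_option linter.unusedSectionVars false

namespace Crest.Agent.N337.A

open Finset Equiv Crest.Agent.N337.Top Crest.Agent.N337.Top.Sh Crest.Agent.N337.Free

section word
variable {L n : ℕ} [NeZero L] [NeZero n] {β : ℝ} {w : ℕ} {sy : List (Sl L n × Sl L n × ℝ)}

/-- distance of the sites of two slots. -/
def dS (x y : Sl L n) : ℕ := tdist x.1 y.1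

lemma tdist_single (z : Tor 3 L) (a : Fin 3) : tdist z (z + Pi.single a 1) ≤ 1 := by
  refine tdist_le_iff.2 fun b => ?_
  rw [Pi.add_apply, add_sub_cancel_left, ZMod.valMinAbs_natAbs_eq_min]
  refine (min_le_left _ _).trans ?_
  by_cases h : b = a
  · rw [h, Pi.single_eq_same, ← Nat.cast_one, ZMod.val_natCast]; exact Nat.mod_le _ _
  · rw [Pi.single_eq_of_ne h, ZMod.val_zero]; omega

theorem met_word (hs : Sym sy) : Met (ex β w sy) (ey β w sy) dS := by
  refine ⟨fun _ => tdist_self _, fun _ _ => tdist_comm _ _, fun _ _ _ => tdist_triangle _ _ _,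
    fun s => ?_⟩
  rcases stp_cases (β := β) (w := w) hs s with ⟨-, q, h⟩ | ⟨-, h⟩
  · rw [dS, ex, ey, h]; exact tdist_single _ _
  · rw [dS, ex, ey, hs.site _ h, tdist_self]; omega

/-- rate bound of the word. -/
noncomputable def Kw (n : ℕ) (β : ℝ) (r : ℕ) : ℕ := 2 * n ^ 2 * (⌊β⌋₊ + 1) * (2 * r + 1) ^ 3

theorem rate_word (hβ : 0 ≤ β) (hs : Sym sy) (b : Fin (TT β w sy) × Sl L n → ℝ) {r : ℕ}
    (hw : 60 * n ^ 2 * (2 * r + 1) ^ 3 ≤ w + 1) :
    Rate (ex β w sy) (ey β w sy) dS ⟨pp β w sy, b⟩ r (Kw n β r) := by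
  classical
  have hM := MM_pos β w
  have hE : 0 < (lay sy).length := NeZero.pos _
  have hb := (Nat.lt_floor_add_one β).le
  have hX : (0 : ℝ) ≤ 3 * n ^ 2 * (2 * r + 1) ^ 3 := by positivity
  refine ⟨fun s _ => (Sh.pp_mem hβ hs s).2, MM β w, fun s => s / (lay sy).length,
    β / (2 * MM β w) * (3 * n ^ 2 * (2 * r + 1) ^ 3), fun s t h => Nat.div_le_div_right h,
    fun s => (Nat.div_lt_iff_lt_mul hE).2 s.2, ?_, ?_, fun x j => ?_⟩
  · have h1 : (60 * n ^ 2 * (2 * r + 1) ^ 3 : ℝ) ≤ w + 1 := by exact_mod_cast hw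
    have h2 : (MM β w : ℝ) = (⌊β⌋₊ + 1) * (w + 1) := by simp [MM]
    rw [div_mul_eq_mul_div, ← mul_div_assoc, div_le_one (by positivity), h2]
    nlinarith [mul_le_mul hb h1 (by positivity) (by positivity)]
  · rw [show β / (2 * MM β w) * (3 * n ^ 2 * (2 * r + 1) ^ 3) * MM β w =
      β / 2 * (3 * n ^ 2 * (2 * r + 1) ^ 3) by field_simp, Kw]
    push_cast
    nlinarith [mul_le_mul_of_nonneg_right hb hX]
  · set I := univ.filter fun s : Fin (TT β w sy) => s / (lay sy).length = j ∧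
      ¬ Cheap (ex β w sy) (ey β w sy) dS ⟨pp β w sy, b⟩ s ∧ dS x (ex β w sy s) ≤ r with hI
    have h1 : ∀ s ∈ I, s % (lay sy).length < (bl L n).length := fun s h => by
      rcases stp_cases (β := β) (w := w) hs s with ⟨h2, -⟩ | ⟨-, h2⟩
      · exact h2
      · exact absurd (Or.inr (by rw [dS, ex, ey, hs.site _ h2, tdist_self])) (mem_filter.1 h).2.2.1
    have hl : (bl L n).length = (univ : Finset (Bd L n)).toList.length := List.length_map _
    let f : Fin (TT β w sy) → Bd L n := fun s => if h : s % (lay sy).length < (bl L n).length then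
      (univ : Finset (Bd L n)).toList[s % (lay sy).length]'(hl ▸ h) else default
    have h2 : I.card ≤ ((univ.filter fun z => tdist x.1 z ≤ r) ×ˢ
        (univ : Finset (Fin 3 × Fin n × Fin n))).card := by
      refine card_le_card_of_injOn f (fun s h => ?_) fun s h t h' e => ?_
      · have h3 : stp β w sy s = ends (f s) := by
          have hlt : s % (lay sy).length < (bl L n ++ sy).length := Nat.mod_lt _ hE
          have e : stp β w sy s = (bl L n ++ sy)[s % (lay sy).length] := rfl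
          rw [e, List.getElem_append_left (h1 s h)]
          simp only [f, dif_pos (h1 s h)]
          simp only [bl, List.getElem_map]
        have h4 := (mem_filter.1 h).2.2.2
        rw [dS, ex, h3] at h4
        simpa [ends] using h4
      · simp only [f, dif_pos (h1 s h), dif_pos (h1 t h')] at e
        rw [(nodup_toList _).getElem_inj_iff] at e
        have e' := (mem_filter.1 h).2.1.trans (mem_filter.1 h').2.1.symm
        exact Fin.ext (by rw [← Nat.div_add_mod s (lay sy).length, e, e', Nat.div_add_mod])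
    rw [card_product, card_univ] at h2
    have h3 : (I.card : ℝ) ≤ 3 * n ^ 2 * (2 * r + 1) ^ 3 := by
      have := h2.trans (Nat.mul_le_mul_right _ (card_ball_le x.1 r))
      simp only [Fintype.card_prod, Fintype.card_fin] at this
      exact (Nat.cast_le.2 this).trans (le_of_eq (by push_cast; ring))
    rw [sum_congr rfl fun s h => show pp β w sy s = β / (2 * MM β w) from if_pos (h1 s h), sum_const,
      nsmul_eq_mul, mul_comm]
    exact mul_le_mul_of_nonneg_left h3 (by positivity)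

/-- coordinates seen from the corner `z`. -/
def coz (z : Tor 3 L) (x : Sl L n) (a : Fin 3) : ℕ := (x.1 a - z a).val

lemma sub_eq_cast {u v : ZMod L} (h : v.val ≤ u.val) : u - v = ((u.val - v.val : ℕ) : ZMod L) := by
  rw [Nat.cast_sub h, ZMod.natCast_zmod_val, ZMod.natCast_zmod_val]

lemma coz_lip {z : Tor 3 L} {l : ℕ} (hl : 2 * l ≤ L) {x : Sl L n} (hx : x.1 ∈ cube z l) (y : Sl L n)
    (a : Fin 3) : coz z x a ≤ coz z y a + dS x y := by
  rcases le_total (coz z x a) (coz z y a) with h | h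
  · omega
  · have h1 := le_tdist y.1 x.1 a
    have h2 : coz z x a < l := hx a
    rw [show x.1 a - y.1 a = (x.1 a - z a) - (y.1 a - z a) by ring, sub_eq_cast h,
      ZMod.valMinAbs_natCast_of_le_half (by unfold coz at h2; omega), Int.natAbs_natCast,
      tdist_comm] at h1
    unfold coz dS at *
    omega

lemma dS_le {z : Tor 3 L} {x y : Sl L n} {r : ℕ} (h : ∀ a, coz z x a ≤ coz z y a + r)
    (h' : ∀ a, coz z y a ≤ coz z x a + r) : dS x y ≤ r := by
  refine tdist_le_iff.2 fun a => ?_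
  have key : ∀ u v : ZMod L, v.val ≤ u.val → u.val ≤ v.val + r → (u - v).valMinAbs.natAbs ≤ r :=
    fun u v h1 h2 => by
      rw [ZMod.valMinAbs_natAbs_eq_min, sub_eq_cast h1, ZMod.val_natCast]
      exact (min_le_left _ _).trans ((Nat.mod_le _ _).trans (by omega))
  rw [show y.1 a - x.1 a = (y.1 a - z a) - (x.1 a - z a) by ring]
  rcases le_total (coz z x a) (coz z y a) with h1 | h1
  · exact key _ _ h1 (h' a)
  · rw [← ZMod.natAbs_valMinAbs_neg, neg_sub]; exact key _ _ h1 (h a)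

lemma Kw_le {Y : ℕ} (h : 2 * n ^ 2 * (⌊β⌋₊ + 1) ≤ Y) (r : ℕ) : Kw n β r ≤ Y * (2 * r + 1) ^ 3 :=
  Nat.mul_le_mul_right _ h

open Classical in
/-- the slots of a cube. -/
noncomputable def cubeS (n : ℕ) (z : Tor 3 L) (l : ℕ) : Finset (Sl L n) :=
  univ.filter fun x => x.1 ∈ cube z l

lemma mem_cubeS {z : Tor 3 L} {l : ℕ} {x : Sl L n} : x ∈ cubeS n z l ↔ x.1 ∈ cube z l := by
  simp [cubeS]


section
variable {z : Tor 3 L} {l q wd : ℕ} {S : Finset (Sl L n)} (hl : 2 * l ≤ L)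
  (hS : ∀ x ∈ S, x.1 ∈ cube z l)
include hl hS

lemma cor_cover {R : ℕ} (hq : wd + 2 * R ≤ q) :
    ∀ x ∈ S, ∃ i, x ∉ nbd dS R (Cor S (coz z) q wd i) := fun _ hx =>
  Cor_cover (fun _ _ => tdist_comm _ _) (fun x hx y _ => coz_lip hl (hS x hx) y) hq hx

lemma blk_apart (hs : Sym sy) (hw : 1 ≤ wd) (i : Fin 4) :
    Gas.Apart (ex β w sy) (ey β w sy) (Blk S (coz z) q wd i) :=
  Blk_apart (met_word hs) (fun x hx y _ => coz_lip hl (hS x hx) y) hw

end

lemma blk_diam {z : Tor 3 L} {q wd : ℕ} {S : Finset (Sl L n)} {i : Fin 4} {j : Fin 3 → ℕ}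
    {x y : Sl L n} (hq : 0 < q) (hx : x ∈ Blk S (coz z) q wd i j) (hy : y ∈ Blk S (coz z) q wd i j) :
    dS x y ≤ 4 * q := dS_le (Blk_diam hq hx hy) (Blk_diam hq hy hx)

end word

/-! ### slow pins -/

section slow
variable {X α κ : Type} [Fintype X] [SemilatticeSup α] [Preorder κ] {S : Rg.Sys X α κ}
  {dd : ℕ} {E : α} {Z : κ}

lemma ivt_path {φ : ℕ → ℕ} {s u k : ℕ} (hsu : s ≤ u) (h : ∀ r, s ≤ r → r < u → φ (r + 1) ≤ φ r + 1)
    (h0 : φ s ≤ k) (h1 : k ≤ φ u) : ∃ r, s ≤ r ∧ r ≤ u ∧ φ r = k := by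
  induction u, hsu using Nat.le_induction with
  | base => exact ⟨s, le_rfl, le_rfl, le_antisymm h0 h1⟩
  | succ u hu ih =>
    rcases le_or_gt k (φ u) with h2 | h2
    · obtain ⟨r, a, b, c⟩ := ih (fun r a b => h r a (by omega)) h2
      exact ⟨r, a, by omega, c⟩
    · exact ⟨u + 1, by omega, le_rfl, by have := h u hu (by omega); omega⟩

/-- escape length: total width of the covers of the scales `< m`. -/
def esc (S : Rg.Sys X α κ) (τ m : ℕ) : ℕ := ∑ k ∈ range m, (τ + 1) * S.a * (2 * S.rad k τ + 1)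

lemma esc_le {τ : ℕ}
    (hρ : ∀ m, (τ + 1) * S.a * (2 * S.rad m τ + 1) + 3 * τ * S.H m ≤ S.ρ (m + 1)) (m : ℕ) :
    esc S τ m ≤ S.loc m := by
  induction m with
  | zero => exact Nat.zero_le _
  | succ m ih => have := hρ m; simp only [esc, sum_range_succ, Rg.Sys.loc] at ih ⊢; omega

/-- a long lattice path that starts in a good cell meets a good base cell long before its end. -/
theorem exists_base {τ J : ℕ} (hτ : S.k0 + S.oc + dd ≤ τ)
    (hρ : ∀ m, (τ + 1) * S.a * (2 * S.rad m τ + 1) + 3 * τ * S.H m ≤ S.ρ (m + 1)) {γ : ℕ → X} {u : ℕ}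
    (m : ℕ) : ∀ s ≤ u, (∀ r, s ≤ r → r < u → S.d (γ r) (γ (r + 1)) ≤ 1) →
      S.Good dd E Z m τ (γ s) → J + esc S τ m < S.d (γ s) (γ u) →
      ∃ r, s ≤ r ∧ r ≤ u ∧ S.G0 τ E Z (γ r) ∧ J < S.d (γ r) (γ u) := by
  classical
  induction m with
  | zero => exact fun s hs _ h1 h2 => ⟨s, le_rfl, hs, h1, h2⟩
  | succ m ih =>
    intro s hs hγ h1 h2
    have h3 := hρ m
    have h4 := h1.card_cov
    rw [esc, sum_range_succ, ← esc] at h2
    have h5 : ∀ i : Fin ((τ + 1) * S.a + 1), ∃ r, s ≤ r ∧ r ≤ u ∧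
        S.d (γ s) (γ r) = i * (2 * S.rad m τ + 1) := fun i =>
      ivt_path hs (fun r a b => (S.d_tri _ (γ r) _).trans (Nat.add_le_add_left (hγ r a b) _))
        (by rw [S.d_self]; omega) (by nlinarith [Nat.le_of_lt_succ i.2])
    choose r r1 r2 r3 using h5
    have h6 : ∃ i, S.Off (S.cov dd E Z m (γ s)) (S.rad m τ) (γ (r i)) := by
      by_contra h
      simp only [Rg.Sys.Off, not_exists, not_forall, not_lt] at h
      choose f f1 f2 using h
      have := card_le_card_of_injOn (s := univ) (t := S.cov dd E Z m (γ s)) f (fun i _ => f1 i)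
        fun i _ j _ e => by
          have a1 := f2 i
          have a2 := f2 j
          have a3 := S.d_tri (γ s) (γ (r i)) (γ (r j))
          have a4 := S.d_tri (γ s) (γ (r j)) (γ (r i))
          have a5 := S.d_tri (γ (r i)) (f j) (γ (r j))
          have a6 := S.d_comm (γ (r i)) (γ (r j))
          have a7 := S.d_comm (γ (r i)) (f j)
          rw [e] at a1
          rw [r3, r3] at a3 a4
          refine Fin.ext (le_antisymm ?_ ?_) <;> by_contra h <;> push Not at h <;>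
            nlinarith [Nat.mul_le_mul_right (2 * S.rad m τ + 1) (Nat.succ_le_of_lt h)]
      rw [card_univ, Fintype.card_fin] at this
      omega
    obtain ⟨i, hi⟩ := h6
    have h7 : S.d (γ s) (γ (r i)) ≤ (τ + 1) * S.a * (2 * S.rad m τ + 1) :=
      (r3 i).trans_le (Nat.mul_le_mul_right _ (Nat.le_of_lt_succ i.2))
    have h8 := S.d_tri (γ s) (γ (r i)) (γ u)
    obtain ⟨r', a, b, c⟩ := ih (r i) (r2 i) (fun r' a b => hγ r' ((r1 i).trans a) b)
      ((h1.child (by unfold Rg.Sys.In; omega) hi).up hτ) (by omega)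
    exact ⟨r', (r1 i).trans a, b, c⟩

variable {Λ : Type} [Fintype Λ] [DecidableEq Λ] {T : ℕ} [NeZero T] {ex ey : Fin T → Λ}

/-- **slow pins from the rung**: `hJ` is the base leaf (no long allowed path from a good cell). -/
theorem slow_of_good' {τ J m : ℕ} (π : Λ → X) {Al : Fin T → Prop} {W : Fin T × Λ → Prop}
    (hd : ∀ s, S.d (π (ex s)) (π (ey s)) ≤ 1) (hτ : S.k0 + S.oc + dd ≤ τ)
    (hρ : ∀ m, (τ + 1) * S.a * (2 * S.rad m τ + 1) + 3 * τ * S.H m ≤ S.ρ (m + 1))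
    (hJ : ∀ s t γ, s ≤ t → t ≤ T → Path ex ey Al W s t γ → S.G0 τ E Z (π (γ s)) →
      S.d (π (γ s)) (π (γ t)) ≤ J)
    (hG : ∀ u, W u → S.Good dd E Z m τ (π u.2)) :
    Slow ex ey (fun x y => S.d (π x) (π y)) Al W (J + esc S τ m) := by
  intro s t γ hs ht hp
  by_contra h
  beta_reduce at h
  have hst : s < t := hs.lt_of_ne fun e => h (by rw [e, S.d_self]; omega)
  obtain ⟨r, a, b, c, e⟩ := exists_base (γ := fun r => π (γ r)) (J := J) hτ hρ m s hs
    (fun r a b => by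
      rcases (hp ⟨r, b.trans_le ht⟩ a b).2 with e | ⟨-, e⟩
      · rw [show γ (r + 1) = γ r from e, S.d_self]; omega
      · rw [show γ (r + 1) = _ from e]
        refine swap_apply_def (ex _) (ey _) _ ▸ ?_
        split_ifs with h1 h2
        · rw [h1]; exact hd _
        · rw [h2, S.d_comm]; exact hd _
        · rw [S.d_self]; omega)
    (hG _ (hp ⟨s, hst.trans_le ht⟩ le_rfl hst).1) (by omega)
  exact absurd (hJ r t γ b ht (hp.sub a le_rfl) c) (not_le.2 e)

theorem slow_of_good {τ J m : ℕ} (π : Λ → X) {Al : Fin T → Prop} {W : Fin T × Λ → Prop}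
    (hd : ∀ s, S.d (π (ex s)) (π (ey s)) ≤ 1) (hτ : S.k0 + S.oc + dd ≤ τ)
    (hρ : ∀ m, (τ + 1) * S.a * (2 * S.rad m τ + 1) + 3 * τ * S.H m ≤ S.ρ (m + 1))
    (hJ : ∀ s t γ, s ≤ t → t ≤ T → Path ex ey Al W s t γ → S.G0 τ E Z (π (γ s)) →
      S.d (π (γ s)) (π (γ t)) ≤ J)
    (hG : ∀ u, W u → S.Good dd E Z m τ (π u.2)) :
    Slow ex ey (fun x y => S.d (π x) (π y)) Al W (J + S.loc m) :=
  (slow_of_good' π hd hτ hρ hJ hG).mono' (Nat.add_le_add_left (esc_le hρ m) _) (fun _ h => h)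
    fun _ _ _ _ h => h

/-- the base leaf from a count: few allowed long steps move a point of `W` in the ball. -/
theorem path_le_count {d : Λ → Λ → ℕ} (hd : Met ex ey d) {Al : Fin T → Prop}
    {W : Fin T × Λ → Prop} {s t J : ℕ} {γ : ℕ → Λ} (hs : s ≤ t) (ht : t ≤ T)
    (hp : Path ex ey Al W s t γ) {I : Finset (Fin T)} (hI : I.card ≤ J)
    (h : ∀ r x, Al r → d (ex r) (ey r) ≠ 0 → (x = ex r ∨ x = ey r) → W (r, x) → d (γ s) x ≤ J →
      r ∈ I) : d (γ s) (γ t) ≤ J := by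
  have key : ∀ u, s ≤ u → u ≤ t → d (γ s) (γ u) ≤ (I.filter fun r => r.val < u).card := by
    intro u hu
    induction u, hu using Nat.le_induction with
    | base => intro _; rw [hd.1]; omega
    | succ u hu ih =>
      intro h1
      have h2 := ih (by omega)
      have h3 : (I.filter fun r => r.val < u) ⊆ I.filter fun r => r.val < u + 1 :=
        monotone_filter_right _ fun r _ h => Nat.lt_succ_of_lt h
      have h4 := hd.2.2.1 (γ s) (γ u) (γ (u + 1))
      obtain ⟨h5, h6⟩ := hp ⟨u, by omega⟩ hu h1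
      by_cases h7 : d (γ u) (γ (u + 1)) = 0
      · exact le_trans (by omega) (h2.trans (card_le_card h3))
      · have h8 : γ (u + 1) ≠ γ u := fun e => h7 (by rw [e, hd.1])
        obtain ⟨h9, h10⟩ := h6.resolve_left h8
        simp only at h10
        have h11 : (γ u = ex ⟨u, by omega⟩ ∧ γ (u + 1) = ey ⟨u, by omega⟩) ∨
            (γ u = ey ⟨u, by omega⟩ ∧ γ (u + 1) = ex ⟨u, by omega⟩) := by
          rw [swap_apply_def] at h10
          split_ifs at h10 with a b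
          exacts [Or.inl ⟨a, h10⟩, Or.inr ⟨b, h10⟩, absurd h10 h8]
        have h12 : d (γ u) (γ (u + 1)) = d (ex ⟨u, by omega⟩) (ey ⟨u, by omega⟩) := by
          rcases h11 with ⟨a, b⟩ | ⟨a, b⟩
          · rw [← a, ← b]
          · rw [← a, ← b, hd.2.1]
        have h13 := h _ _ h9 (h12 ▸ h7) (h11.imp And.left And.left) h5
          (h2.trans ((card_filter_le _ _).trans hI))
        have h14 := hd.2.2.2 ⟨u, by omega⟩
        have h15 := card_lt_card ((ssubset_iff_of_subset h3).2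
          ⟨_, mem_filter.2 ⟨h13, Nat.lt_succ_self u⟩, fun h => lt_irrefl u (mem_filter.1 h).2⟩)
        omega
  exact (key t hs le_rfl).trans ((card_filter_le _ _).trans hI)

end slow

end Crest.Agent.N337.A
end

-- ▼ part N337/M/Defs

/-!
# Row 337, the chain (helper56): configurations, stages, the local Poincaré inequality

A configuration `s = (e, Z, cv)` = pinned loops, killed points, frozen cover centres.
`G.gs W s` = gas of the down loops with weights `W` in the configuration `s`.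
A stage `Stg W y' In Out ..` bounds the variance of a gas of class `In` by the birth-death form, the
variances on OPEN fibres (level `y'`, class `Out`) and on CLOSED fibres (small blocks), and a
residual measure `μ`; everything is rare given any extra pins `x0` with `s + x0 ∈ In`.
-/

set_option autoImplicit false
set_option linter.unusedSectionVars false

namespace Crest.Agent.N337.M

open Finset Crest.Agent.N337.Op Crest.Agent.N337.Gas Crest.Agent.N337.A

/-- the word: ends of the steps, coin biases, metric on the slots. -/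
structure Bs (T : ℕ) (Λ : Type) where
  ex : Fin T → Λ
  ey : Fin T → Λ
  p : Fin T → ℝ
  d : Λ → Λ → ℕ

/-- configurations: pinned loops, killed points, frozen cover centres. -/
structure Cfg (T : ℕ) (Λ : Type) where
  e : Finset (Lp T Λ)
  Z : Finset (Fin T × Λ)
  cv : Finset Λ

/-- a family of fibres: mass, new pins, killed points, fugacity, open or closed. -/
structure Mix (T : ℕ) (Λ : Type) where
  I : Type
  [fI : Fintype I]
  c : I → ℝ
  x : I → Finset (Lp T Λ)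
  Z : I → Finset (Fin T × Λ)
  lv : I → ℝ
  op : I → Prop

attribute [instance] Mix.fI

variable {Λ : Type} [Fintype Λ] [DecidableEq Λ] {T : ℕ} [NeZero T]

namespace Cfg
/-- more pins. -/
def add (s : Cfg T Λ) (x : Finset (Lp T Λ)) : Cfg T Λ := ⟨s.e ∪ x, s.Z, s.cv⟩
/-- more pins, more killed points. -/
def rev (s : Cfg T Λ) (x : Finset (Lp T Λ)) (U : Finset (Fin T × Λ)) : Cfg T Λ :=
  ⟨s.e ∪ x, s.Z ∪ U, s.cv⟩
/-- new cover centres. -/
def cov (s : Cfg T Λ) (F : Finset Λ) : Cfg T Λ := ⟨s.e, s.Z, F⟩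
/-- points that no alive loop meets. -/
def K (s : Cfg T Λ) : Finset (Fin T × Λ) := s.Z ∪ pts s.e
/-- weights of the alive loops. -/
def u (s : Cfg T Λ) (W : Lp T Λ → ℝ) : Lp T Λ → ℝ := off (Hit s.K) W
/-- at most `N` slots are not completely killed. -/
def Sup (N : ℕ) (s : Cfg T Λ) : Prop := ∃ S : Finset Λ, S.card ≤ N ∧ ∀ v, v ∉ s.Z → v.2 ∈ S
/-- classes decrease in the pins. -/
def Anti (P : Cfg T Λ → Prop) : Prop := ∀ s x, P (s.add x) → P s
end Cfg

/-- the weight `y ^ winding`. -/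
def yw (y : ℝ) : Lp T Λ → ℝ := ub (Top.bt y)

/-- the configuration of a fibre. -/
def Mix.cf (m : Mix T Λ) (s : Cfg T Λ) (i : m.I) : Cfg T Λ := ⟨s.e ∪ m.x i, m.Z i, s.cv⟩

namespace Bs
variable (G : Bs T Λ)

structure Ok : Prop where
  p : ∀ r, 0 ≤ G.p r ∧ G.p r ≤ 1 / 2
  d : Met G.ex G.ey G.d

/-- the pins are possible. -/
def Val (s : Cfg T Λ) : Prop := qq G.ex G.ey G.p s.e ≠ 0
/-- pinned coin biases. -/
def pn (s : Cfg T Λ) : Fin T → ℝ := pin G.ex G.ey G.p s.e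
/-- compatibility weights. -/
noncomputable def q (s : Cfg T Λ) : Finset (Lp T Λ) → ℝ := qq G.ex G.ey (G.pn s)
/-- the gas of the down loops. -/
noncomputable def gs (W : Lp T Λ → ℝ) (s : Cfg T Λ) : Finset (Lp T Λ) → ℝ := nu (G.q s) (s.u W)
/-- the model of block (a). -/
def mdl (y : ℝ) (s : Cfg T Λ) : Mdl T Λ := ⟨G.pn s, kill (Top.bt y) s.K⟩
/-- probability that all loops of `x0` are up loops, given the down loops `w`. -/
noncomputable def ph (s : Cfg T Λ) (x0 w : Finset (Lp T Λ)) : ℝ :=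
  if Disjoint w x0 then sh (G.q s) w x0 else 0
/-- mean over the loops of the top colour (medium `y'`, total weight `W`). -/
noncomputable def hE (W : Lp T Λ → ℝ) (y' : ℝ) (s : Cfg T Λ) (f : Finset (Lp T Λ) → ℝ) : ℝ :=
  Op.ex (nu (qL (G.q s)) (Pc.two (s.u (yw y')) (s.u fun g => W g - yw y' g)))
    fun X => f (fg (Pc.hi X))

/-- the points off `Z` lie in non adjacent blocks of diameter `≤ σ`. -/
def Bk (σ : ℕ) (Z : Finset (Fin T × Λ)) : Prop :=
  ∃ B : Λ → Finset Λ, Apart G.ex G.ey B ∧ (∀ i, ∀ x ∈ B i, ∀ z ∈ B i, G.d x z ≤ σ) ∧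
    ∀ v, v ∉ Z → ∃ i, v.2 ∈ B i
/-- the pins are slow off `Z`. -/
def Sl (v : ℕ) (s : Cfg T Λ) : Prop :=
  Slow G.ex G.ey G.d (fun r => cn s.e r = true ∨ G.d (G.ex r) (G.ey r) = 0) (fun u => u ∉ s.Z) v

/-- the law of a fibre. -/
noncomputable def fl (m : Mix T Λ) (s : Cfg T Λ) (i : m.I) : Finset (Lp T Λ) → ℝ :=
  G.gs (yw (m.lv i)) (m.cf s i)
/-- mean of `F` on a fibre. -/
noncomputable def fE (m : Mix T Λ) (s : Cfg T Λ) (F : Finset (Lp T Λ) → ℝ) (i : m.I) : ℝ :=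
  m.c i * Op.ex (G.fl m s i) fun A => F (m.x i ∪ A)
/-- total variance of `F` on the fibres. -/
noncomputable def res (m : Mix T Λ) (s : Cfg T Λ) (F : Finset (Lp T Λ) → ℝ) : ℝ :=
  ∑ i, m.c i * var (G.fl m s i) fun A => F (m.x i ∪ A)

open Classical in
/-- one reduction step in the configuration `s`. -/
structure Red (W : Lp T Λ → ℝ) (y' : ℝ) (In Out : Cfg T Λ → Prop) (σ : ℕ) (C K ε : ℝ)
    (s : Cfg T Λ) (m : Mix T Λ) (μ : Finset (Lp T Λ) → ℝ) : Prop where
  c0 : ∀ i, 0 ≤ m.c i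
  ok : ∀ i, m.c i ≠ 0 → G.Val (m.cf s i) ∧ s.Z ⊆ m.Z i ∧ 0 ≤ m.lv i ∧ m.lv i ≤ 1
  opn : ∀ i, m.c i ≠ 0 → m.op i → m.lv i = y' ∧ Out (m.cf s i)
  cls : ∀ i, m.c i ≠ 0 → ¬ m.op i → G.Bk σ (m.Z i)
  dom : ∀ F : Finset (Lp T Λ) → ℝ, (∀ w, 0 ≤ F w) → ∑ i, G.fE m s F i ≤ Op.ex (G.gs W s) F
  var : ∀ F : Finset (Lp T Λ) → ℝ,
    var (G.gs W s) F ≤ C * (Dir (G.gs W s) F + G.res m s F + nsq μ F)
  μ0 : ∀ w, 0 ≤ μ w
  μ1 : ∀ w, μ w ≤ K * G.gs W s w
  rare : ∀ x0, G.Val (s.add x0) → In (s.add x0) →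
    Op.ex μ (G.ph s x0) ≤ ε * Op.ex (G.gs W s) (G.ph s x0)
  next : ∀ x0, G.Val (s.add x0) → In (s.add x0) →
    ∑ i, (if m.op i ∧ ¬ Out ((m.cf s i).add x0) then G.fE m s (G.ph s x0) i else 0) ≤
      ε * Op.ex (G.gs W s) (G.ph s x0)

/-- **a stage** from the class `In` (weights `W`) to the class `Out` (fugacity `y'`). -/
def Stg (W : Lp T Λ → ℝ) (y' : ℝ) (In Out : Cfg T Λ → Prop) (σ : ℕ) (C K ε : ℝ) : Prop :=
  ∀ s, G.Val s → In s → ∃ m μ, G.Red W y' In Out σ C K ε s m μ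

/-- **LP**: all fibres are closed. -/
def LP (W : Lp T Λ → ℝ) (In : Cfg T Λ → Prop) (σ : ℕ) (C K ε : ℝ) : Prop :=
  G.Stg W 0 In (fun _ => False) σ C K ε

open Classical in
/-- **junk step, geometric pins**: the loops that meet `U s` are revealed, `U s` is killed. -/
def StepU (y : ℝ) (U : Cfg T Λ → Finset (Fin T × Λ)) (In Out : Cfg T Λ → Prop) (ε : ℝ) : Prop :=
  ∀ s, G.Val s → In s →
    Op.ex (G.gs (yw y) s) (Op.ind fun w => ¬ Out (s.rev (w.filter (Hit (U s))) (U s))) ≤ ε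

open Classical in
/-- **junk step, top colour**. -/
def StepH (W : Lp T Λ → ℝ) (y' : ℝ) (In Out : Cfg T Λ → Prop) (ε : ℝ) : Prop :=
  ∀ s, G.Val s → In s → G.hE W y' s (Op.ind fun A => ¬ Out (s.add A)) ≤ ε

/-- **ladder**: the hypotheses of the peel in every configuration of the class `In`. -/
def LadH (W : Lp T Λ → ℝ) (y' : ℝ) (In Out : Cfg T Λ → Prop) (κb : ℝ) : Prop :=
  ∀ s, G.Val s → In s → ∃ Gd : ℕ → Finset (Lp T Λ) → Prop,
    Pc.Lad (Rep.Pw (G.pn s)) (L G.ex G.ey) (s.u (yw y')) (s.u fun g => W g - yw y' g) Gd 26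
      (1 / 10 ^ 9) (1 / 5) κb ∧ ∀ A, Out (s.add A) → Gd 0 A

/-- numerics of the box move (support `≤ N`, pins of speed `≤ v0`, error `ε`). -/
structure NumA (N : ℕ) (Tf ε : ℝ) (v0 D : ℕ) : Prop where
  ex : ∃ (δ K0 : ℝ) (K : ℕ → ℝ) (v g : ℕ → ℕ) (m f f0 : ℕ), 1 ≤ N ∧
    Rate G.ex G.ey G.d ⟨G.p, fun _ => 0⟩ (v0 + 2) K0 ∧ v 0 = (f0 + 1) * (v0 + 1) ∧
    N * Real.exp (-1 / Tf) ^ m + N * Real.exp (40 * K0 - f0) ≤ ε ∧ δ + ε ≤ 1 / 1600 ∧
    (∀ i < 4, v (i + 1) = (g i + 1) * (v i + 1) ∧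
      Rate G.ex G.ey G.d ⟨G.p, fun _ => 0⟩ (v i + 2) (K i) ∧ N * Real.exp (40 * K i - g i) ≤ δ) ∧
    Num N Tf (K 3) δ (v 3) m f D

end Bs

/-! ### the blocks -/

/-- **(Comp)** stages compose. -/
def CompStmt : Prop :=
  ∀ (Λ : Type) [Fintype Λ] [DecidableEq Λ] (T : ℕ) [NeZero T] (G : Bs T Λ) (W : Lp T Λ → ℝ)
    (y' y'' : ℝ) (In Mid Out : Cfg T Λ → Prop) (σ : ℕ) (C K ε C' K' ε' : ℝ), G.Ok →
    (∀ g, 0 ≤ W g) → 0 ≤ C → 1 ≤ C' → 0 ≤ K' → 0 ≤ ε → 0 ≤ ε' →
    G.Stg W y' In Mid σ C K ε → G.Stg (yw y') y'' Mid Out σ C' K' ε' →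
    G.Stg W y'' In Out σ (C * (1 + C')) (K + K') (ε + ε' + K' * ε)

/-- **(BoxO)** the box move with open children. -/
def BoxOStmt : Prop :=
  ∀ (Λ : Type) [Fintype Λ] [DecidableEq Λ] (T : ℕ) [NeZero T] (G : Bs T Λ) (Tf ε : ℝ)
    (In Out : Cfg T Λ → Prop) (Cor : Fin 4 → Finset Λ) (N v0 D σ : ℕ), G.Ok →
    G.NumA N Tf ε v0 D → (∀ s, In s → s.Sup N ∧ G.Sl v0 s ∧
      ∀ v, v ∉ s.Z → ∃ l, v.2 ∉ nbd G.d (12 * D) (Cor l)) → Cfg.Anti Out →
    (∀ l, G.StepU (Real.exp (-1 / Tf)) (fun _ => cyl (Cor l)) In Out ε) →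
    G.Stg (yw (Real.exp (-1 / Tf))) (Real.exp (-1 / Tf)) In Out σ 400 10 (10 * ε)

/-- **(BoxC)** the box move with closed children. -/
def BoxCStmt : Prop :=
  ∀ (Λ : Type) [Fintype Λ] [DecidableEq Λ] (T : ℕ) [NeZero T] (G : Bs T Λ) (Tf ε : ℝ)
    (In : Cfg T Λ → Prop) (Cor : Fin 4 → Finset Λ) (N v0 D σ : ℕ), G.Ok →
    G.NumA N Tf ε v0 D → (∀ s, In s → s.Sup N ∧ G.Sl v0 s ∧
      (∀ v, v ∉ s.Z → ∃ l, v.2 ∉ nbd G.d (12 * D) (Cor l)) ∧ ∀ l, G.Bk σ (s.Z ∪ cyl (Cor l))) →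
    G.LP (yw (Real.exp (-1 / Tf))) In σ 400 10 (10 * ε)

/-- **(Zero)** nothing is alive at fugacity `0`. -/
def ZeroStmt : Prop :=
  ∀ (Λ : Type) [Fintype Λ] [DecidableEq Λ] (T : ℕ) [NeZero T] (G : Bs T Λ)
    (In : Cfg T Λ → Prop) (σ : ℕ) (C K ε : ℝ), G.Ok → 0 ≤ C → 0 ≤ K → 0 ≤ ε →
    G.LP (yw 0) In σ C K ε

/-- **(Peel)** the top colour is revealed. -/
def PeelStmt : Prop :=
  ∀ (Λ : Type) [Fintype Λ] [DecidableEq Λ] (T : ℕ) [NeZero T] (G : Bs T Λ) (W : Lp T Λ → ℝ)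
    (y' ε κb : ℝ) (In Out : Cfg T Λ → Prop) (σ : ℕ), G.Ok → 0 ≤ y' → y' ≤ 1 →
    0 ≤ κb → κb ≤ 2 → Cfg.Anti Out → G.LadH W y' In Out κb → G.StepH W y' In Out ε →
    G.Stg W y' In Out σ 400 10 (10 * ε)

/-- **(Mono)** a stage may be weakened. -/
def MonoStmt : Prop :=
  ∀ (Λ : Type) [Fintype Λ] [DecidableEq Λ] (T : ℕ) [NeZero T] (G : Bs T Λ) (W : Lp T Λ → ℝ)
    (y' : ℝ) (In In' Out Out' : Cfg T Λ → Prop) (σ σ' : ℕ) (C K ε C' K' ε' : ℝ), G.Ok →
    (∀ g, 0 ≤ W g) → (∀ s, In' s → In s) → (∀ s, Out s → Out' s) → σ ≤ σ' → C ≤ C' → K ≤ K' →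
    ε ≤ ε' → G.Stg W y' In Out σ C K ε → G.Stg W y' In' Out' σ' C' K' ε'

/-- **(Giv)** conditioning on extra up loops = pinning them. -/
def GivStmt : Prop :=
  ∀ (Λ : Type) [Fintype Λ] [DecidableEq Λ] (T : ℕ) [NeZero T] (G : Bs T Λ) (W : Lp T Λ → ℝ)
    (s : Cfg T Λ) (x0 : Finset (Lp T Λ)) (F : Finset (Lp T Λ) → ℝ), G.Ok → (∀ g, 0 ≤ W g) →
    G.Val (s.add x0) → Op.ex (G.gs W s) (fun w => G.ph s x0 w * F w) =
      Op.ex (G.gs W s) (G.ph s x0) * Op.ex (G.gs W (s.add x0)) F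

/-! ### the top -/

section top
open Filter Crest.Agent.N337.Top

/-- the tilted weight of the top cube. -/
noncomputable def tw (y t : ℝ) (K : ℕ) (g : Lp T Λ) : ℝ :=
  yw y g * Real.exp (t * if wd g ≤ K then wd g else 0)

/-- the word of the torus. -/
noncomputable def GT {L n : ℕ} [NeZero L] [NeZero n] (β : ℝ) (w : ℕ)
    (sy : List (Sl L n × Sl L n × ℝ)) : Bs (TT β w sy) (Sl L n) :=
  ⟨Top.ex β w sy, Top.ey β w sy, pp β w sy, dS⟩

open Classical in
/-- the killed cube without pins. -/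
noncomputable def s0 {L n T : ℕ} [NeZero L] (z : Tor 3 L) (l : ℕ) : Cfg T (Sl L n) :=
  ⟨∅, univ.filter fun v => v.2.1 ∉ cube z l, ∅⟩

/-- **(Chain)** the local Poincaré inequality of the tilted top cube. -/
def ChainStmt : Prop :=
  ∀ (n : ℕ) [NeZero n], ∃ β0 : ℝ, ∀ β : ℝ, β0 ≤ β → ∀ (K : ℕ) (ε : ℝ), 0 < ε →
    ∃ (x lam C K' η : ℝ) (l σ : ℕ), 0 < x ∧ x ≤ ε * lam ∧ lam ≤ ε ∧ β ≤ ε * x * l ∧ 0 ≤ C ∧
      lam * C * (n * K + n ^ 2 * (2 * σ + 1) ^ 3 + η * n ^ 2 * l ^ 3) ≤ ε ∧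
      ∀ᶠ L : ℕ in atTop, ∀ sy : List (Sl (L + 1) n × Sl (L + 1) n × ℝ), Sym sy →
        ∀ᶠ w : ℕ in atTop, ∀ (z : Tor 3 (L + 1)) (t : ℝ), 0 ≤ t → t ≤ lam →
          ∃ In, In (s0 z l) ∧ (GT β w sy).LP (tw (Real.exp (-x)) t K) In σ C K' η

/-- **(Top)** the variance bound from the chain. -/
def TopStmt : Prop := ChainStmt → VarStmt

end top

end Crest.Agent.N337.M
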