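import Crest.Agent.N337.M.Bas
import Crest.Agent.N337.B.Two

/-!
# Row 337, the chain: the box move as a stage
-/

set_option autoImplicit false
set_option linter.unusedSectionVars false

namespace Crest.Agent.N337.M

open Finset Crest.Agent.N337.Op Crest.Agent.N337.Gas Crest.Agent.N337.A

variable {Λ : Type} [Fintype Λ] [DecidableEq Λ] {T : ℕ} [NeZero T] {G : Bs T Λ} {y : ℝ}
  {s : Cfg T Λ} {x : Finset (Lp T Λ)} {U : Finset (Fin T × Λ)}

namespace Bx

lemma p01 (h : G.Ok) (r : Fin T) : 0 ≤ G.p r ∧ G.p r ≤ 1 := ⟨(h.p r).1, by linarith [(h.p r).2]⟩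

lemma gs_eq (y : ℝ) (s : Cfg T Λ) : G.gs (yw y) s = law G.ex G.ey (G.mdl y s) := by
  simp only [Bs.gs, law, Bs.mdl, Bs.q, Cfg.u, yw, ub_kill]

lemma mdl_eq (y : ℝ) (s : Cfg T Λ) :
    G.mdl y s = chd G.ex G.ey ⟨G.p, Top.bt y⟩ s.Z s.e := rfl

lemma mdl_ok (h : G.Ok) (h0 : 0 ≤ y) (h1 : y ≤ 1) (s : Cfg T Λ) : (G.mdl y s).Ok y :=
  ok_chd (M := ⟨G.p, Top.bt y⟩) ⟨p01 h, fun v => by
    simp only [Top.bt]; split_ifs; exacts [⟨h0, h1⟩, ⟨zero_le_one, le_rfl⟩],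
    fun _ => by simp [Top.bt]⟩ _ _

lemma pr_gs (h : G.Ok) (h0 : 0 ≤ y) (h1 : y ≤ 1) (s : Cfg T Λ) : Pr (G.gs (yw y) s) :=
  gs_eq (G := G) y s ▸ pr_law (mdl_ok h h0 h1 s)

lemma mdl_b {v : Fin T × Λ} (h : (G.mdl y s).b v ≠ 0) : v ∉ s.Z := fun hv =>
  h (if_pos (mem_union_left _ hv))

lemma mdl_p (r : Fin T) : (G.mdl y s).p r = G.p r ∨ (G.mdl y s).p r = 0 ∨ (G.mdl y s).p r = 1 := by
  simp only [Bs.mdl, Bs.pn, pin]; split_ifs <;> simp

lemma mdl_one (h : G.Ok) {r : Fin T} :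
    (G.mdl y s).p r = 1 ↔ tch G.ex G.ey (pts s.e) r ∧ cn s.e r = true := by
  have := (h.p r).2
  simp only [Bs.mdl, Bs.pn, pin]
  split_ifs with a b <;> simp [*]
  linarith

lemma mdl_rate (h : G.Ok) {r : ℕ} {K : ℝ} (hR : Rate G.ex G.ey G.d ⟨G.p, fun _ => 0⟩ r K) :
    Rate G.ex G.ey G.d (G.mdl y s) r K := hR.of_le le_rfl (fun r => (h.p r).1) mdl_p

/-- **fibres of `E[· | loops meeting U]`**. -/
theorem fib (h : G.Ok) (h0 : 0 ≤ y) (h1 : y ≤ 1) (hv : G.Val s)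
    (hx : mass (G.gs (yw y) s) (filter (Hit U)) x ≠ 0) : G.Val (s.rev x U) ∧
      ∀ F, Op.ex (cond (G.gs (yw y) s) (filter (Hit U)) x) F =
        Op.ex (G.gs (yw y) (s.rev x U)) fun A => F (x ∪ A) := by
  have hM := mdl_ok h h0 h1 s
  rw [gs_eq] at hx
  have h2 : sh (qq G.ex G.ey G.p) s.e x ≠ 0 := sh_qq hv ▸ (mass_supp (cpt_M hM) hx).1
  have h3 : G.Val (s.rev x U) := fun h' => h2 (by rw [sh, show qq _ _ _ (s.e ∪ x) = 0 from h', zero_div])
  refine ⟨h3, fun F => ?_⟩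
  rw [gs_eq, gs_eq, ex_cond_law hM hx, mdl_eq, Ex.chd_chd (M := ⟨G.p, Top.bt y⟩) h3]
  rfl

/-- sums over the fibres. -/
lemma sum_fib {Ω κ : Type} [Fintype Ω] [DecidableEq Ω] [Fintype κ] [DecidableEq κ] (ν : Ω → ℝ)
    (π : Ω → κ) (hν : ∀ w, 0 ≤ ν w) (a : κ → ℝ) (F : Ω → ℝ) :
    ∑ x, a x * (mass ν π x * Op.ex (cond ν π x) F) = Op.ex ν fun w => a (π w) * F w := by
  have e : ∀ x, mass ν π x * Op.ex (cond ν π x) F = ∑ w, if π w = x then ν w * F w else 0 := by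
    intro x
    by_cases hx : mass ν π x = 0
    · rw [hx, zero_mul, sum_eq_zero fun w _ => ?_]
      split_ifs with h
      · rw [by_contra fun h' => mass_ne hν h' (h ▸ hx), zero_mul]
      · rfl
    · exact mass_mul_ex_cond hx F
  simp only [e]
  simp only [mul_sum, Op.ex]
  rw [sum_comm]
  exact sum_congr rfl fun w _ => by simp [mul_left_comm]

/-- long or fast families. -/
def NG (ex ey : Fin T → Λ) (d : Λ → Λ → ℕ) (M : Mdl T Λ) (m v : ℕ) (A : Finset (Lp T Λ)) : Prop :=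
  ¬ GdG ex ey d M m v A

open Classical in
/-- the variance bound of block (a) for a general tower. -/
theorem var_box {ex ey : Fin T → Λ} {d : Λ → Λ → ℕ} {M : Mdl T Λ} {C : Fin 4 → Finset Λ}
    {S : Finset Λ} {Tf δ : ℝ} {K : ℕ → ℝ} {v g : ℕ → ℕ} {N m f D : ℕ}
    (hs : ∀ v, M.b v ≠ 0 → v.2 ∈ S) (hSN : S.card ≤ N) (hN1 : 1 ≤ N)
    (hd : Met ex ey d) (hM : M.Ok (Real.exp (-1 / Tf)))
    (hv : ∀ i < 4, v (i + 1) = (g i + 1) * (v i + 1) ∧ Rate ex ey d M (v i + 2) (K i) ∧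
      N * Real.exp (40 * K i - g i) ≤ δ)
    (hN : Num N Tf (K 3) δ (v 3) m f D)
    (hC : ∀ x, (∃ s, M.b (s, x) ≠ 0) → ∃ l, x ∉ nbd d (12 * D) (C l))
    (he : δ + Op.ex (law ex ey M) (Op.ind (NG ex ey d M m (v 0))) ≤ 1 / 1600)
    (F : Finset (Lp T Λ) → ℝ) :
    var (law ex ey M) F ≤ 20 * ∑ l, Op.ex (law ex ey M) (fun A =>
      var (cond (law ex ey M) (filter (Hit (cyl (C l)))) (A.filter (Hit (cyl (C l))))) F) +
        80 * Op.ex (law ex ey M) fun A => (Op.ind (NG ex ey d M m (v 0)) A +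
          Op.ex (law ex ey M) (Op.ind (NG ex ey d M m (v 0)))) * F A ^ 2 := by
  have hp := pr_law (ex := ex) (ey := ey) hM
  have hδ := hN.2.1
  set B := NG ex ey d M m (v 0)
  have h1 := box_tr (U := fun l => cyl (C l)) hM hδ.le
    (boxS hs hSN hN1 hd hM hv hN hC lab_lab1) B (fun _ _ h => not_not.1 h) he
  have hk : ∀ k ∈ [ps B (law ex ey M), ce (law ex ey M) (filter (Hit (cyl (C 0)))),
      ce (law ex ey M) (filter (Hit (cyl (C 1)))), ce (law ex ey M) (filter (Hit (cyl (C 2)))),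
      ce (law ex ey M) (filter (Hit (cyl (C 3))))], Proj (law ex ey M) k := by
    simp only [List.forall_mem_cons, List.not_mem_nil, false_imp_iff, implies_true, and_true]
    exact ⟨proj_ps hp (by linarith), proj_ce hp.nn _, proj_ce hp.nn _, proj_ce hp.nn _,
      proj_ce hp.nn _⟩
  have h2 := var_le_word hp (fun k h => (hk k h).ker) (fun k h => (hk k h).ctr hp.nn)
    (by norm_num) (by norm_num) h1 F
  have h3 := res_ps_le (S := B) hp (by linarith) F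
  have h4 : Op.ex (law ex ey M) (fun A => Op.ind B A * (F A - Op.ex (law ex ey M) F) ^ 2) ≤
      Op.ex (law ex ey M) fun A => 2 * (Op.ind B A * F A ^ 2) +
        2 * Op.ex (law ex ey M) F ^ 2 * Op.ind B A := ex_mono hp.nn fun A => by
    nlinarith [mul_nonneg (ind_nn B A) (sq_nonneg (F A + Op.ex (law ex ey M) F))]
  have h5 := mul_le_mul_of_nonneg_right (hp.sq_ex_le F) (ex_nn hp.nn (ind_nn B))
  simp only [List.map_cons, List.map_nil, List.sum_cons, List.sum_nil, List.length_cons,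
    List.length_nil, res_ce hp.nn] at h2
  simp only [add_mul, ex_add, ex_mul, nsq_eq_ex] at h4 h5 ⊢
  rw [Fin.sum_univ_four]
  norm_num at h2
  linarith

open Classical in
/-- long or fast families are rare given any extra pins. -/
lemma rare_gd (h : G.Ok) (h0 : 0 ≤ y) (h1 : y ≤ 1) {S : Finset Λ} {N v0 : ℕ} {K0 : ℝ} (m f0 : ℕ)
    (hSN : S.card ≤ N) (hS : ∀ v, v ∉ s.Z → v.2 ∈ S)
    (hR : Rate G.ex G.ey G.d ⟨G.p, fun _ => 0⟩ (v0 + 2) K0) (hl : G.Sl v0 (s.add x)) :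
    Op.ex (G.gs (yw y) (s.add x))
      (Op.ind (NG G.ex G.ey G.d (G.mdl y s) m ((f0 + 1) * (v0 + 1)))) ≤
        N * y ^ m + N * Real.exp (40 * K0 - f0) := by
  have hM := mdl_ok h h0 h1 (s.add x)
  rw [gs_eq]
  refine (dn_le_Pb hM fun ω hw a b => a ((gd_dn (wt_cl hw) _ _ _ _).1 b)).trans
    (Pb_not_Gd m f0 h.d hM h0 lab_lab1 (fun v hv => hS v (mdl_b hv))
      (fun v hv => hS v (mdl_b (s := s.add x) hv)) hSN (fun r hr => ?_) (mdl_rate h hR)
      (hl.mono' le_rfl (fun _ => mdl_b) fun r _ _ _ hc => hc.imp (fun hc => ((mdl_one h).1 hc).2) id))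
  obtain ⟨a, b⟩ := (mdl_one h).1 hr
  refine (mdl_one h).2 ⟨a.imp (fun a => pts_mono subset_union_left a)
    fun a => pts_mono subset_union_left a, ?_⟩
  simp only [cn, decide_eq_true_eq] at b ⊢
  exact b.imp fun g hg => ⟨mem_union_left _ hg.1, hg.2⟩

lemma ph_nn (h : G.Ok) (s : Cfg T Λ) (x0 w : Finset (Lp T Λ)) : 0 ≤ G.ph s x0 w := by
  have := (cpt_qq (ex := G.ex) (ey := G.ey) (pin_mem (ex := G.ex) (ey := G.ey) (p01 h) s.e)).nn
  unfold Bs.ph; split_ifs; exacts [div_nonneg (this _) (this _), le_rfl]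

open Classical in
/-- the box move with a general selection `Sel` of the fibres. -/
theorem box (hG : GivStmt) {Tf ε y' : ℝ} {In Out Sel : Cfg T Λ → Prop} {op : Prop}
    {Cor : Fin 4 → Finset Λ} {N v0 D σ : ℕ} (h : G.Ok) (hN : G.NumA N Tf ε v0 D)
    (hI : ∀ s, In s → s.Sup N ∧ G.Sl v0 s ∧ ∀ v, v ∉ s.Z → ∃ l, v.2 ∉ nbd G.d (12 * D) (Cor l))
    (hA : Cfg.Anti Sel) (hU : ∀ l, G.StepU (Real.exp (-1 / Tf)) (fun _ => cyl (Cor l)) In Sel ε)
    (ho : op → Real.exp (-1 / Tf) = y' ∧ ∀ s, Sel s → Out s)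
    (hc : ¬ op → ∀ s, In s → ∀ l, G.Bk σ (s.Z ∪ cyl (Cor l))) :
    G.Stg (yw (Real.exp (-1 / Tf))) y' In Out σ 400 10 (10 * ε) := by
  intro s hv hs
  obtain ⟨δ, K0, K, v, g, m, f, f0, hN1, hR0, hv0, hε, hδε, htw, hNum⟩ := hN.ex
  obtain ⟨⟨S, hSN, hS⟩, hsl, hcov⟩ := hI s hs
  have h0 : 0 ≤ Real.exp (-1 / Tf) := (Real.exp_pos _).le
  have h1 : Real.exp (-1 / Tf) ≤ 1 :=
    Real.exp_le_one_iff.2 (div_nonpos_of_nonpos_of_nonneg (by norm_num) (by linarith [hNum.1]))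
  have hM := mdl_ok h h0 h1 s
  have hε0 : 0 ≤ ε := le_trans (by positivity) hε
  have hB : ∀ x, G.Sl v0 (s.add x) → Op.ex (G.gs (yw (Real.exp (-1 / Tf))) (s.add x))
      (Op.ind (NG G.ex G.ey G.d (G.mdl (Real.exp (-1 / Tf)) s) m (v 0))) ≤ ε :=
    fun x hl => hv0 ▸ (rare_gd h h0 h1 m f0 hSN hS hR0 hl).trans hε
  have e0 : s.add ∅ = s := by simp [Cfg.add]
  have hP := hB ∅ (e0.symm ▸ hsl)
  rw [e0] at hP
  have hvar := var_box (C := Cor) (fun v hv => hS v (mdl_b hv)) hSN hN1 h.d hM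
    (fun i hi => ⟨(htw i hi).1, mdl_rate h (htw i hi).2.1, (htw i hi).2.2⟩) hNum
    (fun x ⟨r, hr⟩ => hcov _ (mdl_b hr)) (by rw [← gs_eq]; linarith)
  have hp := pr_gs h h0 h1 s
  rw [← gs_eq] at hvar
  have hW : ∀ g : Lp T Λ, 0 ≤ yw (Real.exp (-1 / Tf)) g := fun g => ub_nn (fun v => by
    simp only [Top.bt]; split_ifs; exacts [h0, zero_le_one]) g
  have hGv := fun x0 F => hG Λ T G _ s x0 F h hW
  set y := Real.exp (-1 / Tf)
  set B := NG G.ex G.ey G.d (G.mdl y s) m (v 0)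
  set ν := G.gs (yw y) s
  have hP0 : 0 ≤ Op.ex ν (Op.ind B) := ex_nn hp.nn (ind_nn B)
  let π := fun (l : Fin 4) (w : Finset (Lp T Λ)) => w.filter (Hit (cyl (Cor l)))
  let a := fun (l : Fin 4) => Op.ind fun x => Sel (s.rev x (cyl (Cor l)))
  let b := fun (l : Fin 4) => Op.ind fun w => ¬ Sel (s.rev (π l w) (cyl (Cor l)))
  have hab : ∀ l w, b l w = 1 - a l (π l w) := fun l w => by
    simp only [a, b, Op.ind]; split_ifs <;> norm_num
  let mx : Mix T Λ := ⟨Fin 4 × Finset (Lp T Λ), fun i => a i.1 i.2 * mass ν (π i.1) i.2 / 4,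
    fun i => i.2, fun i => s.Z ∪ cyl (Cor i.1), fun _ => y, fun _ => op⟩
  have hm : ∀ i, mx.c i ≠ 0 → mass ν (π i.1) i.2 ≠ 0 ∧ Sel (mx.cf s i) := fun i hi =>
    ⟨fun h' => hi (by simp [mx, h']), by_contra fun h' => hi (by
      simp only [mx, a, Op.ind]; rw [if_neg (show ¬ Sel (s.rev i.2 _) from h')]; simp)⟩
  have hE : ∀ (F : Finset (Lp T Λ) → ℝ) l x, G.fE mx s F (l, x) =
      a l x / 4 * (mass ν (π l) x * Op.ex (cond ν (π l) x) F) := fun F l x => by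
    by_cases hx : mass ν (π l) x = 0
    · simp [Bs.fE, mx, hx]
    · rw [(fib h h0 h1 hv hx).2 F]
      simp only [Bs.fE, mx]
      ring_nf; rfl
  have hst : ∀ x0, G.Val (s.add x0) → In (s.add x0) → ∀ l, Op.ex (G.gs (yw y) (s.add x0))
      (Op.ind fun w => ¬ Sel ((s.rev (π l w) (cyl (Cor l))).add x0)) ≤ ε := fun x0 h2 h3 l => by
    have e : ∀ w, (s.rev (π l w) (cyl (Cor l))).add x0 = (s.add x0).rev (π l w) (cyl (Cor l)) :=
      fun w => by simp only [Cfg.rev, Cfg.add, union_right_comm]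
    refine le_trans (ex_mono (pr_gs h h0 h1 _).nn fun w => le_of_eq ?_) (hU l _ h2 h3)
    simp only [Op.ind, e]; rfl
  refine ⟨mx, fun w => ν w * (Op.ind B w + Op.ex ν (Op.ind B) + ∑ l, b l w),
    fun i => div_nonneg (mul_nonneg (ind_nn _ _) (mass_nn hp.nn _)) (by norm_num),
    fun i hi => ⟨(fib h h0 h1 hv (hm i hi).1).1, subset_union_left, h0, h1⟩,
    fun i hi hop => ⟨(ho hop).1, (ho hop).2 _ (hm i hi).2⟩, fun i _ hop => hc hop s hs _,
    fun F hF => ?_, fun F => ?_, fun w => mul_nonneg (hp.nn w) (add_nonneg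
      (add_nonneg (ind_nn _ _) hP0) (sum_nonneg fun _ _ => ind_nn _ _)), fun w => ?_,
    fun x0 h2 h3 => ?_, fun x0 h2 h3 => ?_⟩
  · have : ∀ l, Op.ex ν (fun w => a l (π l w) / 4 * F w) ≤ Op.ex ν fun w => 1 / 4 * F w :=
      fun l => ex_mono hp.nn fun w => mul_le_mul_of_nonneg_right
        (div_le_div_of_nonneg_right (ind_le_one _ _) (by norm_num)) (hF w)
    rw [Fintype.sum_prod_type]
    simp only [hE, sum_fib ν _ hp.nn, ex_mul] at this ⊢
    rw [Fin.sum_univ_four]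
    linarith [this 0, this 1, this 2, this 3]
  · have k1 : ∀ l, Op.ex ν (fun A => var (cond ν (π l) (π l A)) F) ≤
        4 * ∑ x, mx.c (l, x) * var (G.fl mx s (l, x)) (fun A => F (x ∪ A)) +
          Op.ex ν fun w => b l w * F w ^ 2 := fun l => by
      rw [← ex_mass ν (π l) fun x => var (cond ν (π l) x) F, Op.ex, mul_sum]
      simp only [hab]
      rw [← sum_fib ν (π l) hp.nn fun x => 1 - a l x, ← sum_add_distrib]
      refine sum_le_sum fun x _ => ?_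
      by_cases hx : mass ν (π l) x = 0
      · simp [mx, hx]
      · have e : var (G.fl mx s (l, x)) (fun A => F (x ∪ A)) = var (cond ν (π l) x) F := by
          have e1 : ∀ F, Op.ex (cond ν (π l) x) F = _ := (fib h h0 h1 hv hx).2
          simp only [var, nsq_eq_ex, e1]; rfl
        have k2 := mul_le_mul_of_nonneg_left (mul_le_mul_of_nonneg_left
          ((pr_cond hp.nn hx).var_le F) (mass_nn (π := π l) hp.nn x))
          (sub_nonneg.2 (ind_le_one (fun x => Sel (s.rev x (cyl (Cor l)))) x))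
        rw [e]
        simp only [mx, a, nsq_eq_ex] at k2 ⊢
        linarith
    have k2 : nsq (fun w => ν w * (Op.ind B w + Op.ex ν (Op.ind B) + ∑ l, b l w)) F =
        Op.ex ν (fun w => (Op.ind B w + Op.ex ν (Op.ind B)) * F w ^ 2) +
          ∑ l, Op.ex ν fun w => b l w * F w ^ 2 := by
      simp only [Fin.sum_univ_four, ← ex_add]
      exact sum_congr rfl fun w _ => by ring
    have k3 : ∀ l, 0 ≤ Op.ex ν fun w => b l w * F w ^ 2 := fun l =>
      ex_nn hp.nn fun w => mul_nonneg (ind_nn _ _) (sq_nonneg _)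
    have k4 : 0 ≤ Op.ex ν fun w => (Op.ind B w + Op.ex ν (Op.ind B)) * F w ^ 2 :=
      ex_nn hp.nn fun w => mul_nonneg (add_nonneg (ind_nn _ _) hP0) (sq_nonneg _)
    have k5 : ∀ l, 0 ≤ ∑ x, mx.c (l, x) * var (G.fl mx s (l, x)) fun A => F (x ∪ A) := fun l =>
      sum_nonneg fun x _ => by
        by_cases hx : mx.c (l, x) = 0
        · rw [hx, zero_mul]
        · exact mul_nonneg (div_nonneg (mul_nonneg (ind_nn _ _) (mass_nn hp.nn _)) (by norm_num))
            (var_nn (pr_gs h h0 h1 _).nn _)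
    have k6 := hvar F
    rw [k2, Bs.res, Fintype.sum_prod_type]
    simp only [Fin.sum_univ_four] at k6 ⊢
    linarith [Dir_nn hp.nn F, k1 0, k1 1, k1 2, k1 3, k3 0, k3 1, k3 2, k3 3, k5 0, k5 1, k5 2, k5 3]
  · have k : ∀ l, b l w ≤ 1 := fun l => ind_le_one _ _
    rw [mul_comm, Fin.sum_univ_four]
    exact mul_le_mul_of_nonneg_right
      (by linarith [k 0, k 1, k 2, k 3, ind_le_one B w, hNum.2.1]) (hp.nn w)
  · have k1 : ∀ l, Op.ex (G.gs (yw y) (s.add x0)) (b l) ≤ ε := fun l =>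
      (ex_mono (pr_gs h h0 h1 _).nn fun w => by
        simp only [b, Op.ind]
        split_ifs with c1 c2 c2
        exacts [le_rfl, zero_le_one, absurd (hA _ _ c2) c1, le_rfl]).trans (hst x0 h2 h3 l)
    have k2 := hB x0 (hI _ h3).2.1
    have k3 : Op.ex (fun w => ν w * (Op.ind B w + Op.ex ν (Op.ind B) + ∑ l, b l w)) (G.ph s x0) =
        Op.ex ν fun w => G.ph s x0 w * (Op.ind B w + Op.ex ν (Op.ind B) + ∑ l, b l w) :=
      sum_congr rfl fun w _ => by ring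
    rw [k3, hGv x0 _ h2, mul_comm]
    refine mul_le_mul_of_nonneg_right ?_ (ex_nn hp.nn (ph_nn h s x0))
    simp only [Fin.sum_univ_four, ex_add, (pr_gs h h0 h1 (s.add x0)).ex_const]
    linarith [k1 0, k1 1, k1 2, k1 3]
  · let c := fun (l : Fin 4) => Op.ind fun x => ¬ Sel ((s.rev x (cyl (Cor l))).add x0)
    have k1 : ∀ l, ∑ x, (if mx.op (l, x) ∧ ¬ Out ((mx.cf s (l, x)).add x0) then
        G.fE mx s (G.ph s x0) (l, x) else 0) ≤ ε * Op.ex ν (G.ph s x0) := fun l => by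
      have k2 := mul_le_mul_of_nonneg_left (hst x0 h2 h3 l) (ex_nn hp.nn (ph_nn h s x0))
      rw [← hGv x0 _ h2, mul_comm] at k2
      refine le_trans ?_ k2
      simp only [mul_comm (G.ph s x0 _)]
      refine le_trans (sum_le_sum fun x _ => ?_) (sum_fib ν (π l) hp.nn (c l) _).le
      have k3 : 0 ≤ mass ν (π l) x * Op.ex (cond ν (π l) x) (G.ph s x0) :=
        mul_nonneg (mass_nn hp.nn x) (ex_nn (cond_nn hp.nn x) (ph_nn h s x0))
      split_ifs with c1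
      · rw [hE, show c l x = 1 from if_pos fun c2 => c1.2 ((ho c1.1).2 _ c2)]
        exact mul_le_mul_of_nonneg_right
          (by linarith [ind_le_one (fun x => Sel (s.rev x (cyl (Cor l)))) x]) k3
      · exact mul_nonneg (ind_nn _ _) k3
    rw [Fintype.sum_prod_type, Fin.sum_univ_four]
    nlinarith [k1 0, k1 1, k1 2, k1 3, mul_nonneg hε0 (ex_nn hp.nn (ph_nn h s x0))]

end Bx

theorem boxO (hG : GivStmt) : BoxOStmt := fun _ _ _ _ _ _ _ _ _ _ _ _ _ _ _ h hN hI hA hU =>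
  Bx.box hG (op := True) h hN hI hA hU (fun _ => ⟨rfl, fun _ => id⟩) fun h => absurd trivial h

theorem boxC (hG : GivStmt) : BoxCStmt := fun _ _ _ _ _ _ _ _ _ _ _ _ _ _ h hN hI =>
  Bx.box hG (op := False) (Sel := fun _ => True) h hN
    (fun s hs => ⟨(hI s hs).1, (hI s hs).2.1, (hI s hs).2.2.1⟩) (fun _ _ => id)
    (fun _ _ _ _ => by
      obtain ⟨_, _, _, _, _, _, _, _, -, -, -, h, -⟩ := hN.ex
      refine le_trans ?_ h
      simp only [Op.ex, Op.ind, not_true, if_false, mul_zero, sum_const_zero]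
      positivity)
    False.elim fun _ s hs => (hI s hs).2.2.2


end Crest.Agent.N337.M
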