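import Crest.Agent.N337.M.Cls
import Crest.Agent.N337.M.Peel
import Crest.Agent.N337.I.Geom
import Crest.Agent.N337.M.Box
import Crest.Agent.N337.M.Zero
import Crest.Agent.N337.Top.Sym_Mg
import Crest.Agent.N337.M.Defs
import Crest.Agent.N337.Top.Kill
import Crest.Agent.N337.Top.Bridge

/-!
# Row 337, the chain (helper56): the instance on the torus and the final assembly
-/

set_option autoImplicit false
set_option linter.unusedSectionVars false

namespace Crest.Agent.N337.M

open Finset Filter Crest.Agent.N337.Gas Crest.Agent.N337.A Crest.Agent.N337.Top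

variable {L n : ℕ} [NeZero L] [NeZero n]

/-- the rung of the torus word (grid with corner `z0`). -/
noncomputable abbrev insT (Q : I.Num) (z0 : Tor 3 L) (β : ℝ) (w : ℕ)
    (sy : List (Sl L n × Sl L n × ℝ)) :
    Ins (TT β w sy) (Sl L n) (Tor 3 L) (I.Ev L n (TT β w sy)) (Finset (Tor 3 L)) :=
  I.ins (Top.ex β w sy) (Top.ey β w sy) Q z0

lemma ok_GT {β : ℝ} (hβ : 0 ≤ β) (w : ℕ) {sy : List (Sl L n × Sl L n × ℝ)} (hs : Sym sy) :
    (GT β w sy).Ok := ⟨Sh.pp_mem hβ hs, met_word hs⟩

/-- without pins every cell has rung `0`. -/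
lemma good_bot {X α κ : Type} [Fintype X] [SemilatticeSup α] [Preorder κ] (S : Rg.Sys X α κ)
    {E : α} {Z : κ} (h : ∀ x, S.G0 0 E Z x) (d m t : ℕ) (x : X) : S.Good d E Z m t x := by
  classical
  induction m generalizing t x with
  | zero => exact S.G0_mono (Nat.zero_le t) le_rfl le_rfl (h x)
  | succ m ih =>
    refine ⟨∅, by simp, fun y _ _ => ih _ y, fun l _ c => ?_⟩
    rw [filter_eq_empty_iff.2 fun y _ hy => hy.2.2.2 (ih _ y)]
    simp

lemma cl_s0 (Q : I.Num) (z0 z : Tor 3 L) (β : ℝ) (w : ℕ) (sy : List (Sl L n × Sl L n × ℝ))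
    (l m t R : ℕ) (F : Finset (Tor 3 L)) : (insT Q z0 β w sy).Cl m t F R (s0 z l) := by
  classical
  refine fun x _ => good_bot _ (fun x i => ?_) _ _ _ x
  have e : (insT Q z0 β w sy).pa (s0 z l).e = ⊥ := I.ev_empty
  rw [e]
  have key : ∀ Z k z r, I.cnt (I.vis Z (∅ : Finset (I.V L n (TT β w sy)))) k z r = 0 :=
    fun Z k z r => I.cnt_zero fun y hy => absurd (I.vis_sub hy) (notMem_empty _)
  refine ⟨fun k _ => (key _ k x _).trans_le (Nat.zero_le _),
    fun i' _ => (sum_eq_zero fun k _ => key _ k x _).trans_le (Nat.zero_le _), ?_⟩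
  rw [filter_eq_empty_iff.2 fun i' _ ⟨k, _, z, _, h2⟩ => by
    have := key ((insT Q z0 β w sy).kz (s0 z l).Z) k z Q.A
    exact absurd (h2.trans_eq this) (by norm_num)]
  simp




end Crest.Agent.N337.M
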