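import Crest.Agent.N337.M.Defs

/-!
# Row 337, the chain (helper56): basic facts on configurations, conditioning on up loops
-/

set_option autoImplicit false
set_option linter.unusedSectionVars false

namespace Crest.Agent.N337.M

open Finset Crest.Agent.N337.Op Crest.Agent.N337.Gas Crest.Agent.N337.A

variable {Λ : Type} [Fintype Λ] [DecidableEq Λ] {T : ℕ} [NeZero T] {G : Bs T Λ}
  {s s' : Cfg T Λ} {W : Lp T Λ → ℝ} {x x0 w A : Finset (Lp T Λ)} {g : Lp T Λ} {y : ℝ}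

lemma yw_nn (hy : 0 ≤ y) (g : Lp T Λ) : 0 ≤ yw y g :=
  ub_nn (fun v => by unfold Top.bt; split_ifs; exacts [hy, zero_le_one]) g

lemma Cfg.u_nn (hW : ∀ g, 0 ≤ W g) (s : Cfg T Λ) (g : Lp T Λ) : 0 ≤ s.u W g := off_nn hW g

lemma Cfg.add_empty (s : Cfg T Λ) : s.add ∅ = s := by simp [Cfg.add]

lemma Cfg.add_add (s : Cfg T Λ) (x z : Finset (Lp T Λ)) : (s.add x).add z = s.add (x ∪ z) := by
  simp [Cfg.add, union_assoc]

lemma Cfg.rev_add (s : Cfg T Λ) (x z : Finset (Lp T Λ)) (U : Finset (Fin T × Λ)) :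
    (s.rev x U).add z = (s.add z).rev x U := by
  simp only [Cfg.add, Cfg.rev, union_assoc, union_comm x z]

lemma Cfg.K_add (s : Cfg T Λ) (x : Finset (Lp T Λ)) : (s.add x).K = s.K ∪ pts x := by
  simp only [Cfg.K, Cfg.add, pts_union, union_assoc]

namespace Bs

lemma Ok.p1 (h : G.Ok) (r : Fin T) : 0 ≤ G.p r ∧ G.p r ≤ 1 := ⟨(h.p r).1, by linarith [(h.p r).2]⟩

lemma Ok.cpt0 (h : G.Ok) : Cpt (qq G.ex G.ey G.p) := cpt_qq h.p1

lemma Ok.pn (h : G.Ok) (s : Cfg T Λ) (r : Fin T) : 0 ≤ G.pn s r ∧ G.pn s r ≤ 1 := pin_mem h.p1 _ r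

lemma Ok.cpt (h : G.Ok) (s : Cfg T Λ) : Cpt (G.q s) := cpt_qq (h.pn s)

lemma Ok.pr (h : G.Ok) (hW : ∀ g, 0 ≤ W g) (s : Cfg T Λ) : Pr (G.gs W s) :=
  pr_nu (h.cpt s) (Cfg.u_nn hW s)

lemma Ok.mdl (h : G.Ok) (hy : 0 ≤ y) (hy1 : y ≤ 1) (s : Cfg T Λ) : (G.mdl y s).Ok y := by
  have hb : ∀ v : Fin T × Λ, 0 ≤ Top.bt y v ∧ Top.bt y v ≤ 1 := fun v => by
    unfold Top.bt; split_ifs; exacts [⟨hy, hy1⟩, ⟨zero_le_one, le_rfl⟩]
  exact ⟨h.pn s, kill_mem hb _, fun z => (kill_le (fun v => (hb v).1) _ _).trans (by simp [Top.bt])⟩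

lemma u_yw (y : ℝ) (s : Cfg T Λ) : s.u (yw y) = ub (G.mdl y s).b := (ub_kill _ _).symm


lemma Val.q_eq (h : G.Val s) : G.q s = sh (qq G.ex G.ey G.p) s.e := (sh_qq h).symm

lemma Val.q_apply (h : G.Val s) (A : Finset (Lp T Λ)) :
    G.q s A = qq G.ex G.ey G.p (s.e ∪ A) / qq G.ex G.ey G.p s.e := by rw [h.q_eq]; rfl

lemma Val.sh_q (h : G.Val s) (w x0 : Finset (Lp T Λ)) :
    sh (G.q s) w x0 = qq G.ex G.ey G.p (s.e ∪ w ∪ x0) / qq G.ex G.ey G.p (s.e ∪ w) := by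
  rw [sh, h.q_apply, h.q_apply, div_div_div_cancel_right₀ h, union_assoc]

lemma Val.of_sub (hG : G.Ok) (h : G.Val s') (hs : s.e ⊆ s'.e) : G.Val s := hG.cpt0.ne_of_sub hs h

lemma Val.of_add (hG : G.Ok) (h : G.Val (s.add x)) : G.Val s := h.of_sub hG subset_union_left

lemma Val.add (h : G.Val s) (hA : G.q s A ≠ 0) : G.Val (s.add A) := by
  rw [h.q_apply] at hA; exact fun h0 => hA (by rw [show s.e ∪ A = (s.add A).e from rfl, h0, zero_div])

lemma gs_supp (h : G.gs W s A ≠ 0) : G.q s A ≠ 0 ∧ ∀ g ∈ A, ¬ Hit s.K g ∧ W g ≠ 0 := by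
  obtain ⟨h1, h2⟩ := nu_supp h
  refine ⟨h1, fun g hg => ?_⟩
  have := h2 g hg
  unfold Cfg.u off at this
  split_ifs at this with h3
  exacts [absurd rfl this, ⟨h3, this⟩]

lemma Val.hit (h : G.Val s) (hg : g ∈ s.e) : Hit s.K g := by
  obtain ⟨v, hv⟩ := qq_nonempty h hg
  exact ⟨v, hv, mem_union_right _ (mem_pts.2 ⟨g, hg, hv⟩)⟩

lemma Val.disj (h : G.Val s) (hA : G.gs W s A ≠ 0) : Disjoint s.e A :=
  disjoint_left.2 fun g hg hg' => ((gs_supp hA).2 g hg').1 (h.hit hg)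

lemma ph_nn (hG : G.Ok) (s : Cfg T Λ) (x0 w : Finset (Lp T Λ)) : 0 ≤ G.ph s x0 w := by
  unfold ph; split_ifs
  exacts [div_nonneg ((hG.cpt s).nn _) ((hG.cpt s).nn _), le_rfl]



/-- the same weight seen from a fibre. -/
lemma ph_union (h : G.Val s) (h' : G.Val s') (he : s'.e = s.e ∪ x) (x0 A : Finset (Lp T Λ)) :
    G.ph s x0 (x ∪ A) = if Disjoint x x0 then G.ph s' x0 A else 0 := by
  simp only [ph, h.sh_q, h'.sh_q, he, disjoint_union_left, union_assoc]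
  by_cases h1 : Disjoint x x0 <;> by_cases h2 : Disjoint A x0 <;> simp [h1, h2]

lemma ph_eq_zero (hG : G.Ok) (h : G.Val s) (h0 : ¬ G.Val (s.add x0)) (w : Finset (Lp T Λ)) :
    G.ph s x0 w = 0 := by
  have : qq G.ex G.ey G.p (s.e ∪ w ∪ x0) = 0 := by
    by_contra h1
    exact h0 (hG.cpt0.ne_of_sub (union_subset_union_left subset_union_left) h1)
  simp only [ph, h.sh_q, this, zero_div, ite_self]

lemma gw_ph (hG : G.Ok) (h : G.Val (s.add x0)) (W : Lp T Λ → ℝ) (w : Finset (Lp T Λ)) :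
    gw (G.q s) (s.u W) w * G.ph s x0 w =
      G.q s x0 * gw (G.q (s.add x0)) ((s.add x0).u W) w := by
  have hs := h.of_add hG
  have e1 : (s.add x0).e ∪ w = s.e ∪ w ∪ x0 := by
    simp only [Cfg.add, union_assoc, union_comm x0 w]
  have h' : qq G.ex G.ey G.p (s.e ∪ x0) ≠ 0 := h
  simp only [gw, ph, hs.sh_q, hs.q_apply, h.q_apply, e1]
  by_cases h0 : qq G.ex G.ey G.p (s.e ∪ w ∪ x0) = 0
  · simp only [h0, zero_div, ite_self, zero_mul, mul_zero]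
  by_cases hd : Disjoint w x0
  · have h1 : qq G.ex G.ey G.p (s.e ∪ w) ≠ 0 := hG.cpt0.ne_of_sub subset_union_left h0
    obtain ⟨ξ, -, hξ⟩ := qq_supp h0
    have : ∏ g ∈ w, (s.add x0).u W g = ∏ g ∈ w, s.u W g := prod_congr rfl fun g hg => by
      have : Hit (s.add x0).K g ↔ Hit s.K g := by
        rw [Cfg.K_add]
        refine ⟨fun ⟨v, h2, h3⟩ => ?_, fun ⟨v, h2, h3⟩ => ⟨v, h2, mem_union_left _ h3⟩⟩
        rcases mem_union.1 h3 with h3 | h3
        · exact ⟨v, h2, h3⟩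
        · obtain ⟨g', h4, h5⟩ := mem_pts.1 h3
          have := L_eq (hξ (mem_union_left _ (mem_union_right _ hg))) (hξ (mem_union_right _ h4))
            h2 h5
          exact absurd (this ▸ h4) (disjoint_left.1 hd hg)
      simp only [Cfg.u, off, this]
    have hs' : qq G.ex G.ey G.p s.e ≠ 0 := hs
    rw [if_pos hd, this, show (s.add x0).e = s.e ∪ x0 from rfl]
    field_simp
  · obtain ⟨g, h1, h2⟩ := not_disjoint_iff.1 hd
    rw [if_neg hd, prod_eq_zero (f := (s.add x0).u W) h1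
      (if_pos (h.hit (mem_union_right _ h2))), mul_zero, mul_zero, mul_zero]

theorem giv (hG : G.Ok) (hW : ∀ g, 0 ≤ W g) (h : G.Val (s.add x0)) (F : Finset (Lp T Λ) → ℝ) :
    Op.ex (G.gs W s) (fun w => G.ph s x0 w * F w) =
      Op.ex (G.gs W s) (G.ph s x0) * Op.ex (G.gs W (s.add x0)) F := by
  have key : ∀ F : Finset (Lp T Λ) → ℝ, Op.ex (G.gs W s) (fun w => G.ph s x0 w * F w) =
      G.q s x0 * gZ (G.q (s.add x0)) ((s.add x0).u W) / gZ (G.q s) (s.u W) *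
        Op.ex (G.gs W (s.add x0)) F := fun F => by
    have hZ := (Gas.gZ_pos (hG.cpt (s.add x0)) (Cfg.u_nn hW (s.add x0))).ne'
    simp only [Op.ex, gs, nu, mul_sum]
    refine sum_congr rfl fun w _ => ?_
    rw [← mul_assoc, div_mul_eq_mul_div, gw_ph hG h]
    field_simp
  have h1 := key fun _ => 1
  simp only [mul_one, (hG.pr hW _).ex_const] at h1
  rw [key, ← h1]

end Bs

theorem giv : GivStmt := fun _ _ _ _ _ _ _ _ _ F hG hW h => Bs.giv hG hW h F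

end Crest.Agent.N337.M
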