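import Crest.Agent.N337.Gl.Mdl
import Crest.Agent.N337.G4.Fst
import Crest.Agent.N337.R.Word
import Crest.Agent.N337.M.Bas

/-!
# Row 337, the chain (helper87): everything that depends on the Trotter number `w`

`Wd β w sy`: the Trotter number is large compared with `L`.  All consequences hold for radii,
counts and inverse fields `≤ L`, so that producers only need hypotheses `L0 ≤ L`.
-/

set_option autoImplicit false
set_option linter.unusedSectionVars false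

namespace Crest.Agent.N337.M

open Finset Filter Crest.Agent.N337.Free Crest.Agent.N337.Gas Crest.Agent.N337.Top G1

variable {L n : ℕ} [NeZero L] [NeZero n]

/-- number of windows. -/
noncomputable def Bw (β : ℝ) : ℕ := ⌊β⌋₊ + 1
/-- steps per window. -/
noncomputable def Dw (w : ℕ) (sy : List (Sl L n × Sl L n × ℝ)) : ℕ := (w + 1) * (lay sy).length
/-- rate of a site in one sweep. -/
noncomputable def θw (n w : ℕ) : ℝ := 3 * n ^ 2 / (w + 1 : ℕ)

/-- the numbers of the word for `Gl`, fugacity `Y`. -/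
noncomputable def wdT (β : ℝ) (w : ℕ) (sy : List (Sl L n × Sl L n × ℝ)) (Y : ℝ) :
    Gl.Wd (TT β w sy) :=
  ⟨pp β w sy, fun s => if s = 0 then Y else 1, (lay sy).length, w + 1, Bw β, β / (2 * MM β w),
    8 * n ^ 2, Y, {0, MM β w - 1}⟩

/-- **the word package.** -/
structure Wd (β : ℝ) (w : ℕ) (sy : List (Sl L n × Sl L n × ℝ)) : Prop where
  hβ : 1 ≤ β
  hs : Sym sy
  hL : 3 ≤ L
  hw : 10 ^ 4 * n ^ 2 * Bw β * L ^ 5 ≤ w + 1

/-- the order of the quantifiers of `FinStmt`. -/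
theorem Wd.ev {β : ℝ} (hβ : 1 ≤ β) (L0 : ℕ) : ∀ᶠ L : ℕ in atTop, L0 ≤ L + 1 ∧
    ∀ sy : List (Sl (L + 1) n × Sl (L + 1) n × ℝ), Sym sy → ∀ᶠ w : ℕ in atTop, Wd β w sy := by
  filter_upwards [eventually_ge_atTop L0, eventually_ge_atTop 2] with L h1 h2
  refine ⟨by omega, fun sy hs => ?_⟩
  filter_upwards [eventually_ge_atTop (10 ^ 4 * n ^ 2 * Bw β * (L + 1) ^ 5)] with w hw
  exact ⟨hβ, hs, by omega, by omega⟩

variable {β Y : ℝ} {w : ℕ} {sy : List (Sl L n × Sl L n × ℝ)}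

lemma T_eq (β : ℝ) (w : ℕ) (sy : List (Sl L n × Sl L n × ℝ)) : TT β w sy = Bw β * Dw w sy := by
  rw [Bw, Dw, ← mul_assoc]; rfl



lemma lt_Bw (β : ℝ) : β < Bw β := by rw [Bw]; push_cast; exact Nat.lt_floor_add_one β

/-- the grid slices. -/
lemma card_grid {T B D : ℕ} [NeZero T] (hT : T = B * D) :
    (univ.filter fun s : Fin T => D ∣ s.val).card ≤ B := by
  have hD := I.D_pos hT
  refine le_trans (card_le_card_of_injOn (fun s => s.val / D) (fun s _ => ?_) fun s hs t ht e => ?_)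
    (card_range B).le
  · exact mem_coe.2 (mem_range.2 ((Nat.div_lt_iff_lt_mul hD).2 (hT ▸ s.2)))
  · exact Fin.ext ((Nat.div_left_inj (mem_filter.1 hs).2 (mem_filter.1 ht).2).1 e)

lemma θw_mul (n w : ℕ) : θw n w * (w + 1 : ℕ) = 3 * n ^ 2 := by
  rw [θw]; field_simp

lemma θw_nn (n w : ℕ) : 0 ≤ θw n w := by unfold θw; positivity

lemma half (h1 : 1 / 2 ≤ Y) (s : Fin (TT β w sy)) : 1 / 2 ≤ (wdT β w sy Y).b0 s := by
  simp only [wdT]; split_ifs; exacts [h1, by norm_num]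

namespace Wd
variable (W : Wd β w sy)
include W

lemma β0 : 0 ≤ β := zero_le_one.trans W.hβ

lemma ok : (GT β w sy).Ok := ⟨Sh.pp_mem W.β0 W.hs, A.met_word W.hs⟩

lemma nn (s : Fin (TT β w sy)) : tdist (Top.ex β w sy s).1 (Top.ey β w sy s).1 ≤ 1 :=
  ZM.Wd.nn w W.hL W.hs s

lemma word : RR.Word (Top.ex β w sy) (Top.ey β w sy) (pp β w sy) (lay sy).length (w + 1) (Bw β)
    (θw n w) := (RR.word n L W.hL β W.hβ sy W.hs w).1

lemma big : 10 ^ 4 * n ^ 2 * L ^ 5 ≤ w + 1 := le_trans (by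
  have : 1 ≤ Bw β := Nat.le_add_left _ _
  nlinarith [Nat.zero_le (10 ^ 4 * n ^ 2 * L ^ 5)]) W.hw

/-- `θ` times a constant, a count and a volume. -/
lemma θ_le {c k r : ℕ} (hc : c ≤ 100) (hk : k ≤ L ^ 2) (hr : r ≤ L) :
    c * (θw n w * (2 * r + 1) ^ 3) * k ≤ 1 := by
  have h1 := W.hL
  have h2 : c * (3 * n ^ 2 * (2 * r + 1) ^ 3) * k ≤ w + 1 := le_trans (by
    calc _ ≤ 100 * (3 * n ^ 2 * (3 * L) ^ 3) * L ^ 2 := by gcongr; omega
      _ = 8100 * (n ^ 2 * L ^ 5) := by ring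
      _ ≤ 10 ^ 4 * (n ^ 2 * L ^ 5) := by gcongr; norm_num
      _ = _ := by ring) W.big
  have h3 : (c * (3 * n ^ 2 * (2 * r + 1) ^ 3) * k : ℝ) ≤ (w + 1 : ℕ) := by exact_mod_cast h2
  rw [θw, show (c : ℝ) * (3 * n ^ 2 / (w + 1 : ℕ) * (2 * r + 1) ^ 3) * k =
    c * (3 * n ^ 2 * (2 * r + 1) ^ 3) * k / (w + 1 : ℕ) by ring]
  exact (div_le_one (by positivity)).2 h3

lemma θ50 : 50 * θw n w ≤ 1 := by
  simpa using W.θ_le (c := 50) (k := 1) (r := 0) (by norm_num)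
    (Nat.one_le_pow _ _ (NeZero.pos L)) (Nat.zero_le _)

/-- the exponent of the fast bounds. -/
lemma θ_win {c k r : ℕ} (hc : c ≤ 100) (hk : k ≤ L ^ 2) (hr : r ≤ L) :
    c * (θw n w * (2 * r + 1) ^ 3) * ((w + 1 : ℕ) + k) ≤ 3 * c * n ^ 2 * (2 * r + 1) ^ 3 + 1 := by
  have h1 := W.θ_le hc hk hr
  have h2 := θw_mul n w
  rw [mul_add, show (c : ℝ) * (θw n w * (2 * r + 1) ^ 3) * (w + 1 : ℕ) =
    c * (θw n w * (w + 1 : ℕ)) * (2 * r + 1) ^ 3 by ring, h2]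
  linarith

lemma rate (b : Fin (TT β w sy) × Sl L n → ℝ) {r : ℕ} (hr : r ≤ L) :
    A.Rate (Top.ex β w sy) (Top.ey β w sy) A.dS ⟨pp β w sy, b⟩ r (A.Kw n β r) := by
  have h1 := W.hL
  refine A.rate_word W.β0 W.hs b (le_trans ?_ W.big)
  calc _ ≤ 60 * n ^ 2 * (3 * L) ^ 3 := by gcongr; omega
    _ = 1620 * n ^ 2 * L ^ 3 := by ring
    _ ≤ _ := by gcongr <;> omega


lemma blk : G4.Fs.Blk (Top.ex β w sy) (Top.ey β w sy) (pp β w sy) := by
  have hE : 0 < (lay sy).length := NeZero.pos _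
  have hl : (lay sy).length = (bl L n).length + sy.length := List.length_append
  obtain ⟨M, hM⟩ : ∃ M, MM β w = M + 1 := Nat.exists_eq_succ_of_ne_zero (NeZero.ne _)
  refine ⟨M * (lay sy).length + (bl L n).length, fun s => ?_⟩
  have h0 := Nat.div_add_mod s.val (lay sy).length
  have h1 := Nat.mod_lt s.val hE
  have h2 : s.val / (lay sy).length < M + 1 := hM ▸ (Nat.div_lt_iff_lt_mul hE).2 s.2
  have hb : s.val % (lay sy).length < (bl L n).length → stp β w sy s ∈ bl L n := fun h => by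
    simp only [stp, lay, List.get_eq_getElem] at h ⊢
    rw [List.getElem_append_left h]; exact List.getElem_mem _
  have hs : ¬ s.val % (lay sy).length < (bl L n).length → stp β w sy s ∈ sy := fun h => by
    simp only [stp, lay, List.get_eq_getElem] at h ⊢
    rw [List.getElem_append_right (not_lt.1 h)]; exact List.getElem_mem _
  refine ⟨fun a b => ?_, fun a => ?_⟩
  · by_cases h : s.val % (lay sy).length < (bl L n).length
    · obtain ⟨e, -, he⟩ := List.mem_map.1 (hb h)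
      rw [Top.ex, Top.ey, ← he] at a
      exact absurd a (ZM.Wd.ne_add W.hL _ _)
    · rw [pp, if_neg h] at b
      have h3 : s.val / (lay sy).length = M := by
        by_contra k
        exact b (if_neg (by omega))
      rw [h3, mul_comm] at h0
      omega
  · refine W.hs.site _ (hs fun h => ?_)
    have := Nat.mul_le_mul_left (lay sy).length (Nat.lt_succ_iff.1 h2)
    rw [mul_comm] at a
    omega

/-- the clock. -/
lemma gl {F : I.Lf} (hD : F.D = Dw w sy) (h1 : 1 / 2 ≤ Y) (h2 : Y < 1) :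
    (wdT β w sy Y).Ok (Top.ex β w sy) (Top.ey β w sy) F :=
  have h := (RR.word n L W.hL β W.hβ sy W.hs w).2 Y h1 h2.le
  ⟨W.nn, h.1, h.2, hD, ⟨le_trans (by norm_num) h1, h2⟩, by simp [wdT]⟩

lemma fine {j : ℕ} (hj : j ≤ L ^ 2) :
    2 * ((wdT β w sy Y).Bd.card + L ^ 3 * j + 1) ≤ (wdT β w sy Y).w := by
  have h1 : (wdT β w sy Y).Bd.card ≤ 2 := card_le_two
  have h2 : L ^ 3 * j ≤ L ^ 5 := (Nat.mul_le_mul_left _ hj).trans_eq (by ring)
  have h3 : 1 ≤ L ^ 5 := Nat.one_le_pow _ _ (NeZero.pos L)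
  have h4 : 1 * L ^ 5 ≤ n ^ 2 * L ^ 5 :=
    Nat.mul_le_mul_right _ (Nat.one_le_pow _ _ (NeZero.pos n))
  have h5 := W.big
  rw [mul_assoc] at h5
  show _ ≤ w + 1
  omega

/-- **the Trotter error.** -/
lemma er (h2 : Y < 1) (h3 : 1 / (1 - Y) ≤ L ^ 2) : (wdT β w sy Y).er L n ≤ 1 / L ^ 3 := by
  have hL : (1 : ℝ) ≤ L := by exact_mod_cast NeZero.one_le
  have hn : (1 : ℝ) ≤ n := by exact_mod_cast NeZero.one_le
  have hB : (1 : ℝ) ≤ Bw β := by exact_mod_cast Nat.le_add_left 1 _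
  have h4 : (10 ^ 4 * n ^ 2 * Bw β * L ^ 5 : ℝ) ≤ (w + 1 : ℕ) := by exact_mod_cast W.hw
  have h5 := (ZM.Wd.wq w W.hβ).2
  have h6 := (ZM.Wd.q_pos w W.hβ).le
  show (β / (2 * MM β w)) ^ 2 * (1 / (1 - Y)) ^ 2 * L ^ 3 * n * Bw β ≤ _
  generalize β / (2 * MM β w) = q at *
  have h7 : 0 ≤ 1 / (1 - Y) := one_div_nonneg.2 (by linarith)
  have h8 : q * (n * Bw β * L ^ 5) ≤ 1 := by
    have : (n * Bw β * L ^ 5 : ℝ) ≤ 10 ^ 4 * n ^ 2 * Bw β * L ^ 5 := by
      gcongr; nlinarith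
    nlinarith
  have h9 : q * L ^ 5 ≤ 1 := le_trans (mul_le_mul_of_nonneg_left
    (le_mul_of_one_le_left (by positivity) (one_le_mul_of_one_le_of_one_le hn hB)) h6) h8
  rw [le_div_iff₀ (by positivity)]
  calc _ ≤ q ^ 2 * (L ^ 2) ^ 2 * L ^ 3 * n * Bw β * L ^ 3 := by gcongr
    _ = (q * (n * Bw β * L ^ 5)) * (q * L ^ 5) := by ring
    _ ≤ 1 := mul_le_one₀ h8 (by positivity) h9

lemma er_le (h2 : Y < 1) (h3 : 1 / (1 - Y) ≤ L) {e : ℝ} (he : 1 / L ≤ e) :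
    (wdT β w sy Y).er L n ≤ e := by
  have hL : (1 : ℝ) ≤ L := by exact_mod_cast NeZero.one_le
  exact (W.er h2 (h3.trans (le_self_pow₀ hL two_ne_zero))).trans (le_trans
    (one_div_le_one_div_of_le (by linarith) (le_self_pow₀ hL three_ne_zero)) he)


end Wd

/-! ### configurations, generic in the word -/

section cfg
variable {T : ℕ} [NeZero T] {ex ey : Fin T → Tor 3 L × Fin n} {p p0 : Fin T → ℝ}
  {X : Finset (I.V L n T)}





lemma bt_le {y Y : ℝ} (h : y ≤ Y) (v : I.V L n T) : Top.bt y v ≤ if v.1 = 0 then Y else 1 := by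
  unfold Top.bt; split_ifs; exacts [h, le_rfl]



lemma cube_near {z x : Tor 3 L} {l : ℕ} (h : x ∈ cube z l) : tdist z x ≤ l :=
  tdist_le_iff.2 fun a => by
    rw [ZMod.valMinAbs_natAbs_eq_min]; exact (min_le_left _ _).trans (h a).le

/-- **top level**: everything outside the cube is killed, no zero mode. -/
lemma tp_cube (W : Gl.Wd T) {Zp : Finset (I.V L n T)} {z : Tor 3 L} {l vol : ℕ}
    (h : ∀ v, v ∉ Zp → v.2 ∈ A.cubeS n z l) (hv : 4 * (2 * l + 1) ^ 3 ≤ vol)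
    {Z : Finset (Tor 3 L)} (hZ : I.kil Zp ⊆ Z) : Gl.Tp W Z vol 0 :=
  .inr ⟨le_rfl, z, l, fun x hx => by
    obtain ⟨s, hs⟩ := not_forall.1 fun k => hx (hZ (I.mem_kil.2 k))
    obtain ⟨c, hc⟩ := not_forall.1 hs
    exact cube_near (A.mem_cubeS.1 (h _ hc)), hv⟩

end cfg

/-! ### the numbers of G1 without `L` and `w` -/

lemma scales_mono {P : Scales} {L0 L : ℕ} (h : P.Ok L0) (hL : L0 ≤ L) : P.Ok L :=
  { h with ηL := fun m hm => (h.ηL m hm).trans_le hL }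

/-- `Gl.Nu` at the size `L0`. -/
structure Nu0 (L0 : ℕ) (F : I.Lf) (P : Scales) (t x0 j : ℕ) : Prop where
  ok : P.Ok L0
  hl : 1 ≤ F.l
  hm : 2 * t * F.n1 ≤ P.a 0
  hj : P.a 0 + 2 * (2 * t * F.j1 + x0) ≤ j
  hr : 8 * P.η 0 ≤ F.r0
  hA : 11 * P.ρ 0 + 6 ≤ F.A ∧ F.A ≤ P.η 0
  ht : 2 * t * F.l1 < F.l
  h1 : (F.l + 1) * (j * (2 * F.A + 1)) + F.A < P.η 0
  h2 : (F.l + 1) * (j * (2 * F.A + 1)) + F.A ≤ F.r3

theorem Wd.nu (W : Wd β w sy) {L0 t x0 j : ℕ} {F : I.Lf} {P : Scales} (h : Nu0 L0 F P t x0 j)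
    (hL : L0 ≤ L) (Y : ℝ) : Gl.Nu (wdT β w sy Y) L F P t x0 j := by
  refine ⟨scales_mono h.ok hL, h.hl, h.hm, h.hj, h.hr, h.hA, h.ht, h.h1, h.h2, W.fine ?_⟩
  have h1 := h.h1
  have h2 := h.ok.ηL 0 h.ok.pos
  have h3 : j ≤ (F.l + 1) * (j * (2 * F.A + 1)) :=
    (Nat.le_mul_of_pos_right _ (by omega)).trans (Nat.le_mul_of_pos_left _ (by omega))
  exact le_trans (by omega) (Nat.le_self_pow two_ne_zero L)


end Crest.Agent.N337.M
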