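import Crest.Agent.N337.M.Cls
import Crest.Agent.N337.M.Peel
import Crest.Agent.N337.M.TopA
import Crest.Agent.N337.Ld.Abs
import Crest.Agent.N337.A.Fast
import Crest.Agent.N337.Top.Sym_Mg
import Crest.Agent.N337.M.Chain
import Crest.Agent.N337.M.Box
import Crest.Agent.N337.M.Zero
import Crest.Agent.N337.Ld.Child
import Crest.Agent.N337.I.Env
import Crest.Agent.N337.Par.LevD
import Crest.Agent.N337.M.Wd
import Crest.Agent.N337.M.Ctx
import Crest.Agent.N337.M.LadU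

-- ▼ part N337/M/TiltA
section

/-!
# Row 337, the top (helper49): two top colours are revealed one after the other
-/

set_option autoImplicit false
set_option linter.unusedSectionVars false

namespace Crest.Agent.N337.M.Tl

open Finset Crest.Agent.N337.Op Crest.Agent.N337.Gas Crest.Agent.N337.A

section abs
variable {Γ : Type} [Fintype Γ] [DecidableEq Γ] {q : Finset Γ → ℝ} {u D E : Γ → ℝ}
  {A : Finset Γ}

/-- compatibility weights after the medium is summed out. -/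
def qs (q : Finset Γ → ℝ) (u : Γ → ℝ) (A : Finset Γ) : ℝ :=
  ∑ w, if Disjoint A w then q (A ∪ w) * ∏ g ∈ w, u g else 0

/-- mean over the top colour. -/
noncomputable def hx (q : Finset Γ → ℝ) (u D : Γ → ℝ) (f : Finset Γ → ℝ) : ℝ :=
  ex (nu (qL q) (Pc.two u D)) fun X => f (fg (Pc.hi X))

lemma hx_eq (q : Finset Γ → ℝ) (u D : Γ → ℝ) (f : Finset Γ → ℝ) :
    hx q u D f = (∑ A, gw (qs q u) D A * f A) / gZ q fun g => u g + D g := by
  rw [hx, ex_nu, gZ_forget, Pc.tot_two, Pc.sum_lab, sum_comm]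
  congr 1
  refine sum_congr rfl fun A _ => ?_
  simp only [Pc.gw_lab, Pc.fg_hi_lab]
  simp only [gw, qs, sum_mul]
  exact sum_congr rfl fun w _ => by split_ifs <;> ring

lemma qs_zero (hq : Cpt q) (h : q A = 0) (u : Γ → ℝ) (B : Finset Γ) : qs q u (A ∪ B) = 0 :=
  sum_eq_zero fun w _ => by
    have : q (A ∪ B ∪ w) = 0 := by
      by_contra h1; exact hq.ne_of_sub (subset_union_left.trans subset_union_left) h1 h
    simp only [this, zero_mul, ite_self]

lemma qs_sh (h : q A ≠ 0) (u : Γ → ℝ) (B : Finset Γ) :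
    qs q u (A ∪ B) = q A * qs (sh q A) (off (· ∈ A) u) B := by
  simp only [qs, mul_sum, Pc.prod_off, sh, disjoint_union_left, union_assoc]
  refine sum_congr rfl fun w _ => ?_
  by_cases h1 : Disjoint A w <;> by_cases h2 : Disjoint B w <;> simp [h1, h2]
  field_simp

/-- **the tower of two top colours.** -/
theorem hx_tower (hq : Cpt q) (hu : ∀ g, 0 ≤ u g) (hD : ∀ g, 0 ≤ D g) (f : Finset Γ → ℝ) :
    hx q u (fun g => D g + E g) f = hx q (fun g => u g + D g) E fun A =>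
      hx (sh q A) (off (· ∈ A) u) (off (· ∈ A) D) fun B => f (A ∪ B) := by
  rw [hx_eq, hx_eq]
  simp only [add_assoc]
  congr 1
  rw [← Pc.tot_two, ← sum_forget, Pc.sum_lab, sum_comm]
  refine sum_congr rfl fun A _ => ?_
  simp only [Pc.gw_lab, Pc.fg_lab]
  by_cases h : q A = 0
  · have := qs_zero hq h (fun g => u g + D g) ∅
    rw [union_empty] at this
    simp [qs_zero hq h, gw, this]
  have e : (fun g => off (· ∈ A) u g + off (· ∈ A) D g) = off (· ∈ A) fun g => u g + D g := by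
    funext g; unfold off; split_ifs <;> simp
  have z := (Gas.gZ_pos (hq.sh h) (off_nn (Q := (· ∈ A)) fun g => add_nonneg (hu g) (hD g))).ne'
  have e1 := qs_sh h (fun g => u g + D g) ∅
  rw [union_empty, show qs (sh q A) (off (· ∈ A) fun g => u g + D g) ∅ =
    gZ (sh q A) (off (· ∈ A) fun g => u g + D g) by simp [qs, gZ, gw]] at e1
  rw [hx_eq, e, gw, e1, mul_right_comm (q A), mul_assoc, mul_div_cancel₀ _ z, mul_sum]
  refine sum_congr rfl fun B _ => ?_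
  rw [gw, Pc.prod_off, qs_sh h]
  split_ifs <;> ring

end abs

variable {Λ : Type} [Fintype Λ] [DecidableEq Λ] {T : ℕ} [NeZero T] {G : Bs T Λ} {s : Cfg T Λ}
  {W : Lp T Λ → ℝ} {y y' : ℝ}

lemma hE_eq (f : Finset (Lp T Λ) → ℝ) :
    G.hE W y s f = hx (G.q s) (s.u (yw y)) (s.u fun g => W g - yw y g) f := rfl

lemma hE_child (hG : G.Ok) (hs : G.Val s) {A : Finset (Lp T Λ)} (hA : G.Val (s.add A))
    (f : Finset (Lp T Λ) → ℝ) : hx (sh (G.q s) A) (off (· ∈ A) (s.u (yw y')))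
      (off (· ∈ A) (s.u fun g => W g - yw y' g)) f = G.hE W y' (s.add A) f := by
  rw [hx, Bs.hE, Pl.sh_q hs hA]
  congr 1
  refine nu_congr (hG.cpt _).qL fun y hy => ?_
  have h1 : G.q (s.add A) {y.1} ≠ 0 := by simpa [fg] using (qL_supp hy).2
  simp only [Pc.two, ← Pl.off_u hs hA _ h1]

/-- **junk steps compose.** -/
theorem stepH_comp {In Mid Out : Cfg T Λ → Prop} {ε ε' : ℝ} (hG : G.Ok) (h0 : 0 ≤ y')
    (hy : y' ≤ y) (hW : ∀ g, yw y g ≤ W g) (e0 : 0 ≤ ε') (h1 : G.StepH W y In Mid ε)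
    (h2 : G.StepH (yw y) y' Mid Out ε') : G.StepH W y' In Out (ε + ε') := by
  classical
  intro s hs hI
  have d0 : ∀ g : Lp T Λ, 0 ≤ yw y g - yw y' g := fun g => by
    rw [yw_eq, yw_eq]; exact sub_nonneg.2 (pow_le_pow_left₀ h0 hy _)
  have e1 : (s.u fun g => W g - yw y' g) =
      fun g => s.u (fun g => yw y g - yw y' g) g + s.u (fun g => W g - yw y g) g := by
    funext g; simp only [Cfg.u, off]; split_ifs <;> ring
  have hp : Pr (Pl.m2 G W y s) := pr_nu (hG.cpt s).qL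
    (Pc.two_nn (Cfg.u_nn (yw_nn (h0.trans hy)) s) (Cfg.u_nn (fun g => sub_nonneg.2 (hW g)) s))
  have hv : ∀ X, Pl.m2 G W y s X ≠ 0 → G.Val (s.add (fg (Pc.hi X))) := fun X hX =>
    hs.add ((hG.cpt s).ne_of_sub (fg_mono (filter_subset _ X)) (qL_supp (nu_supp hX).1).2)
  refine le_trans (le_of_eq ?_) ((ex_mono_ae hp.nn (f := fun X => G.hE (yw y) y'
    (s.add (fg (Pc.hi X))) (Op.ind fun B => ¬ Out ((s.add (fg (Pc.hi X))).add B)))
    (g := fun X => Op.ind (fun A => ¬ Mid (s.add A)) (fg (Pc.hi X)) + ε') fun X hX => ?_).trans ?_)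
  · rw [hE_eq, e1, hx_tower (hG.cpt s) (Cfg.u_nn (yw_nn h0) s) (Cfg.u_nn d0 s), Pl.tot_u]
    refine ex_congr fun X hX => ?_
    refine (hE_child hG hs (hv X hX) _).trans (congrArg _ (funext fun B => ?_))
    simp only [Op.ind, Cfg.add_add]
  · by_cases hm : Mid (s.add (fg (Pc.hi X)))
    · exact (h2 _ (hv X hX) hm).trans (le_add_of_nonneg_left (ind_nn _ _))
    · have hp' : Pr (Pl.m2 G (yw y) y' (s.add (fg (Pc.hi X)))) := pr_nu (hG.cpt _).qL
        (Pc.two_nn (Cfg.u_nn (yw_nn h0) _) (Cfg.u_nn d0 _))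
      refine ((ex_mono hp'.nn fun _ => ind_le_one _ _).trans_eq (hp'.ex_const 1)).trans ?_
      rw [Op.ind, if_pos hm]; linarith
  · rw [ex_add, hp.ex_const]
    exact add_le_add (h1 s hs hI) le_rfl

/-- the tilted weight is admissible. -/
lemma admW_tw {V : Lev T Λ} {j K : ℕ} {t : ℝ} (h : ∀ j, 0 ≤ V.Tf j) (hj : j ≠ 0)
    (hy : V.y j ≤ V.y (j + 1)) (t0 : 0 ≤ t) (h1 : t * K ≤ 1 / 3) (h2 : t * V.Tf j ≤ 1)
    (h3 : 2 * K ≤ V.Tf j) : V.AdmW j (tw (V.y (j + 1)) t K) := fun g => by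
  have a0 := V.y_nn (j + 1)
  have a1 := pow_le_pow_left₀ (V.y_nn j) hy (wd g)
  have a3 : V.y (j + 1) ^ wd g ≤ 1 := pow_le_one₀ a0 (Lev.y_le_one h _)
  have a2 := pow_nonneg a0 (wd g)
  have a7 : (0 : ℝ) ≤ wd g := Nat.cast_nonneg _
  have a4 : (1 - V.y j ^ wd g) * V.Tf j ≤ wd g := by
    rcases (h j).eq_or_lt with h1 | h1
    · rw [← h1]; simp
    rw [← le_div_iff₀ h1, Lev.y, if_neg hj, ← Real.exp_nat_mul]
    have := Real.add_one_le_exp (wd g * (-1 / V.Tf j))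
    rw [show (wd g : ℝ) * (-1 / V.Tf j) + 1 = 1 - wd g / V.Tf j by ring] at this
    linarith
  have hT := h j
  simp only [tw, yw_eq]
  split_ifs with hk
  · have b0 : (wd g : ℝ) ≤ K := Nat.cast_le.2 hk
    have b1 : t * wd g ≤ 1 / 3 := (mul_le_mul_of_nonneg_left b0 t0).trans h1
    have b2 : 0 ≤ t * wd g := mul_nonneg t0 a7
    have b3 : Real.exp (t * wd g) ≤ 1 + 3 / 2 * (t * wd g) := by
      have := Real.exp_bound_div_one_sub_of_interval b2 (by linarith)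
      rw [le_div_iff₀ (by linarith)] at this
      nlinarith [Real.exp_pos (t * wd g)]
    have b4 := Real.one_le_exp b2
    have b5 : V.y (j + 1) ^ wd g * Real.exp (t * wd g) ≤
        V.y (j + 1) ^ wd g + 3 / 2 * (t * wd g) := by nlinarith
    refine ⟨by nlinarith, ?_, ?_⟩
    · have : 1 / 2 ≤ V.y j ^ wd g := by
        rcases hT.eq_or_lt with h4 | h4
        · have : wd g = 0 := by
            have : (wd g : ℝ) ≤ 0 := by linarith
            exact_mod_cast le_antisymm this a7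
          rw [this]; norm_num
        · by_contra h5
          nlinarith
      linarith
    · nlinarith [mul_le_mul_of_nonneg_right (by linarith : V.y (j + 1) ^ wd g *
        Real.exp (t * wd g) - V.y j ^ wd g ≤ (1 - V.y j ^ wd g) + 3 / 2 * (t * wd g)) hT,
        mul_le_mul_of_nonneg_right h2 a7]
  · rw [Nat.cast_zero, mul_zero, Real.exp_zero, mul_one]
    refine ⟨by linarith, by linarith [pow_nonneg (V.y_nn j) (wd g)], ?_⟩
    nlinarith [mul_le_mul_of_nonneg_right (by linarith : V.y (j + 1) ^ wd g - V.y j ^ wd g ≤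
      1 - V.y j ^ wd g) hT]

/-- `Lev.top` with a free error. -/
theorem top' {V : Lev T Λ} (hP : PeelStmt) (hM : MonoStmt) (hZ : ZeroStmt) (hG : G.Ok)
    (h0 : V.Tf 0 = 0) (h : ∀ j, 0 ≤ V.Tf j) (hy : ∀ j, V.y j ≤ V.y (j + 1)) (e0 : 0 ≤ V.e 0) {J : ℕ}
    (hS : ∀ j ≤ J, V.Step G j) (hW : V.AdmW J W) (hs : V.Pre (J + 1) s) {ε : ℝ} (hε : 0 ≤ ε)
    (hH : G.StepH W (V.y J) (fun s' => s' = s) (V.Post (J + 1)) ε) :
    G.LP W (fun s' => s' = s) (V.σ (J + 1)) (400 * (1 + c1)) 20 (110 * ε + V.e (J + 1)) := by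
  have S := hS J le_rfl
  have W0 : ∀ g, 0 ≤ W g := fun g => by linarith [(hW g).1, yw_nn (V.y_nn J) g]
  have a1 := hP _ _ G W _ _ 2 (fun s' => s' = s) _ (V.σ (J + 1)) hG (V.y_nn J) (Lev.y_le_one h J)
    (by norm_num) le_rfl S.anti (fun s' v e =>
      S.lad (Lev.lp hP hM hZ hG h0 h hy e0 J fun j hj => hS j hj.le) W hW s' v (e ▸ hs)) hH
  have a2 := comp _ _ G W _ _ _ _ _ _ _ _ _ _ _ _ hG W0 (by norm_num) (by norm_num [c1])
    (by norm_num) (by positivity) S.e0 a1 S.fin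
  exact hM _ _ G W _ _ _ _ _ _ _ _ _ _ _ _ _ hG W0 (fun _ h => h) (fun _ h => h) le_rfl le_rfl
    (by norm_num) (le_of_eq (by ring)) a2

end Crest.Agent.N337.M.Tl
end

-- ▼ part N337/M/TiltB
section

/-!
# Row 337, the top (helper49): the coins of the tilted gas are slow
-/

set_option autoImplicit false
set_option linter.unusedSectionVars false

namespace Crest.Agent.N337.M.Tl

open Finset Crest.Agent.N337.Rep Crest.Agent.N337.Op Crest.Agent.N337.Gas Crest.Agent.N337.A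

/-- probability of an event. -/
noncomputable def pb {Ω : Type} [Fintype Ω] (P : Ω → ℝ) (A : Ω → Prop) : ℝ :=
  Op.ex P (@Op.ind _ A (Classical.decPred _))

lemma pb_le_sum {Ω ι : Type} [Fintype Ω] {P : Ω → ℝ} (hP : ∀ ω, 0 ≤ P ω) (I : Finset ι)
    {A : Ω → Prop} {A' : ι → Ω → Prop} (h : ∀ ω, A ω → ∃ i ∈ I, A' i ω) :
    pb P A ≤ ∑ i ∈ I, pb P (A' i) := by
  classical exact (Ld.pl_ex hP).union I fun ω _ => h ω

variable {Λ : Type} [Fintype Λ] [DecidableEq Λ] {T : ℕ} [NeZero T] {ex ey : Fin T → Λ}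
  {p : Fin T → ℝ} {w u D : Lp T Λ → ℝ}

variable (ex ey) in
/-- the law of the coins. -/
noncomputable def cl (p : Fin T → ℝ) (w : Lp T Λ → ℝ) (ξ : Fin T → Bool) : ℝ :=
  Pw p ξ * (∏ g ∈ L ex ey ξ, (1 + w g)) / gZ (qq ex ey p) w

lemma lw_nn (hw : ∀ g, 0 ≤ w g) (S : Finset (Lp T Λ)) : 0 ≤ ∏ g ∈ S, (1 + w g) :=
  prod_nonneg fun g _ => by linarith [hw g]

lemma pr_cl (hp : ∀ s, 0 ≤ p s ∧ p s ≤ 1) (hw : ∀ g, 0 ≤ w g) : Pr (cl ex ey p w) where
  nn ξ := div_nonneg (mul_nonneg (Pw_nonneg hp ξ) (lw_nn hw _)) (Gas.gZ_pos (cpt_qq hp) hw).le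
  one := by simp only [cl, ← sum_div, ← gZ_qq]; exact div_self (Gas.gZ_pos (cpt_qq hp) hw).ne'

lemma qs_qq (A : Finset (Lp T Λ)) : qs (qq ex ey p) u A =
    ∑ ξ, Pw p ξ * if A ⊆ L ex ey ξ then ∏ g ∈ L ex ey ξ \ A, (1 + u g) else 0 := by
  have : ∀ w : Finset (Lp T Λ), (if Disjoint A w then qq ex ey p (A ∪ w) * ∏ g ∈ w, u g else 0) =
      ∑ ξ, Pw p ξ * if A ⊆ L ex ey ξ then
        (if w ∈ (L ex ey ξ \ A).powerset then ∏ g ∈ w, u g else 0) else 0 := fun w => by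
    simp only [qq, sum_mul, mem_powerset, subset_sdiff, union_subset_iff, disjoint_comm (a := w)]
    split_ifs with h
    · exact sum_congr rfl fun ξ _ => by
        by_cases a : A ⊆ L ex ey ξ <;> by_cases b : w ⊆ L ex ey ξ <;> simp [a, b, h]
    · simp [h]
  simp only [qs, this]
  rw [sum_comm]
  refine sum_congr rfl fun ξ _ => ?_
  rw [← mul_sum, prod_one_add]
  split_ifs
  · rw [sum_ite_mem, univ_inter]
  · simp

/-- **coins first, then independent marks.** -/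
theorem hx_coin (hu : ∀ g, 0 ≤ u g) (hD : ∀ g, 0 ≤ D g) (f : Finset (Lp T Λ) → ℝ) :
    hx (qq ex ey p) u D f = Op.ex (cl ex ey p fun g => u g + D g) fun ξ =>
      Pe.av (fun g => D g / (1 + (u g + D g))) (L ex ey ξ) f := by
  simp only [hx_eq, gw, qs_qq, sum_mul, Op.ex, cl, div_mul_eq_mul_div, ← sum_div]
  rw [sum_comm]
  congr 1
  refine sum_congr rfl fun ξ _ => ?_
  rw [Pe.av, mul_sum, ← sum_subset (subset_univ (L ex ey ξ).powerset) fun A _ h => by
    rw [mem_powerset] at h; simp [h]]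
  refine sum_congr rfl fun A h => ?_
  have h := mem_powerset.1 h
  rw [if_pos h, ← mul_assoc, mul_assoc (Pw p ξ), mul_assoc (Pw p ξ) (∏ g ∈ L ex ey ξ, _), Pe.wt,
    ← prod_mul_distrib, ← prod_sdiff h]
  congr 3
  · refine prod_congr rfl fun g hg => ?_
    have : 1 + (u g + D g) ≠ 0 := by linarith [hu g, hD g]
    rw [if_neg (mem_sdiff.1 hg).2]; field_simp; ring
  · refine prod_congr rfl fun g hg => ?_
    have : 1 + (u g + D g) ≠ 0 := by linarith [hu g, hD g]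
    rw [if_pos hg]; field_simp

lemma lw_upd (hw : ∀ g, 0 ≤ w g ∧ w g ≤ 7 / 5) (ξ : Fin T → Bool) (s : Fin T) (c : Bool) :
    ∏ g ∈ L ex ey ξ, (1 + w g) ≤ 6 * ∏ g ∈ L ex ey (Function.update ξ s c), (1 + w g) := by
  rw [← prod_filter_mul_prod_filter_not _ fun g : Lp T Λ => tch ex ey g.2 s]
  refine mul_le_mul ?_ (prod_le_prod_of_subset_of_one_le (fun g hg => ?_)
    (fun g _ => by linarith [(hw g).1]) fun g _ _ => by linarith [(hw g).1])
    (lw_nn (fun g => (hw g).1) _) (by norm_num)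
  · have h1 : ((L ex ey ξ).filter fun g => tch ex ey g.2 s).card ≤ 2 :=
      (card_le_card (t := {lp ex ey ξ (s, ex s), lp ex ey ξ (s, ey s)}) fun g hg => by
        obtain ⟨h1, h2⟩ := mem_filter.1 hg
        simpa using h2.imp (eq_lp h1) (eq_lp h1)).trans card_le_two
    refine (prod_le_prod (g := fun _ => 12 / 5) (fun g _ => by linarith [(hw g).1])
      fun g _ => by linarith [(hw g).2]).trans ?_
    rw [prod_const]
    exact (pow_le_pow_right₀ (by norm_num) h1).trans (by norm_num)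
  · obtain ⟨h1, h2⟩ := mem_filter.1 hg
    exact (mem_L_iff h1).2 fun r hr => Function.update_of_ne (by rintro rfl; exact h2 hr) _ _

lemma cl_coin (hp : ∀ s, 0 ≤ p s ∧ p s ≤ 1) (hw : ∀ g, 0 ≤ w g ∧ w g ≤ 7 / 5) (s : Fin T)
    {φ : (Fin T → Bool) → ℝ} (h0 : ∀ ξ, 0 ≤ φ ξ) (hφ : ∀ ξ c, φ (Function.update ξ s c) = φ ξ) :
    Op.ex (cl ex ey p w) (fun ξ => (if ξ s = true then 1 else 0) * φ ξ) ≤
      6 * p s * Op.ex (cl ex ey p w) φ := by
  have hi : Function.Involutive fun ξ : Fin T → Bool => Function.update ξ s (!ξ s) := fun ξ => by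
    simp
  have e : Op.ex (cl ex ey p w) φ = ∑ ξ, (if ξ s = true then 1 else 0) *
      (cl ex ey p w ξ + cl ex ey p w (Function.update ξ s (!ξ s))) * φ ξ := by
    simp only [mul_add, add_mul, sum_add_distrib]
    conv_rhs => rw [← Equiv.sum_comp hi.toPerm (fun ξ => _ * cl ex ey p w (Function.update ξ s _) * _)]
    rw [← sum_add_distrib]
    refine sum_congr rfl fun ξ _ => ?_
    simp only [Function.Involutive.coe_toPerm, Function.update_self, hφ, Function.update_idem,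
      Bool.not_not, Function.update_eq_self]
    cases ξ s <;> simp
  rw [e, mul_sum]
  refine sum_le_sum fun ξ _ => ?_
  beta_reduce
  cases h : ξ s
  · simp
  have e1 := lw_upd (ex := ex) (ey := ey) hw ξ s false
  have e2 := Bs.Pw_update p ξ s true
  rw [← h, Function.update_eq_self, h] at e2
  have hR : 0 ≤ ∏ r ∈ univ.erase s, wb (p r) (ξ r) := prod_nonneg fun r _ => wb_nonneg (hp r) _
  have hZ := Gas.gZ_pos (cpt_qq (ex := ex) (ey := ey) hp) fun g => (hw g).1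
  have hX := lw_nn (fun g => (hw g).1) (L ex ey ξ)
  simp only [cl, Bool.not_true, Bs.Pw_update, e2, if_true, one_mul]
  rw [← mul_assoc (6 * p s)]
  refine mul_le_mul_of_nonneg_right ?_ (h0 ξ)
  rw [← add_div, ← mul_div_assoc]
  refine div_le_div_of_nonneg_right ?_ hZ.le
  simp only [wb, if_true, Bool.false_eq_true, if_false] at hR ⊢
  generalize ∏ r ∈ univ.erase s, (if ξ r = true then p r else 1 - p r) = R at hR ⊢
  have a := mul_nonneg (hp s).1 hR
  nlinarith [mul_le_mul_of_nonneg_left e1 (mul_nonneg a (sub_nonneg.2 (hp s).2)),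
    mul_nonneg (mul_nonneg a (hp s).1) hX]

/-- finite energy for the coins. -/
theorem cl_coins (hp : ∀ s, 0 ≤ p s ∧ p s ≤ 1) (hw : ∀ g, 0 ≤ w g ∧ w g ≤ 7 / 5)
    (S : Finset (Fin T)) : pb (cl ex ey p w) (fun ξ => ∀ s ∈ S, ξ s = true) ≤ ∏ s ∈ S, 6 * p s := by
  have e : ∀ S : Finset (Fin T), pb (cl ex ey p w) (fun ξ => ∀ s ∈ S, ξ s = true) =
      Op.ex (cl ex ey p w) fun ξ => if ∀ s ∈ S, ξ s = true then 1 else 0 := fun S =>
    ex_congr fun ξ _ => by unfold Op.ind; congr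
  rw [e]
  induction S using Finset.induction_on with
  | empty => simp [(pr_cl hp fun g => (hw g).1).ex_const]
  | insert s S hs ih =>
    have h1 := cl_coin (ex := ex) (ey := ey) hp hw s
      (φ := fun ξ => if ∀ r ∈ S, ξ r = true then 1 else 0) (fun ξ => by split_ifs <;> norm_num)
      fun ξ c => if_congr (forall₂_congr fun r hr => by
        rw [Function.update_of_ne (ne_of_mem_of_not_mem hr hs)]) rfl rfl
    rw [prod_insert hs]
    refine le_trans (le_of_eq (ex_congr fun ξ _ => ?_))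
      (h1.trans (mul_le_mul_of_nonneg_left ih (by linarith [(hp s).1])))
    simp only [forall_mem_insert, ite_and]
    split_ifs <;> simp

open Classical in
theorem pb_ch {d : Λ → Λ → ℕ} {M : Mdl T Λ} {P : (Fin T → Bool) → ℝ} {r ns : ℕ}
    {τ : Fin T → ℕ} {c : ℝ} (hw : ∀ ξ, 0 ≤ P ξ) (hp : ∀ s, 0 ≤ M.p s) (hm : Monotone τ)
    (hτ : ∀ s, τ s < ns) (hc : 40 * c ≤ 1)
    (hs : ∀ x j, ∑ s ∈ univ.filter (fun s =>
      τ s = j ∧ ¬ Cheap ex ey d M s ∧ d x (ex s) ≤ r), M.p s ≤ c)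
    (hT : ∀ S : Finset (Fin T), pb P (fun ξ => ∀ s ∈ S, ξ s = true) ≤ ∏ s ∈ S, 6 * M.p s) (k : ℕ) :
    ∀ (t j : ℕ) (x : Λ) (S : Finset (Fin T)), j ≤ ns → (∀ s : Fin T, t ≤ s.val → j ≤ τ s) →
      (∀ s ∈ S, s.val < t) →
      pb P (fun ξ => (∀ s ∈ S, ξ s = true) ∧ Fast.Ch ex ey d M r ξ k t x) ≤
        (∏ s ∈ S, 6 * M.p s) * Real.exp (40 * c * (ns - j) - k) := by
  induction k with
  | zero =>
    intro t j x S hj _ hS
    have h0 : 0 ≤ c := (sum_nonneg fun s _ => hp s).trans (hs x 0)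
    have hP : 0 ≤ ∏ s ∈ S, 6 * M.p s := prod_nonneg fun s _ => by linarith [hp s]
    simp only [Fast.Ch, and_true]
    refine (hT S).trans (le_mul_of_one_le_right hP (Real.one_le_exp ?_))
    have : (j : ℝ) ≤ ns := by exact_mod_cast hj
    simp only [Nat.cast_zero, sub_zero]
    exact mul_nonneg (by linarith) (by linarith)
  | succ k ih =>
    intro t j x S hj ht hS
    have h0 : 0 ≤ c := (sum_nonneg fun s _ => hp s).trans (hs x 0)
    have hP : 0 ≤ ∏ s ∈ S, 6 * M.p s := prod_nonneg fun s _ => by linarith [hp s]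
    set I : Finset (Fin T) := univ.filter fun s => t ≤ s.val ∧ ¬ Cheap ex ey d M s ∧ d x (ex s) ≤ r
      with hI
    set φ : ℕ → ℝ := fun i => Real.exp (40 * c * (ns - i) - k) with hφ
    refine (pb_le_sum hw I (A' := fun s ξ => (∀ s' ∈ insert s S, ξ s' = true) ∧
      Fast.Ch ex ey d M r ξ k (s.val + 1) (ex s)) ?_).trans ?_
    · rintro ω ⟨a, s, b1, b2, b3, b4, b5⟩
      exact ⟨s, mem_filter.2 ⟨mem_univ _, b1, b2, b3⟩, (forall_mem_insert _ _ _).2 ⟨b4, a⟩, b5⟩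
    refine (sum_le_sum (g := fun s => (∏ s ∈ S, 6 * M.p s) * (6 * M.p s * φ (τ s)))
      fun s hs => ?_).trans ?_
    · have hs := (mem_filter.1 hs).2
      have hn : s ∉ S := fun h => by have := hS s h; omega
      refine (ih (s.val + 1) (τ s) (ex s) (insert s S) (hτ s).le (fun s' h => hm ?_)
        ((forall_mem_insert _ _ _).2 ⟨by omega, fun s' h => by have := hS s' h; omega⟩)).trans ?_
      · exact Fin.le_def.2 (by omega)
      · rw [prod_insert hn]; exact le_of_eq (by simp only [hφ]; ring)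
    rw [← mul_sum]
    refine mul_le_mul_of_nonneg_left ?_ hP
    rw [← sum_fiberwise_of_maps_to fun s hs => mem_Ico.2 ⟨ht s (mem_filter.1 hs).2.1, hτ s⟩]
    refine (sum_le_sum (g := fun i => Real.exp (-1) * (φ i - φ (i + 1))) fun i _ => ?_).trans ?_
    · have b1 : ∑ s ∈ I with τ s = i, 6 * M.p s * φ (τ s) =
          6 * (∑ s ∈ I with τ s = i, M.p s) * φ i := by
        rw [mul_sum, sum_mul]
        exact sum_congr rfl fun s hs => by rw [(mem_filter.1 hs).2]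
      have b2 : ∑ s ∈ I with τ s = i, M.p s ≤ c := by
        refine le_trans (sum_le_sum_of_subset_of_nonneg (fun s hs => ?_) fun s _ _ => hp s) (hs x i)
        simp only [hI, mem_filter, mem_univ, true_and] at hs ⊢
        exact ⟨hs.2, hs.1.2.1, hs.1.2.2⟩
      have b3 : φ (i + 1) = Real.exp (40 * c * (ns - i) - k - 40 * c) := by
        simp only [hφ]; push_cast; ring_nf
      rw [b1, b3]
      exact le_trans (mul_le_mul_of_nonneg_right (by linarith) (Real.exp_pos _).le)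
        (Fast.step_le h0 hc _)
    rw [← mul_sum, Fast.tele φ j ns hj]
    have : 0 < φ ns := Real.exp_pos _
    have e : Real.exp (40 * c * (ns - j) - ((k + 1 : ℕ) : ℝ)) = Real.exp (-1) * φ j := by
      simp only [hφ]; rw [← Real.exp_add]; push_cast; ring_nf
    rw [e]
    exact mul_le_mul_of_nonneg_left (by linarith) (Real.exp_pos _).le

/-- **active paths of the tilted gas are slow.** -/
theorem cl_slow {d : Λ → Λ → ℕ} {K : ℝ} {S : Finset Λ} (f : ℕ) (hd : Met ex ey d)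
    (hp : ∀ s, 0 ≤ p s ∧ p s ≤ 1 / 2) (hw : ∀ g, 0 ≤ w g ∧ w g ≤ 7 / 5)
    (hR : Rate ex ey d ⟨p, fun _ => 0⟩ 2 K) :
    pb (cl ex ey p w) (fun ξ => ¬ Slow ex ey d (Act ex ey d ξ) (fun u => u.2 ∈ S) f) ≤
      S.card * Real.exp (40 * K - f) := by
  have hp1 : ∀ s, 0 ≤ p s ∧ p s ≤ 1 := fun s => ⟨(hp s).1, by linarith [(hp s).2]⟩
  have hP := (pr_cl (ex := ex) (ey := ey) hp1 fun g => (hw g).1).nn
  obtain ⟨-, ns, τ, c, hm, hτ, hc, hcK, hs⟩ := hR
  have hW : Slow ex ey d (Cheap ex ey d ⟨p, fun _ => 0⟩) (fun u => u.2 ∈ S) 0 := by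
    intro s t γ a b e
    induction t, a using Nat.le_induction with
    | base => exact (hd.1 _).le
    | succ t a ih =>
      have h1 := ih (by omega) (e.sub le_rfl (by omega))
      have h2 := hd.2.2.1 (γ s) (γ t) (γ (t + 1))
      rcases (e ⟨t, b⟩ a (by simp)).2 with h | ⟨h | h, h3⟩
      · rwa [h]
      · exact absurd (show p ⟨t, b⟩ = 1 from h) (by linarith [(hp ⟨t, b⟩).2])
      · have h4 := hd.2.1 (ex ⟨t, b⟩) (ey ⟨t, b⟩)
        have h5 : d (γ t) (γ (t + 1)) = 0 := by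
          simp only [Equiv.swap_apply_def] at h3
          split_ifs at h3 with h6 h7
          exacts [h3 ▸ h6 ▸ h, h3 ▸ h7 ▸ h4 ▸ h, h3 ▸ hd.1 _]
        omega
  refine (pb_le_sum hP S (A' := fun x ξ => (∀ s ∈ (∅ : Finset (Fin T)), ξ s = true) ∧
    Fast.Ch ex ey d ⟨p, fun _ => 0⟩ 2 ξ f 0 x) fun ξ h => ?_).trans ?_
  · unfold Slow at h
    push Not at h
    obtain ⟨s, t, γ, a, b, e, g⟩ := h
    have hst : s < t := a.lt_of_ne fun h => by rw [h, hd.1] at g; omega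
    exact ⟨γ s, (e ⟨s, hst.trans_le b⟩ le_rfl hst).1, by simp, (Fast.ch_of_path hd hW ξ γ t b f s
      (γ s) a (by rw [hd.1]; omega) e (by omega)).anti (Nat.zero_le _)⟩
  refine (sum_le_card_nsmul _ _ _ fun x _ => pb_ch hP (fun s => (hp s).1) hm hτ hc hs
    (cl_coins hp1 hw) f 0 0 x ∅ (Nat.zero_le _) (fun _ _ => Nat.zero_le _) (by simp)).trans ?_
  simp only [prod_empty, one_mul, nsmul_eq_mul, Nat.cast_zero, sub_zero]
  exact mul_le_mul_of_nonneg_left (Real.exp_le_exp.2 (by linarith)) (Nat.cast_nonneg _)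

end Crest.Agent.N337.M.Tl
end

-- ▼ part N337/M/Tilt
section

/-!
# Row 337, the top (helper49): the extra colour of the tilt is sparse; the chain without the tilt
-/

set_option autoImplicit false
set_option linter.unusedSectionVars false

namespace Crest.Agent.N337.M

open Finset Filter Crest.Agent.N337.Rep Crest.Agent.N337.Op Crest.Agent.N337.Gas
  Crest.Agent.N337.A

namespace Tl

variable {Λ : Type} [Fintype Λ] [DecidableEq Λ] {T : ℕ} [NeZero T]

/-- small loops, no cluster of more than `a` loops. -/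
def Sp (d : Λ → Λ → ℕ) (σ R a : ℕ) (A : Finset (Lp T Λ)) : Prop :=
  (∀ g ∈ A, ∀ v ∈ g.2, ∀ v' ∈ g.2, d v.2 v'.2 ≤ σ) ∧
    ∀ Y ⊆ A, (∀ g ∈ Y, ∀ g' ∈ Y, ∀ v ∈ g.2, ∀ v' ∈ g'.2, d v.2 v'.2 ≤ R) → Y.card ≤ a

/-- the loops rooted at `X` are `k` different members of `A`. -/
def Rt (ex ey : Fin T → Λ) (ξ : Fin T → Bool) (k : ℕ) (X : Finset Λ) (A : Finset (Lp T Λ)) : Prop :=
  (X.image fun z => Gas.lp ex ey ξ (0, z)).card = k ∧ X.image (fun z => Gas.lp ex ey ξ (0, z)) ⊆ A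

open Classical in
lemma av_rt {ex ey : Fin T → Λ} {D : Lp T Λ → ℝ} {δ : ℝ} (hD : ∀ g, 0 ≤ D g) (hδ : ∀ g, D g ≤ δ)
    (ξ : Fin T → Bool) (k : ℕ) (X : Finset Λ) :
    Pe.av D (L ex ey ξ) (Op.ind (Rt ex ey ξ k X)) ≤ δ ^ k := by
  by_cases hY : (X.image fun z => Gas.lp ex ey ξ (0, z)).card = k
  · have := Pe.av_sup D (A := X.image fun z => Gas.lp ex ey ξ (0, z)) (S := L ex ey ξ)
      (fun g hg => by obtain ⟨z, -, rfl⟩ := mem_image.1 hg; exact lp_mem_L _ _) fun _ => 1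
    rw [Pe.av_const, mul_one] at this
    refine (Pe.av_congr fun A _ => by simp only [Op.ind, Rt, hY, true_and]).trans_le
      (this.trans_le ?_)
    rw [← hY, ← prod_const]
    exact prod_le_prod (fun g _ => hD g) fun g _ => hδ g
  · rw [Pe.av_congr (ψ' := fun _ => 0) fun A _ => by simp only [Op.ind, Rt, hY, false_and, if_false],
      Pe.av_const]
    exact pow_nonneg ((hD default).trans (hδ _)) _

open Classical in
lemma av_sp {ex ey : Fin T → Λ} {d : Λ → Λ → ℕ} {D : Lp T Λ → ℝ} {S : Finset Λ} {K f R a V : ℕ}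
    {δ : ℝ} {ξ : Fin T → Bool} (hd : Met ex ey d) (hD : ∀ g, 0 ≤ D g ∧ D g ≤ 1) (hδ : ∀ g, D g ≤ δ)
    (hS : ∀ g, D g ≠ 0 → wd g ≤ K ∧ ∀ v ∈ g.2, v.2 ∈ S)
    (hV : ∀ x, (univ.filter fun z => d x z ≤ R).card ≤ V)
    (hs : Slow ex ey d (Act ex ey d ξ) (fun u => u.2 ∈ S) f) :
    Pe.av D (L ex ey ξ) (Op.ind fun A => ¬ Sp d ((K + 1) * f) R a A) ≤
      S.card * (V * δ) ^ (a + 1) := by
  refine ((Ld.pl_av (X := L ex ey ξ) fun g _ => hD g).union_le
    (S.sigma fun x => powersetCard (a + 1) (univ.filter fun z => d x z ≤ R))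
    (S' := fun i => Rt ex ey ξ (a + 1) i.2) (fun A hA h => ?_)
    fun i _ => av_rt (fun g => (hD g).1) hδ ξ _ _).trans ?_
  · rw [Sp, not_and_or] at h
    rcases h with h | h
    · refine absurd (fun g hg v hv v' hv' => ?_) h
      have e := eq_lp (hA.1 hg) hv
      obtain ⟨h1, h2⟩ := hS g (hA.2 g hg)
      rw [e] at h1 h2 hv'
      exact loop_near hd hs ξ v (by simpa only [wd, wind, lp_snd, mem_obv] using h1)
        (fun _ _ h _ => .inl h) (fun w hw _ => h2 w (mem_obv.2 hw)) v' (mem_obv.1 hv')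
    push Not at h
    obtain ⟨Y0, h1, h2, h3⟩ := h
    obtain ⟨Y, h4, h5⟩ := exists_subset_card_eq h3
    have : ∀ g : Lp T Λ, ∃ z : Λ, g ∈ L ex ey ξ → (0, z) ∈ g.2 := fun g => by
      by_cases hg : g ∈ L ex ey ξ
      · obtain ⟨v, rfl⟩ := mem_L.1 hg
        obtain ⟨z, hz⟩ := exists_time ex ey ξ (o (Sg ex ey ξ) v) 0
        exact ⟨z, fun _ => mem_obv.2 hz⟩
      · exact ⟨ex 0, fun h => absurd h hg⟩
    choose rt hrt using this
    have hL : ∀ g ∈ Y, g ∈ L ex ey ξ := fun g hg => hA.1 (h1 (h4 hg))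
    obtain ⟨g0, hg0⟩ := card_pos.1 (h5 ▸ Nat.succ_pos a)
    have e : (Y.image rt).image (fun z => Gas.lp ex ey ξ (0, z)) = Y := by
      rw [image_image]
      exact (image_congr fun g hg => (eq_lp (hL g hg) (hrt g (hL g hg))).symm).trans image_id
    refine ⟨⟨rt g0, Y.image rt⟩, mem_sigma.2 ⟨(hS g0 (hA.2 _ (h1 (h4 hg0)))).2 _ (hrt _ (hL _ hg0)),
      mem_powersetCard.2 ⟨fun z hz => ?_, le_antisymm (card_image_le.trans h5.le)
        (h5.ge.trans ((congrArg card e).ge.trans card_image_le))⟩⟩,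
      (congrArg card e).trans h5, e.le.trans (h4.trans h1)⟩
    obtain ⟨g, hg, rfl⟩ := mem_image.1 hz
    exact mem_filter.2 ⟨mem_univ _, h2 _ (h4 hg0) _ (h4 hg) _ (hrt _ (hL _ hg0)) _ (hrt _ (hL _ hg))⟩
  · rw [mul_pow, ← mul_assoc, card_sigma]
    refine mul_le_mul_of_nonneg_right ?_ (pow_nonneg ((hD default).1.trans (hδ _)) _)
    exact_mod_cast sum_le_card_nsmul _ _ _ fun x _ => (card_powersetCard _ _).trans_le
      ((Nat.choose_le_pow _ _).trans (Nat.pow_le_pow_left (hV x) _))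

variable {G : Bs T Λ} {s : Cfg T Λ}

open Classical in
/-- **the extra colour of the tilt is sparse.** -/
theorem hE_sp {y t K0 : ℝ} {K N f R a V : ℕ} (hG : G.Ok) (he : s.e = ∅) (hN : s.Sup N)
    (y0 : 0 ≤ y) (y1 : y ≤ 1) (t0 : 0 ≤ t) (t1 : t * K ≤ 1 / 4)
    (hR : Rate G.ex G.ey G.d ⟨G.p, fun _ => 0⟩ 2 K0)
    (hV : ∀ x, (univ.filter fun z => G.d x z ≤ R).card ≤ V) :
    G.hE (tw y t K) y s (Op.ind fun A => ¬ Sp G.d ((K + 1) * f) R a A) ≤
      N * Real.exp (40 * K0 - f) + N * (V * (2 * t * K)) ^ (a + 1) := by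
  obtain ⟨S, hN, hS⟩ := hN
  have hN : (S.card : ℝ) ≤ N := Nat.cast_le.2 hN
  have key : ∀ g : Lp T Λ, 0 ≤ tw y t K g - yw y g ∧ tw y t K g - yw y g ≤ 2 * t * K ∧
      tw y t K g ≤ 7 / 5 := fun g => by
    have a0 := M.yw_nn y0 g
    have a1 : yw y g ≤ 1 := yw_eq y g ▸ pow_le_one₀ y0 y1
    have b0 := mul_nonneg t0 (kw_nn K g)
    have b1 := mul_le_mul_of_nonneg_left (kw_le K g) t0
    have b2 := Real.exp_bound_div_one_sub_of_interval b0 (by linarith)
    rw [le_div_iff₀ (by linarith)] at b2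
    have b3 := Real.one_le_exp b0
    have b4 : Real.exp (t * kw K g) ≤ 1 + 4 / 3 * (t * kw K g) := by nlinarith
    rw [Tp.tw_eq]
    exact ⟨by nlinarith, by nlinarith, by nlinarith⟩
  have u0 := Cfg.u_nn (M.yw_nn y0) s
  have D0 := Cfg.u_nn (fun g => (key g).1) s
  have hw : ∀ g, 0 ≤ s.u (tw y t K) g ∧ s.u (tw y t K) g ≤ 7 / 5 := fun g => by
    unfold Cfg.u off; split_ifs
    exacts [by norm_num, ⟨by linarith [(key g).1, M.yw_nn y0 g], (key g).2.2⟩]
  have hp := pr_cl (ex := G.ex) (ey := G.ey) hG.p1 fun g => (hw g).1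
  have hD : ∀ g, s.u (fun g => tw y t K g - yw y g) g /
      (1 + (s.u (yw y) g + s.u (fun g => tw y t K g - yw y g) g)) ≤ 2 * t * K := fun g => by
    refine (div_le_self (D0 g) (by linarith [u0 g, D0 g])).trans ?_
    unfold Cfg.u off; split_ifs
    exacts [by positivity, (key g).2.1]
  have hD1 := fun g => And.intro (div_nonneg (D0 g) (add_nonneg zero_le_one (add_nonneg (u0 g) (D0 g))))
    ((hD g).trans (by linarith : 2 * t * K ≤ 1))
  rw [hE_eq, Bs.q, Bs.pn, he, pin_empty, hx_coin u0 D0, Pl.tot_u]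
  refine (ex_mono hp.nn (g := fun ξ => Op.ind (fun ξ => ¬ Slow G.ex G.ey G.d (Act G.ex G.ey G.d ξ)
    (fun u => u.2 ∈ S) f) ξ + S.card * (V * (2 * t * K)) ^ (a + 1)) fun ξ => ?_).trans ?_
  · by_cases hs : Slow G.ex G.ey G.d (Act G.ex G.ey G.d ξ) (fun u => u.2 ∈ S) f
    · refine (av_sp hG.d hD1 hD (fun g hg => ?_) hV hs).trans (le_add_of_nonneg_left (ind_nn _ _))
      have h1 := (div_ne_zero_iff.1 hg).1
      refine ⟨by_contra fun h => h1 ?_, fun v hv => hS v (Tp.u_supp h1 hv).1⟩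
      simp [Cfg.u, off, tw, h]
    · rw [Op.ind, if_pos hs]
      exact ((Pe.av_mono (fun g _ => hD1 g) fun _ _ => ind_le_one _ _).trans_eq
        (Pe.av_const _ _ 1)).trans (le_add_of_nonneg_right (by positivity))
  · rw [ex_add, hp.ex_const]
    refine add_le_add (le_trans (le_of_eq ?_) ((cl_slow (S := S) f hG.d hG.p hw hR).trans ?_)) ?_
    · exact ex_congr fun ξ _ => by unfold Op.ind; congr
    all_goals exact mul_le_mul_of_nonneg_right hN (by positivity)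

variable {X α κ : Type} [Fintype X] [DecidableEq X] [SemilatticeSup α] [Preorder κ]

/-- a party that is covered by few small balls does not raise the rung. -/
lemma good_sp {S : Rg.Sys X α κ} {E B : α} {Z : κ} {d m t r : ℕ} {x : X} {F : Finset X}
    (h : ∀ y, S.G0 0 E Z y) (hF : F.card ≤ (t + 1) * S.a) (hr : r + S.loc m ≤ S.rad m t)
    (hB : ∀ z, S.hit B z → S.d x z ≤ S.loc (m + 1) → ∃ f ∈ F, S.d f z ≤ r) :
    S.Good d (E ⊔ B) Z (m + 1) t x := by
  classical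
  have key : ∀ y l, S.In m t x y → S.Off F (S.rad m t) y → S.Good d (E ⊔ B) Z m l y :=
    fun y l h1 h2 => (good_bot S h d m l y).loc fun z hz => by
      by_contra h3
      have a1 := S.d_tri x y z
      have a2 := h1.d_le
      obtain ⟨f, hf, a3⟩ := hB z hz (by simp only [Rg.Sys.loc]; omega)
      have a4 := h2 f hf
      have a5 := S.d_tri f z y
      have a6 := S.d_comm z y
      omega
  refine ⟨F, hF, fun y h1 h2 => key y _ h1 h2, fun l _ c => ?_⟩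
  rw [filter_eq_empty_iff.2 fun y _ hy => hy.2.2.2 (key y _ hy.1 hy.2.1)]
  simp

lemma cl_sp {I : Ins T Λ X α κ} {σ R a m t : ℕ} {A : Finset (Lp T Λ)}
    (hd : ∀ x z, G.d x z = I.S.d (I.π x) (I.π z)) (h0 : ∀ y, I.S.G0 0 (I.pa s.e) (I.kz s.Z) y)
    (hh : ∀ z, I.S.hit (I.pa A) z → ∃ g ∈ A, ∃ v ∈ g.2, I.S.d (I.π v.2) z ≤ 1)
    (ha : a ≤ (t + 1) * I.S.a) (hr : σ + 1 + I.S.loc m ≤ I.S.rad m t)
    (hR : 2 * (I.S.loc (m + 1) + 1 + σ) ≤ R) (h : Sp G.d σ R a A) :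
    I.Cl (m + 1) t ∅ 0 (s.add A) := fun x _ => by
  classical
  set Y := A.filter fun g => ∃ v ∈ g.2, I.S.d x (I.π v.2) ≤ I.S.loc (m + 1) + 1
  have : ∀ g : Lp T Λ, ∃ z : Λ, g ∈ Y → ∀ v ∈ g.2, G.d z v.2 ≤ σ ∧
      I.S.d x (I.π z) ≤ I.S.loc (m + 1) + 1 := fun g => by
    by_cases hg : g ∈ Y
    · obtain ⟨h1, v, h2, h3⟩ := mem_filter.1 hg
      exact ⟨v.2, fun _ v' h4 => ⟨h.1 g h1 v h2 v' h4, h3⟩⟩
    · exact ⟨G.ex 0, fun h => absurd h hg⟩
  choose c hc using this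
  show I.S.Good 0 (I.pa (s.e ∪ A)) _ _ _ _
  rw [I.pa_union]
  refine good_sp (F := Y.image fun g => I.π (c g)) h0 (card_image_le.trans ((h.2 Y
    (filter_subset _ _) fun g hg g' hg' v hv v' hv' => ?_).trans ha)) hr fun z hz h1 => ?_
  · have a1 := hc g hg v hv
    have a2 := hc g' hg' v' hv'
    have a3 := I.S.d_tri (I.π v.2) x (I.π v'.2)
    have a4 := I.S.d_tri x (I.π (c g)) (I.π v.2)
    have a5 := I.S.d_tri x (I.π (c g')) (I.π v'.2)
    have a6 := I.S.d_comm x (I.π v.2)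
    simp only [hd] at a1 a2 ⊢
    omega
  · obtain ⟨g, h2, v, h3, h4⟩ := hh z hz
    have a1 := I.S.d_tri x z (I.π v.2)
    have a2 := I.S.d_comm z (I.π v.2)
    have hg : g ∈ Y := mem_filter.2 ⟨h2, v, h3, by omega⟩
    have a3 := (hc g hg v h3).1
    have a4 := I.S.d_tri (I.π (c g)) (I.π v.2) z
    rw [hd] at a3
    exact ⟨_, mem_image_of_mem _ hg, by omega⟩

/-- **the junk step of the tilted top colour** from the untilted one. -/
theorem stepH_tw {I : Ins T Λ X α κ} {P : Par Λ} {J K f R a V m : ℕ} {t K0 : ℝ} (hG : G.Ok)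
    (T0 : ∀ j, 0 ≤ P.Tf j) (hy : (P.lev I G).y J ≤ (P.lev I G).y (J + 1)) (D : P.Dlv I G J)
    (hJ : J + 1 = 3 * (m + 1) + 1) (he : s.e = ∅) (hB : P.Base (J + 1) s) (t0 : 0 ≤ t)
    (t1 : t * K ≤ 1 / 4) (hR : Rate G.ex G.ey G.d ⟨G.p, fun _ => 0⟩ 2 K0)
    (hV : ∀ x, (univ.filter fun z => G.d x z ≤ R).card ≤ V)
    (hd : ∀ x z, G.d x z = I.S.d (I.π x) (I.π z)) (h0 : ∀ y, I.S.G0 0 (I.pa s.e) (I.kz s.Z) y)
    (hh : ∀ A, G.q s A ≠ 0 → ∀ z, I.S.hit (I.pa A) z → ∃ g ∈ A, ∃ v ∈ g.2, I.S.d (I.π v.2) z ≤ 1)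
    (ha : a ≤ (P.tP (J + 1) + 1) * I.S.a)
    (hr : (K + 1) * f + 1 + I.S.loc m ≤ I.S.rad m (P.tP (J + 1)))
    (hR' : 2 * (I.S.loc (m + 1) + 1 + (K + 1) * f) ≤ R) :
    G.StepH (tw ((P.lev I G).y (J + 1)) t K) ((P.lev I G).y J) (fun s' => s' = s) (P.Post I (J + 1))
      (P.N (J + 1) * Real.exp (40 * K0 - f) + P.N (J + 1) * (V * (2 * t * K)) ^ (a + 1) +
        P.e (J + 1) / 10) := by
  classical
  have y0 := (P.lev I G).y_nn (J + 1)
  have hW : ∀ g : Lp T Λ, yw ((P.lev I G).y (J + 1)) g ≤ tw ((P.lev I G).y (J + 1)) t K g :=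
    fun g => le_mul_of_one_le_right (M.yw_nn y0 g) (Real.one_le_exp (by positivity))
  refine stepH_comp (Mid := P.Pre I G (J + 1)) hG (Lev.y_nn J) hy hW (by linarith [D.e0]) ?_
    (D.stepH.and fun s x h => h.1.1)
  rintro s hs rfl
  refine le_trans (ex_mono_ae (pr_nu (hG.cpt s).qL (Pc.two_nn (Cfg.u_nn (M.yw_nn y0) s)
    (Cfg.u_nn (fun g => sub_nonneg.2 (hW g)) s))).nn fun X hX => ?_)
    (hE_sp hG he hB.1 y0 (Lev.y_le_one T0 _) t0 t1 hR hV)
  refine Ld.ind_le (ind_nn _ _) fun h => (Ld.ind_pos fun h' => h ⟨⟨hB, by omega⟩, ?_⟩).ge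
  rw [show (J + 1) / 3 = m + 1 by omega]
  exact cl_sp hd h0 (hh _ ((hG.cpt s).ne_of_sub (fg_mono (filter_subset _ X))
    (qL_supp (nu_supp hX).1).2)) ha hr hR' h'

lemma card_dS {L n : ℕ} [NeZero L] (x : Top.Sl L n) (R : ℕ) :
    (univ.filter fun z => dS x z ≤ R).card ≤ n * (2 * R + 1) ^ 3 := by
  have := card_le_card (s := univ.filter fun z => dS x z ≤ R)
    (t := (univ.filter fun z => tdist x.1 z ≤ R) ×ˢ univ)
    fun z hz => mem_product.2 ⟨mem_filter.2 ⟨mem_univ _, (mem_filter.1 hz).2⟩, mem_univ _⟩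
  rw [card_product, card_univ, Fintype.card_fin, mul_comm] at this
  exact this.trans (Nat.mul_le_mul_left _ (Free.card_ball_le _ _))

end Tl

open Crest.Agent.N337.Top

/-- **everything that remains**, without the tilt: `m + 1` = scale of the top level `J + 1`. -/
def FinStmt2 : Prop :=
  ∀ (n : ℕ) [NeZero n], ∃ β0 : ℝ, ∀ β : ℝ, β0 ≤ β → ∀ (K : ℕ) (ε : ℝ), 0 < ε →
    ∃ (J m l σ : ℕ) (Tf : ℕ → ℝ) (lam η : ℝ), Tf 0 = 0 ∧
      (∀ j, 0 < Tf (j + 1) ∧ Tf (j + 1) ≤ Tf (j + 2)) ∧ 1 / Tf (J + 1) ≤ ε * lam ∧ lam ≤ ε ∧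
      β ≤ ε * (1 / Tf (J + 1)) * l ∧ J + 1 = 3 * (m + 1) + 1 ∧
      lam * K ≤ 1 / 4 ∧ lam * Tf J ≤ 1 ∧ 2 * K ≤ Tf J ∧
      lam * (c1 * (1 + c1)) * (n * K + n ^ 2 * (2 * σ + 1) ^ 3 + η * n ^ 2 * l ^ 3) ≤ ε ∧
      ∀ᶠ L : ℕ in atTop, ∀ sy : List (Sl (L + 1) n × Sl (L + 1) n × ℝ), Sym sy →
        ∀ᶠ w : ℕ in atTop, ∀ z : Tor 3 (L + 1), ∃ (Q : I.Num) (P : Par (Sl (L + 1) n)) (f a : ℕ),
          P.Tf = Tf ∧ P.σ (J + 1) = σ ∧ 0 ≤ P.e 0 ∧ P.Dm = cubeS n z l ∧ n * l ^ 3 ≤ P.N (J + 1) ∧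
          (∀ j ≤ J, P.Dlv (insT Q z β w sy) (GT β w sy) j) ∧
          a ≤ (P.tP (J + 1) + 1) * Q.a ∧
          (K + 1) * f + 1 + (insT Q z β w sy).S.loc m ≤ Q.rad m (P.tP (J + 1)) ∧
          12 * P.e (J + 1) + 110 * (P.N (J + 1) * Real.exp (40 * Kw n β 2 - f) + P.N (J + 1) *
            (n * (4 * ((insT Q z β w sy).S.loc (m + 1) + 1 + (K + 1) * f) + 1) ^ 3 *
              (2 * lam * K)) ^ (a + 1)) ≤ η

theorem chain_of2 (hF : FinStmt2) : ChainStmt := by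
  intro n _
  obtain ⟨β0, hF⟩ := hF n
  refine ⟨max β0 0, fun β hβ K ε hε => ?_⟩
  obtain ⟨J, m, l, σ, Tf, lam, η, t0, t1, a1, a2, a3, a5, a6, a7, a8, a4, hF⟩ :=
    hF β ((le_max_left _ _).trans hβ) K ε hε
  refine ⟨1 / Tf (J + 1), lam, c1 * (1 + c1), 20, η, l, σ, one_div_pos.2 (t1 J).1, a1, a2, a3,
    by norm_num [c1], a4, hF.mono fun L hL sy hs => ((hL sy hs).and
      (eventually_ge_atTop (60 * n ^ 2 * (2 * 2 + 1) ^ 3))).mono fun w ⟨hw, hw'⟩ z t h1 h2 => ?_⟩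
  obtain ⟨Q, P, f, a, rfl, rfl, e0, b1, b2, hD, b3, b4, b5⟩ := hw z
  have hβ0 : 0 ≤ β := (le_max_right _ _).trans hβ
  have hG := ok_GT hβ0 w hs
  have T0 : ∀ j, 0 ≤ P.Tf j := fun j => by
    cases j with
    | zero => exact t0.ge
    | succ j => exact (t1 j).1.le
  refine ⟨fun s => s = s0 z l, rfl, ?_⟩
  have ey : (P.lev (insT Q z β w sy) (GT β w sy)).y (J + 1) = Real.exp (-(1 / P.Tf (J + 1))) := by
    rw [Lev.y, if_neg (by omega), neg_div]; rfl
  have hy : ∀ j, (P.lev (insT Q z β w sy) (GT β w sy)).y j ≤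
      (P.lev (insT Q z β w sy) (GT β w sy)).y (j + 1) := fun j => by
    cases j with
    | zero => rw [Lev.y, if_pos rfl]; exact Lev.y_nn _
    | succ j =>
      rw [Lev.y, Lev.y, if_neg (by omega), if_neg (by omega), neg_div, neg_div]
      exact Real.exp_le_exp.2 (neg_le_neg (one_div_le_one_div_of_le (t1 j).1 (t1 j).2))
  have hB : P.Base (J + 1) (s0 (T := TT β w sy) z l) :=
    ⟨⟨cubeS n z l, (card_cubeS z l).trans b2, fun v hv => mem_cubeS.2 (by simpa [s0] using hv)⟩,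
      fun v hv => b1 ▸ mem_cubeS.2 (by simpa [s0] using hv)⟩
  have k0 : (0 : ℝ) ≤ K := Nat.cast_nonneg _
  have k1 : t * K ≤ 1 / 4 := (mul_le_mul_of_nonneg_right h2 k0).trans a6
  have hH := Tl.stepH_tw (R := 2 * ((insT Q z β w sy).S.loc (m + 1) + 1 + (K + 1) * f))
    (V := n * (2 * (2 * ((insT Q z β w sy).S.loc (m + 1) + 1 + (K + 1) * f)) + 1) ^ 3)
    hG T0 (hy J) (hD J le_rfl) a5 rfl hB h1 k1 (rate_word hβ0 hs _ (hw'.trans (Nat.le_succ _)))
    (fun x => Tl.card_dS x _) (fun _ _ => rfl) (fun y => cl_s0 Q z z β w sy l 0 0 0 ∅ y (by simp [Rg.Sys.Off]))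
    (fun A hA y hy => ?_) b3 b4 le_rfl
  · have e1 := (hD J le_rfl).e0
    have := Tl.top' peel monoStmt zeroStmt hG t0 T0 hy e0
      (fun j hj => (hD j hj).step (boxO giv) (boxC giv) monoStmt zeroStmt hG)
      (Tl.admW_tw T0 (by omega) (hy J) h1 (k1.trans (by norm_num))
        ((mul_le_mul_of_nonneg_right h2 (T0 J)).trans a7) a8)
      ⟨⟨hB, by omega⟩, cl_s0 _ _ _ _ _ _ _ _ _ _ _⟩ (by positivity) hH
    rw [ey] at this
    refine monoStmt _ _ _ _ _ _ _ _ _ _ _ _ _ _ _ _ _ hG (fun g => mul_nonneg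
      (M.yw_nn (Real.exp_pos _).le g) (Real.exp_pos _).le) (fun _ h => h) (fun _ h => h) le_rfl
      (by norm_num [c1]) le_rfl (le_trans ?_ b5) this
    have : (P.N (J + 1) : ℝ) * (((n * (2 * (2 * ((insT Q z β w sy).S.loc (m + 1) + 1 + (K + 1) * f))
        + 1) ^ 3 : ℕ) : ℝ) * (2 * t * K)) ^ (a + 1) ≤ P.N (J + 1) *
        (n * (4 * ((insT Q z β w sy).S.loc (m + 1) + 1 + (K + 1) * f) + 1) ^ 3 *
          (2 * lam * K)) ^ (a + 1) := by
      push_cast
      rw [← mul_assoc (2 : ℝ) 2, show (2 : ℝ) * 2 = 4 by norm_num]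
      gcongr
    show 110 * _ + P.e (J + 1) ≤ _
    linarith
  · obtain ⟨ξ, -, hξ⟩ := qq_supp hA
    replace hy : I.hit (I.ev (GT β w sy).ex (GT β w sy).ey A) y := hy
    rw [I.ev_eq hξ] at hy
    obtain ⟨v, h3, h4⟩ := I.hit_evp hG.d.2.2.2 hy
    obtain ⟨g, h5, h6⟩ := mem_pts.1 h3
    exact ⟨g, h5, v, h6, h4.elim (by rintro rfl; exact (hG.d.1 v.2).trans_le zero_le_one) id⟩

/-- **the polar bound** from the parameters, the deliverables and the long loop bound. -/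
theorem polar2 (hF : FinStmt2) (hL : LongStmt) : C.PolarStmt :=
  polar_of sym bridge (short kill (top (chain_of2 hF))) hL

end Crest.Agent.N337.M
end

-- ▼ part N337/Par/Top
section

/-!
# Row 337 (helper80): the top of the chain on the tiers; `FinStmt2` from the levels
-/

set_option autoImplicit false

namespace Crest.Agent.N337.Par

open Finset Filter Crest.Agent.N337.A Crest.Agent.N337.M Crest.Agent.N337.Top
  Crest.Agent.N337.Free

/-- **all levels below the top `3 m + 4`**, top cube of side `x u (m + 1) 27`. -/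
def DlvAll : Prop :=
  ∀ (n : ℕ) [NeZero n], ∃ u0 : ℕ, ∀ u, u0 ≤ u → ∀ (h : Bg n u) (β : ℝ), Y u 10 ≤ Bw β →
    Bw β ≤ Y u 11 → ∀ m : ℕ, ∃ L0 : ℕ, ∀ (L : ℕ) [NeZero L], L0 ≤ L →
      ∀ (sy : List (Sl L n × Sl L n × ℝ)) (w : ℕ), Wd β w sy → ∀ z : Tor 3 L, ∃ r : Rt,
        ∀ j ≤ 3 * m + 3, (lev n β u r z (x u (m + 1) 27)).Dlv
          (insT (num h (Dw w sy) 12) z β w sy) (GT β w sy) j

variable {n u m K : ℕ} {β ε : ℝ}

lemma top_tilt [NeZero n] (h : Bg n u) (hB : Bw β ≤ Y u 11) (hK : K ≤ Y u (48 * m + 11)) {c : ℕ}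
    (hc : c ≤ Y u (48 * m + 60)) :
    12 * s u (48 * m + 104) + 110 * (Y u (48 * m + 100) *
      Real.exp (40 * Kw n β 2 - Y u (48 * m + 12)) + Y u (48 * m + 100) *
        (n * (4 * (c + 1 + (K + 1) * Y u (48 * m + 12)) + 1) ^ 3 * (2 * s u (48 * m + 82) * K)) ^
          (ca + 1)) ≤ s u (48 * m + 99) := by
  have hu := h.hu
  have hn := h.hn
  have a1 : 40 * Kw n β 2 + Y u (48 * m + 11) ≤ Y u (48 * m + 12) := by
    unfold Kw
    change ⌊β⌋₊ + 1 ≤ _ at hB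
    generalize ⌊β⌋₊ + 1 = b at hB
    tier! (48 * m + 11)
  have a2 : Real.exp (40 * Kw n β 2 - Y u (48 * m + 12)) ≤ s u (48 * m + 104) :=
    (Real.exp_le_exp.2 (by
      have : (40 * Kw n β 2 + Y u (48 * m + 11) : ℝ) ≤ Y u (48 * m + 12) := by exact_mod_cast a1
      linarith)).trans (exp_neg_le' (k := 48 * m + 11) h.u4 (by omega))
  have a3 : (n * (4 * (c + 1 + (K + 1) * Y u (48 * m + 12)) + 1) ^ 3 * (2 * K) : ℝ) *
      s u (48 * m + 82) ≤ s u (48 * m + 81) := by rtier! (48 * m + 81)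
  have a4 := pow_small (j := 23) (N := ca + 1) (x := n * (4 * (c + 1 + (K + 1) *
      Y u (48 * m + 12)) + 1) ^ 3 * (2 * s u (48 * m + 82) * K))
    (by have := s_pos u (48 * m + 82); positivity) (le_of_eq_of_le (by ring) a3)
    (by have := Dp_le_cE (j := 23) (by norm_num); unfold ca; omega)
  have a5 : (12 + 220 * (Y u (48 * m + 100) : ℝ)) * s u (48 * m + 104) ≤ s u (48 * m + 99) := by
    rtier! (48 * m + 100)
  have a6 := Yr_pos u (48 * m + 100)
  nlinarith [mul_le_mul_of_nonneg_left a2 a6.le, mul_le_mul_of_nonneg_left a4 a6.le]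

lemma top_var (h : Bg n u) (hK : K ≤ Y u (48 * m + 11)) :
    s u (48 * m + 82) * (c1 * (1 + c1)) * (n * K + n ^ 2 * (2 * Y u (48 * m + 80) + 1) ^ 3 +
      s u (48 * m + 99) * n ^ 2 * (Y u (48 * m + 86) : ℝ) ^ 3) ≤ s u (48 * m + 11) := by
  have hu := h.hu
  have hn := h.hn
  have a1 : (n ^ 2 * (Y u (48 * m + 86) : ℝ) ^ 3) * s u (48 * m + 99) ≤ s u 0 := by
    rtier! (48 * m + 86)
  have a2 : (4000 * (1 + 4000) * (n * K + n ^ 2 * (2 * Y u (48 * m + 80) + 1) ^ 3 + s u 0) : ℝ) *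
      s u (48 * m + 82) ≤ s u (48 * m + 11) := by rtier! (48 * m + 80)
  have a3 := s_pos u (48 * m + 82)
  unfold c1
  nlinarith

/-- **the top.** -/
theorem fin2_of (H : DlvAll) : FinStmt2 := by
  intro n _
  obtain ⟨u0, H⟩ := H n
  obtain ⟨u1, h1⟩ := eventually_atTop.1 (ev_Bg n)
  obtain ⟨B0, hB0⟩ := exists_u 10 (max u0 u1)
  refine ⟨max 1 B0, fun β hβ K ε hε => ?_⟩
  have β1 : 1 ≤ β := (le_max_left _ _).trans hβ
  obtain ⟨u, u2, b1, b2⟩ := hB0 (Bw β) (Nat.cast_le.1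
    (((le_max_right _ _).trans hβ).trans (lt_Bw β).le))
  have h := h1 u ((le_max_right _ _).trans u2)
  have hu := h.hu
  have hn := h.hn
  obtain ⟨m, m1, m2⟩ : ∃ m : ℕ, K ≤ m ∧ ε⁻¹ ≤ m :=
    ⟨max K ⌈ε⁻¹⌉₊, le_max_left _ _, (Nat.le_ceil _).trans (Nat.cast_le.2 (le_max_right _ _))⟩
  have m3 : m ≤ Y u (48 * m + 11) := le_trans (by omega) (self_le_Y hu _)
  have hK := m1.trans m3
  have he : s u (48 * m + 11) ≤ ε := by
    rw [s]; exact inv_le_of_inv_le₀ hε (m2.trans (Nat.cast_le.2 m3))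
  obtain ⟨L0, H⟩ := H u ((le_max_left _ _).trans u2) h β b1 b2 m
  have t1 : Tf u (3 * m + 3 + 1) = Y u (48 * m + 85) := by
    rw [Tf_ne (by omega), tb_eq]; congr 2; omega
  have t2 : Tf u (3 * m + 3) = Y u (48 * m + 49) := by
    rw [Tf_ne (by omega), tb_eq]; congr 2; omega
  have t3 : 1 / (Y u (48 * m + 85) : ℝ) = s u (48 * m + 85) := one_div _
  have p := s_pos u (48 * m + 82)
  have q := (s_anti (u := u) (show 48 * m + 11 ≤ 48 * m + 82 by omega)).trans he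
  refine ⟨3 * m + 3, m, x u (m + 1) 27, Y u (48 * m + 80), Tf u, s u (48 * m + 82),
    s u (48 * m + 99), Tf_zero, Tf_step, ?_, q, ?_, rfl, ?_, ?_, ?_, (top_var h hK).trans he,
    (Wd.ev (n := n) β1 L0).mono fun L hL sy hs => (hL.2 sy hs).mono fun w W z => ?_⟩
  · have : (1 : ℝ) * s u (48 * m + 85) ≤ s u (48 * m + 82) ^ 2 := by rtier! (48 * m + 82)
    rw [t1, t3]; nlinarith
  · have a1 : Bw β * Y u (48 * m + 11) * Y u (48 * m + 85) ≤ Y u (48 * m + 86) := by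
      tier! (48 * m + 85)
    have a2 : (Bw β * Y u (48 * m + 11) * Y u (48 * m + 85) : ℝ) ≤ Y u (48 * m + 86) := by
      exact_mod_cast a1
    have a3 := s_pos u (48 * m + 85)
    have a4 := s_pos u (48 * m + 11)
    rw [t1]
    calc β ≤ Bw β * (s u (48 * m + 11) * Y u (48 * m + 11)) *
          (s u (48 * m + 85) * Y u (48 * m + 85)) := by
          rw [s_mul, s_mul, mul_one, mul_one]; exact (lt_Bw β).le
      _ = s u (48 * m + 11) * s u (48 * m + 85) *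
          (Bw β * Y u (48 * m + 11) * Y u (48 * m + 85)) := by ring
      _ ≤ _ := mul_le_mul (by rw [t3]; gcongr) a2 (by positivity) (by positivity)
  · have : (K : ℝ) * s u (48 * m + 82) ≤ s u 0 := by rtier! (48 * m + 11)
    linarith [s_le_num hu 0]
  · have : (Y u (48 * m + 49) : ℝ) * s u (48 * m + 82) ≤ s u 0 := by rtier! (48 * m + 49)
    rw [t2]; linarith [s_le_one u 0]
  · rw [t2]; rtier! (48 * m + 11)
  · obtain ⟨r, H⟩ := H (L + 1) hL.1 sy w W z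
    have e1 : (3 * m + 3 + 1) / 3 = m + 1 := by omega
    have l0 := fun k => (pb_loc (T := TT β w sy) h (Dw w sy) 12 le_rfl z k).up (k' := 48 * k + 12)
      (by norm_num) (by omega)
    refine ⟨num h (Dw w sy) 12, lev n β u r z (x u (m + 1) 27), Y u (48 * m + 12), ca, rfl, ?_,
      (s_pos _ _).le, rfl, ?_, H, Nat.le_mul_of_pos_left _ (by omega), ?_, ?_⟩
    · change Y u _ = _
      rw [tb_eq]; congr 1; omega
    · change _ ≤ Y u _
      tier! (48 * m + 86)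
    · have := l0 m
      refine le_trans ?_ (Nat.le_mul_of_pos_left (x u m 12) (by positivity))
      change _ + (I.sys n (TT β w sy) (num h (Dw w sy) 12) z).loc m ≤ _
      tier! (48 * m + 12)
    · have := top_tilt h b2 hK (l0 (m + 1))
      change 12 * s u _ + 110 * ((Y u _ : ℕ) * _ + (Y u _ : ℕ) * _) ≤ _
      rw [e1]
      exact this

end Crest.Agent.N337.Par
end

-- ▼ part N337/M/Fin0

/-!
# Row 337, the chain (helper56): `DlvAll` from the joints on the concrete objects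
-/

set_option autoImplicit false
set_option linter.unusedSectionVars false

namespace Crest.Agent.N337.M

open Finset Crest.Agent.N337.Free Crest.Agent.N337.Gas Crest.Agent.N337.A Crest.Agent.N337.Top
  Crest.Agent.N337.Par

variable {L n : ℕ} [NeZero L] [NeZero n]

lemma Tf_mono (u : ℕ) {j k : ℕ} (h : j ≤ k) : Tf u j ≤ Tf u k := by
  by_cases hj : j = 0
  · rw [hj, Tf_zero]; exact Tf_nn k
  · rw [Tf_ne hj, Tf_ne (by omega)]
    exact Nat.cast_le.2 (Y_mono (by have := tb_mono h; omega))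

lemma Tf_pos (u : ℕ) {j : ℕ} (h : j ≠ 0) : 0 < Tf u j := by rw [Tf_ne h]; exact Yr_pos _ _

namespace Ctx
variable {u ms w : ℕ} {β : ℝ} {sy : List (Sl L n × Sl L n × ℝ)} (C : Ctx u ms β w sy)
  (z : Tor 3 L)

/-- the levels as a `Lev`. -/
noncomputable abbrev V := (PP n u ms β z).lev (C.I z) (GT β w sy)

/-- joint (A): the cell claims of all scales. -/
def JA : Prop := ∀ m ≤ ms + 1, ∀ Yp, yl u (3 * m) ≤ Yp → Yp ≤ Yt u ms → C.Cel z m Yp

/-- joint (D): the ladder of level one. -/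
def JD : Prop := (C.V z).LP (GT β w sy) 0 → ∀ W, (C.V z).AdmW 0 W →
  (GT β w sy).LadH W ((C.V z).y 0) ((C.V z).Pre (0 + 1)) ((C.V z).Post (0 + 1)) 2

/-- joint (E): the ladders of the higher levels. -/
def JE : Prop := ∀ j, 1 ≤ j → j ≤ 3 * ms + 3 →
  (PP n u ms β z).LadD (C.I z) (GT β w sy) j (s u (tb j + 2))

/-- joint (F): the excisions. -/
def JF : Prop := ∀ j ≤ 3 * ms + 3, (j + 1) % 3 = 2 →
  (PP n u ms β z).LadD (C.I z) (GT β w sy) j (s u (tb j + 2)) →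
  (GT β w sy).StepH (yw ((C.V z).y (j + 1))) ((C.V z).y j) ((C.V z).Pre (j + 1))
    ((C.I z).Cl ((j + 1) / 3) ((PP n u ms β z).tQ (j + 1)) ∅ 0) ((PP n u ms β z).e (j + 1) / 10) →
  (C.V z).LP (GT β w sy) j → (GT β w sy).Stg (yw ((C.V z).y (j + 1))) ((C.V z).y (j + 1))
    ((C.V z).In (j + 1)) ((C.V z).Pre (j + 1)) ((PP n u ms β z).σ (j + 1)) c1 10
    ((PP n u ms β z).e (j + 1))

variable {C z} {j k : ℕ} {W : Lp (TT β w sy) (Sl L n) → ℝ}

/-- admissible top colours are thin. -/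
lemma thin (hW : (C.V z).AdmW j W) (h0 : k ≠ 0) (hk : k ≤ j) :
    Thin (yl u (j + 1)) (3 / Tf u k) fun g => W g - yw (yl u j) g := fun g => by
  refine ⟨(hW g).1, (hW g).2.1, ?_⟩
  rw [div_mul_eq_mul_div, le_div_iff₀ (Tf_pos u h0)]
  exact (mul_le_mul_of_nonneg_left (Tf_mono u hk) (hW g).1).trans (hW g).2.2

lemma nx2 (u m : ℕ) : nx u m (nx u m 0) ≤ Rr u m 30 :=
  (nx_mono u m (nx_mono u m (Nat.zero_le (Rr u m 0)))).trans (by
    rw [nx_Rr, nx_Rr]; exact Rr_mono u m (by norm_num))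

lemma gr_Co (C : Ctx u ms β w sy) (z : Tor 3 L) (hj : j ≤ 3 * ms + 4) (i : Fin 4) :
    C.Gr z (j / 3) ((PP n u ms β z).Co j i) := fun k hk =>
  Ld.grd_cor (Y_pos _ _) (grid_dvd C.hu hk).1 (grid_dvd C.hu hk).2 (Y_dvd (by omega)) i

theorem stD (hA : C.JA z) (hj : j ≤ 3 * ms + 3) :
    (PP n u ms β z).StD (C.I z) (GT β w sy) j (yl u (j + 1)) (Par.eps u ((j + 1) / 3))
      (Y u (48 * ((j + 1) / 3) + 53)) := by
  have c := hA ((j + 1) / 3) (by omega) _ (yl_mono u (show _ ≤ j + 1 by omega)) (yl_le (by omega))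
  have yy := yl_mono u (Nat.le_succ j)
  have hW : (C.V z).AdmW j _ := Lev.admW_yw (Tf_zero (u := u)) Tf_nn yy
  have t1 := Rung.kd_le (kd := ck0 + 27) (k := cK)
  have t2 := Rung.tP_le (kd := ck0 + 27) (k := cK) (j := j + 1)
  rw [← ctm_eq] at t1 t2
  refine ⟨yl_nn _ _, ((yl_le (by omega)).trans (Yt_lt u ms).le), yy,
    (I.alvH _ _ _ z _ _).mono le_rfl (nD_le C.bg le_rfl z _), show ck0 + 27 + 1 ≤ ctm by omega,
    show Rung.tP _ _ _ + 2 ≤ ctm by omega, fun h => Rung.tI_lt_tP (by omega), Rung.tQ_eq.ge,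
    (c.eH (nx2 u _) (yl_nn _ _) yy le_rfl fun h => thin hW (by omega) (by omega)).zero,
    fun _ i => (c.eU (C := fun _ => (PP n u ms β z).Co (j + 1) i) (nx2 u _) (yl_nn _ _) le_rfl
      fun _ => C.gr_Co z (by omega) i).zero, std_num C.hu le_rfl⟩

/-- **the deliverables of every level.** -/
theorem dlv (hA : C.JA z) (hD : C.JD z) (hE : C.JE z) (hF : C.JF z) (hj : j ≤ 3 * ms + 3) :
    (PP n u ms β z).Dlv (C.I z) (GT β w sy) j := by
  have S := stD hA hj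
  have hu := C.hu
  have t1 := Rung.tI_le (kd := ck0 + 27) (k := cK) (j := j + 1)
  have t2 := Rung.tQ_le_tm (kd := ck0 + 27) (k := cK) (j := j + 1)
  rw [← ctm_eq] at t1 t2
  have e := tb_eq j
  refine dlv_of C.bg C.wd.β0 C.B2 C.wd.hs (T_eq β w sy) C.B2
    (le_trans (by tier! (48 * (ms + 1) + 11 + 27)) C.hL) (C.le_w (by omega))
    (show Rung.tI _ _ _ ≤ ctm by omega) (show Rung.tQ _ _ _ ≤ ctm by omega)
    (fun _ => Rung.tI_le_tP) rfl rfl (S.stepU C.ok) (fun h => hF j hj h (hE j (by omega) hj)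
      (S.stepH C.ok)) ?_ (S.stepH C.ok)
  by_cases h0 : j = 0
  · subst h0; exact hD
  · exact (hE j (by omega) hj).lad C.ok Tf_nn h0 S.yy

end Ctx

/-- a property of all contexts with a large lowest tier. -/
def All (J : ∀ (n L : ℕ) [NeZero L] [NeZero n] (u ms w : ℕ) (β : ℝ)
    (sy : List (Sl L n × Sl L n × ℝ)), Ctx u ms β w sy → Tor 3 L → Prop) : Prop :=
  ∀ (n : ℕ) [NeZero n], ∀ᶠ u in Filter.atTop, ∀ (L : ℕ) [NeZero L] (ms w : ℕ) (β : ℝ)
    (sy : List (Sl L n × Sl L n × ℝ)) (C : Ctx u ms β w sy) (z : Tor 3 L), J n L u ms w β sy C z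

theorem dlvAll_of (h : All fun _ _ _ _ _ _ _ _ _ C z => C.JA z ∧ C.JD z ∧ C.JE z ∧ C.JF z) :
    DlvAll := by
  intro n _
  obtain ⟨u0, h⟩ := Filter.eventually_atTop.1 (h n)
  refine ⟨u0, fun u hu hb β b1 b2 m => ⟨Y u (48 * m + 1000), fun L _ hL sy w hw z => ⟨rt u, ?_⟩⟩⟩
  have C : Ctx u m β w sy := ⟨hb, b1, b2, hw, hL⟩
  obtain ⟨a, b, c, d⟩ := h u hu L m w β sy C z
  exact fun j hj => Ctx.dlv a b c d hj

end Crest.Agent.N337.M
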