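import Crest.Agent.N337.Rg.Vis
import Crest.Agent.N337.Ld.Us
import Crest.Agent.N337.M.Cel
import Crest.Agent.N337.M.Wd
import Crest.Agent.N337.M.Fin0

-- ▼ part N337/Rg/Fin
section

/-!
# Row 337 (helper75): the fields `fK`, `fH`, `fU`, `n3` of `Cel`, `Cen` on the torus
-/

set_option autoImplicit false
set_option linter.unusedSectionVars false

namespace Crest.Agent.N337.Rg

open Finset Crest.Agent.N337.Free Crest.Agent.N337.I Crest.Agent.N337.M Crest.Agent.N337.Gas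
  Crest.Agent.N337.Ld Crest.Agent.N337.A

section defs
variable {Λ : Type} [Fintype Λ] [DecidableEq Λ] {T : ℕ} [NeZero T] {X α κ : Type} [Fintype X]
  [DecidableEq X] [SemilatticeSup α] [Preorder κ]

/-- the fields of `Cel` that come from the covisit trees. -/
structure Tp3 (I : Ins T Λ X α κ) (G : Bs T Λ) (Sd : Finset (Fin T × Λ) → Prop)
    (Gr : Finset Λ → Prop) (m : ℕ) (Y δ ε : ℝ) (nc cap : ℕ) (nx : ℕ → ℕ) : Prop where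
  fK : ∀ y D R0 R, 0 ≤ y → y ≤ Y → (∀ g, 0 ≤ D g ∧ D g ≤ yw Y g) → (m ≠ 0 → Thin Y δ D) → R0 ≤ R →
    R ≤ cap → F3 I G Sd (EK G y Y (Ld.mk D Y)) (fun _ => ∅) 0 m nc R0 R (nx R) ε
  fH : ∀ y y' R0 R, 0 ≤ y' → y' ≤ y → y ≤ Y →
    (m ≠ 0 → Thin Y δ fun g : Lp T Λ => yw y g - yw y' g) → R0 ≤ R → R ≤ cap →
    F3 I G Sd (EH G (yw y) y' Y) (fun _ => ∅) 0 m nc R0 R (nx R) ε
  fU : ∀ y (C : Cfg T Λ → Finset Λ) R0 R, 0 ≤ y → y ≤ Y → (∀ s, Gr (C s)) → R0 ≤ R → R ≤ cap →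
    F3 I G Sd (fun s => EU G y Y (cyl (C s)) s) (fun s => cyl (C s)) 0 m nc R0 R (nx R) ε

end defs

variable {L n T : ℕ} [NeZero L] [NeZero T]

/-- numbers of the covisit trees (no word). -/
structure N3n (c : Cx T (Tor 3 L × Fin n) (Tor 3 L)) (P : I.Num) (z0 : Tor 3 L) (S : G1.Scales)
    (Ge : Tr.Eg) (k k' th : ℕ → ℕ) (κ e Y δ : ℝ) (nc cap : ℕ) (nx vol : ℕ → ℕ) (ε : ℕ → ℝ) :
    Prop where
  gc : ∀ R ≤ cap, R ≤ nx R ∧ GcN c P z0 S Ge k k' th κ 0 e 2 nc R (nx R)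
  nm : ∃ nc' g vj, c.Nm (sys n T P z0) vol nc' g vj ε
  vn : ∃ τ, VN P 2 τ c.μ c.lo
  sm : ∀ l < c.μ, 1 / 2 ≤ Y ^ C9.Vn n (P.sep l) ∧
    ∀ r ≤ P.sep l, 2 * δ * C9.Vn n (P.sep l) ≤ c.τ l r
  σ : ∀ l < c.μ, 2 * P.sep l ≤ P.σ l

/-- the word. -/
structure W3 (W : Gl.Wd T) (G : Bs T (Tor 3 L × Fin n)) (P : I.Num) (S : G1.Scales)
    (Sd : Finset (V L n T) → Prop) (B vol : ℕ) (e Y : ℝ) : Prop where
  w : C9.Wr W G P.toLf Y
  hT : T = B * P.D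
  nu : ∃ t x0 j, P.tm ≤ t ∧ 2 ≤ x0 ∧ Gl.Nu W L P.toLf S t x0 j
  er : W.er L n ≤ e
  tp : ∀ Z, Sd Z → Gl.Tp W (kil Z) vol 0

variable {W : Gl.Wd T} {G : Bs T (Tor 3 L × Fin n)} {P : I.Num} {z0 : Tor 3 L} {S : G1.Scales}
  {Sd : Finset (V L n T) → Prop} {Ge : Tr.Eg} {k k' th lo cs nx vol : ℕ → ℕ} {e Y δ : ℝ}
  {B K m nc cap R : ℕ} {θ : ℕ → ℕ → ℝ} {ε : ℕ → ℝ}

section
variable (w : W3 W G P S Sd B (Gl.vT Ge k) e Y)
  (N : N3n (cxI L n T B P.D K m lo cs θ) P z0 S Ge k k' th W.κ e Y δ nc cap nx vol ε)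
include w N

theorem in3 (hR : R ≤ cap) : ∃ nc' g vj, (cxI L n T B P.D K m lo cs θ).In3 (ins G.ex G.ey P z0) G Sd
    Y 0 nc R (nx R) vol nc' g vj ε := by
  obtain ⟨nc', g, vj, h⟩ := N.nm
  obtain ⟨τ, h1⟩ := N.vn
  obtain ⟨t, x0, j, h2, h3, h4⟩ := w.nu
  have h5 := (N.gc R hR).2
  exact ⟨nc', g, vj, w.w.Y1, (Nat.add_le_add_left (Nat.zero_le 2) _).trans h5.uc.hd, h, fun s F x a b c d =>
    gc_ins w.w h4 h2 h3 w.er h5 a (w.tp _ b) c d, fun s _ => vc w.w.wd.nn w.hT h1 s⟩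

theorem sm3 {D : Lp T (Tor 3 L × Fin n) → ℝ} (h : m ≠ 0 → Thin Y δ D) :
    (cxI L n T B P.D K m lo cs θ).Sm (sys n T P z0) D Y := by
  intro l hl r hr v g _ hg
  obtain ⟨a1, a2⟩ := N.sm l hl
  obtain ⟨a3, -, a4⟩ := h (by change l < m at hl; omega) g
  obtain ⟨_, _, _, h⟩ := N.nm
  have b1 : wd g ≤ C9.Vn n (P.sep l) := (wd_short rfl hg).trans (by
    have : r ≤ P.sep l := hr
    unfold C9.Vn; gcongr)
  have b2 : 1 / 2 ≤ yw Y g := by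
    rw [yw_eq]; exact a1.trans (pow_le_pow_of_le_one w.w.Y0 w.w.Y1.le b1)
  have b3 : (wd g : ℝ) ≤ C9.Vn n (P.sep l) := by exact_mod_cast b1
  have b4 := mul_le_mul_of_nonneg_left b2 (h.ok.τ0 l r).1.le
  have b5 := a2 r hr
  rcases le_total 0 δ with c | c
  · nlinarith
  · nlinarith [(h.ok.τ0 l r).1, Nat.cast_nonneg (α := ℝ) (wd g)]

/-- **`fK`, `fH`, `fU`.** -/
theorem tp3 : Tp3 (ins G.ex G.ey P z0) G Sd (fun C => ∀ l < m, Grd z0 (P.σ l) C) m Y δ (ε m) nc cap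
    nx := by
  have y0 := w.w.Y0
  have y1 := w.w.Y1.le
  refine ⟨fun y D R0 R a _ b c d f => ?_, fun y y' R0 R a b c d f g => ?_,
    fun y C R0 R a b c d f => ?_⟩
  · obtain ⟨_, _, _, H⟩ := in3 w N f
    exact Cx.f3K H (d.trans (N.gc R f).1) ⟨w.w.ok, a, y0, y1, mk_mem b⟩ (sm3 w N c)
  · obtain ⟨_, _, _, H⟩ := in3 w N g
    refine Cx.f3H (μ := fun _ => 0) H (f.trans (N.gc R g).1) ⟨w.w.ok, a, y0, y1, by simp⟩
      (fun g => ?_) (sm3 w N d)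
    simp only [yw_eq]
    constructor <;> linarith [pow_le_pow_left₀ a b (wd g), pow_le_pow_left₀ (a.trans b) c (wd g),
      pow_nonneg a (wd g)]
  · obtain ⟨_, _, _, H⟩ := in3 w N f
    exact Cx.f3U (μ := fun _ => 0) H (d.trans (N.gc R f).1) ⟨w.w.ok, a, y0, y1, by simp⟩ b
      fun s x => ul_grd rfl H.N.ok.J0 N.σ (c s) s x

end

/-- **`n3`.** -/
theorem n3 (w : W3 W G P S Sd B (Gl.vT Ge k) e Y)
    (N : N3n (cxI L n T B P.D K (m + 1) lo cs θ) P z0 S Ge k k' th W.κ e Y δ nc cap nx vol ε)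
    (y : ℝ) (D : Lp T (Tor 3 L × Fin n) → ℝ) (h0 : 0 ≤ y) (hD : Thin Y δ D) :
    N3 (ins G.ex G.ey P z0) G Sd (EK G y Y (Ld.mk D Y)) 0 m (ε (m + 1) + vol m * ε m) := by
  obtain ⟨_, _, _, H⟩ := in3 w N (Nat.zero_le _)
  refine Cx.n3K ⟨H.Y1, H.hd, H.N, fun s F x a b c _ => H.hG s F x a b (c.trans (Nat.zero_le _)) ?_,
    H.hV⟩ rfl ⟨w.w.ok, h0, w.w.Y0, w.w.Y1.le, mk_mem fun g => ⟨(hD g).1, (hD g).2.1⟩⟩
    (sm3 w N fun _ => hD)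
  rw [card_eq_zero.1 (Nat.le_zero.1 c)]
  exact off_empty _ _ _

section word
variable [NeZero n] {β : ℝ} {w : ℕ} {sy : List (Top.Sl L n × Top.Sl L n × ℝ)}




end word

end Crest.Agent.N337.Rg
end

-- ▼ part N337/M/CelI

/-!
# Row 337, the chain (helper23): the cell claims from the final forms of G4, ENG, TP
-/

set_option autoImplicit false
set_option linter.unusedSectionVars false

namespace Crest.Agent.N337.M

open Finset Crest.Agent.N337.Free Crest.Agent.N337.Gas Crest.Agent.N337.A Crest.Agent.N337.Top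
  Crest.Agent.N337.Par Crest.Agent.N337.Ld

variable {L n : ℕ} [NeZero L] [NeZero n]

namespace Ctx
variable {u ms w : ℕ} {β : ℝ} {sy : List (Sl L n × Sl L n × ℝ)} (C : Ctx u ms β w sy)

lemma ptN : C9.PtN C.Q.toLf (Bw β) where
  n1 := (one_le_Dp 100).trans cE_eq.ge
  j1 := two_le_Y C.hu _
  l1 := pow_pos (Y_pos _ _) _
  l := ((ll_le C.bg).trans (Y_mono (by omega))).trans C.B1

variable (z : Tor 3 L)

/-- the point parties. -/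
noncomputable abbrev pp : C9.Pp (C.I z) (GT β w sy) := C9.ppI (GT β w sy) C.Q z C.hT C.ptN

/-- final form of G4. -/
structure J4 : Prop where
  f1 : ∀ m ≤ ms + 1, ∀ y d R, 0 ≤ y → y ≤ Yt u ms → d ≤ 2 → R ≤ Rr u m 30 →
    F1 (C.I z) (GT β w sy) (PP n u ms β z).Sd y d m ((ctm + 1) * ca) R (nx u m R) (Par.eps u m)
  n1 : ∀ m ≤ ms, ∀ y, 0 ≤ y → y ≤ Yt u ms →
    N1 (C.I z) (GT β w sy) (PP n u ms β z).Sd y 0 m (sx u (m + 1) 0 ^ 1000)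

/-- joint (B): `F2` given an arc. -/
def JB : Prop := ∀ m ≤ ms + 1, ∀ Yp d R, 0 ≤ Yp → Yp ≤ Yt u ms → d ≤ 3 → R ≤ Rr u m 30 →
  C9.F2A (C.pp z) (PP n u ms β z).Sd Yp d m ((ctm + 1) * ca) R (nx u m R) (Par.eps u m)

/-- the engine on the children. -/
def JN : Prop := ∀ m ≤ ms, ∀ Yp, 0 ≤ Yp → Yp ≤ Yt u ms →
  N2 (C.I z) (GT β w sy) (PP n u ms β z).Sd Yp 1 m (sx u (m + 1) 0 ^ 1000)

/-- final form of the covisit bounds. -/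
structure J3 : Prop where
  tp : ∀ m ≤ ms + 1, ∀ Yp, yl u (3 * m) ≤ Yp → Yp ≤ Yt u ms →
    Rg.Tp3 (C.I z) (GT β w sy) (PP n u ms β z).Sd (C.Gr z m) m Yp (3 / Tf u (3 * m - 1))
      (Par.eps u m) ((ctm + 1) * ca) (Rr u m 30) (nx u m)
  n3 : ∀ m ≤ ms, ∀ Yp, yl u (3 * m + 3) ≤ Yp → Yp ≤ Yt u ms → ∀ y D, 0 ≤ y → y ≤ Yp →
    Thin Yp (3 / Tf u (3 * m + 2)) D → N3 (C.I z) (GT β w sy) (PP n u ms β z).Sd
      (EK (GT β w sy) y Yp (Ld.mk D Yp)) 0 m (sx u (m + 1) 0 ^ 1000)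

/-- the claims on the children, all scales. -/
def JC : Prop := ∀ m ≤ ms, ∀ Yp, yl u (3 * m + 3) ≤ Yp → Yp ≤ Yt u ms → C.Cen z m Yp

variable {C z}

/-- **joint (A).** -/
theorem ja_of (h4 : C.J4 z) (hB : C.JB z) (h3 : C.J3 z) : C.JA z := fun m hm Yp h0 h1 =>
  ⟨(s_pos _ _).le, le_nx u m, fun y d R a b => h4.f1 m hm y d R a (b.trans h1),
    fun d R a b => (hB m hm Yp d R ((yl_nn _ _).trans h0) h1 a b).f2, (h3.tp m hm Yp h0 h1).fK,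
    (h3.tp m hm Yp h0 h1).fH, (h3.tp m hm Yp h0 h1).fU⟩

theorem jc_of (h4 : C.J4 z) (hN : C.JN z) (h3 : C.J3 z) : C.JC z := fun m hm Yp h0 h1 =>
  ⟨pow_nonneg (s_pos _ _).le _, fun y a b => h4.n1 m hm y a (b.trans h1),
    hN m hm Yp ((yl_nn _ _).trans h0) h1, h3.n3 m hm Yp h0 h1⟩

end Ctx

/-- a union bound over the children of a cell. -/
lemma vol_eps {u : ℕ} (hu : 100 ≤ u) (m : ℕ) :
    Par.eps u (m + 1) + ((2 * x u (m + 1) 0 + 1) ^ 3 : ℕ) * Par.eps u m ≤ sx u (m + 1) 0 ^ 1000 := by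
  have h1 : Par.eps u (m + 1) ≤ Par.eps u m := s_anti (by omega)
  have h2 : (1 + ((2 * x u (m + 1) 0 + 1) ^ 3 : ℕ)) * s u (48 * (m + 1) + 11 + 1) ≤
      s u (48 * (m + 1) + 11 + 0) ^ 1000 := by rtier! (48 * (m + 1) + 11)
  rw [add_mul, one_mul] at h2
  exact (add_le_add h1 le_rfl).trans h2

end Crest.Agent.N337.M
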