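import Crest.Agent.N337.M.Ret
import Crest.Agent.N337.M.StD
import Crest.Agent.N337.M.Zero
import Crest.Agent.N337.C9.Geo

-- ▼ part N337/M/ExcJ
section

/-!
# Row 337, the chain: the junk side of the excision from junk steps and closure bounds
-/

set_option autoImplicit false
set_option linter.unusedSectionVars false

namespace Crest.Agent.N337.M

open Finset Crest.Agent.N337.Op Crest.Agent.N337.Gas Crest.Agent.N337.A Crest.Agent.N337.Rep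

variable {Λ : Type} [Fintype Λ] [DecidableEq Λ] {T : ℕ} [NeZero T]

/-- **inputs of the junk side**: `Cx`, `Cd` = classes with the cover alive (after the loops that
meet `Zs`, after all loops), `Cb` = class after the excision and all loops. -/
structure Bs.ExcK (G : Bs T Λ) (y y' : ℝ) (In Pre Cx Cd Cb : Cfg T Λ → Prop)
    (Zs Z2 : Finset Λ → Finset Λ) (Pd Pb : Cfg T Λ → Λ → Λ → Prop) (R v R1 nR nA K0 : ℕ)
    (ε1 ε2 ε3 γd γb δ : ℝ) : Prop where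
  aP : Cfg.Anti Pre
  aX : Cfg.Anti Cx
  aD : Cfg.Anti Cd
  kil : ∀ s U, Pre s → Pre (s.rev ∅ U)
  stepU : G.StepU y (fun s => cyl (Zs s.cv)) In Pre ε1
  stepX : G.StepX y (fun s => cyl (Zs s.cv)) In Cx ε2
  stepV : G.StepV y (fun s => cyl (Zs s.cv)) Cx Cd (1 / 10000)
  stepW : G.StepW y Pre Cb ε3
  retD : G.RetC y Cd Pd γd
  retB : G.RetC y Cb Pb γb
  slow : ∀ s, Cd s → G.Sl v (s.rev ∅ (cyl (Z2 s.cv)))
  anc : ∀ s, Cd s → Zs s.cv ⊆ Z2 s.cv ∧ ∀ x ∈ nbd G.d (v + 1) (Z2 s.cv),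
    x ∈ nbd G.d R (Zs s.cv) ∧ ∀ f, f ∉ nbd G.d R (Zs s.cv) → Pd s x f
  card : ∀ s, In s → (nbd G.d R (Zs s.cv)).card ≤ nR ∧ (nbd G.d (v + 1) (Z2 s.cv)).card ≤ nA
  ball : ∀ x, (nbd G.d R1 {x}).card ≤ K0 ∧ ∀ s f, f ∉ nbd G.d R1 {x} → Pb s x f
  δ0 : 0 ≤ δ
  γ0 : 0 ≤ γd ∧ 0 ≤ γb
  small : ∀ g : Lp T Λ, yw y g - yw y' g ≤ δ * wd g
  num : δ * nR + nA * γd ≤ 1 / 10000

variable {G : Bs T Λ} {y y' : ℝ} {In Pre Cx Cd Cb : Cfg T Λ → Prop} {Zs Z2 : Finset Λ → Finset Λ}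
  {Pd Pb : Cfg T Λ → Λ → Λ → Prop} {R v R1 nR nA K0 : ℕ} {ε1 ε2 ε3 γd γb δ : ℝ} {s : Cfg T Λ}

/-- an alive up loop that is slow off `Z` and meets `Z` has an anchor. -/
lemma anchor_cfg (hG : G.Ok) (hv : G.Val s) {g : Lp T Λ} (hq : G.q s {g} ≠ 0) (hK : ¬ Hit s.K g)
    {Z : Finset Λ} (hS : G.Sl v ((s.add {g}).rev ∅ (cyl Z))) (h : Hit (cyl Z) g) :
    ∃ x ∈ nbd G.d (v + 1) Z, (0, x) ∈ g.2 := by
  obtain ⟨ξ, -, hξ⟩ := qq_supp (hv.add hq)
  obtain ⟨u, u1, u2⟩ := h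
  have hg : g ∈ (s.add {g}).e := mem_union_right _ (mem_singleton_self g)
  have e : g.2 = obv G.ex G.ey ξ u := by rw [eq_lp (hξ hg) u1]; rfl
  rw [e]
  refine anchor hG.d hS (mem_cyl.1 u2) (fun w a b c => .inl ?_) fun w a b c => ?_
  · have e2 : ((s.add {g}).rev ∅ (cyl Z)).e = (s.add {g}).e := union_empty _
    rw [e2, cn_eq hξ, if_pos, b]
    rw [← e] at a
    exact tch_pts.2 ⟨g, hg, c.imp (fun k => by rwa [← k]) fun k => by rwa [← k]⟩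
  · exact (mem_union.1 c).elim (fun k => hK ⟨w, e ▸ a, mem_union_left _ k⟩) fun k => b (mem_cyl.1 k)

open Classical in
lemma Bs.ExcK.one (E : G.ExcK y y' In Pre Cx Cd Cb Zs Z2 Pd Pb R v R1 nR nA K0 ε1 ε2 ε3 γd γb δ)
    (hG : G.Ok) (h0 : 0 ≤ y') (hy : y' ≤ y) {A : Finset (Lp T Λ)} (hs : In s)
    (hv : G.Val (s.add A)) (hA : Cd (s.add A)) :
    ∑ g ∈ univ.filter (fun g => Hit (cyl (Zs s.cv)) g ∧ Cd (s.add (insert g A))),
      (s.u (fun g => yw y g - yw y' g) g +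
        if Hit (cyl (nbd G.d R (Zs s.cv))ᶜ) g then s.u (yw y') g else 0) * Pc.up (G.q s) A g ≤
      1 / 10000 := by
  set s' := s.add A with hs'
  set N := nbd G.d R (Zs s.cv)
  set An := nbd G.d (v + 1) (Z2 s.cv)
  have q0 : ∀ g, 0 ≤ G.q s' {g} := fun g => (hG.cpt s').nn _
  have D0 : ∀ g : Lp T Λ, 0 ≤ yw y g - yw y' g := fun g => sub_nonneg.2 (yw_mono h0 hy g)
  have u0 := fun g => mul_nonneg (Cfg.u_nn (yw_nn (h0.trans hy)) s' g) (q0 g)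
  have a1 : ∀ g : Lp T Λ, 0 ≤ ∑ x ∈ N, if (0, x) ∈ g.2 then δ * G.q s' {g} else 0 := fun g =>
    sum_nonneg fun x _ => by split_ifs; exacts [mul_nonneg E.δ0 (q0 g), le_rfl]
  have a2 : ∀ (g : Lp T Λ) x, 0 ≤ if (0, x) ∈ g.2 ∧ Hit (cyl Nᶜ) g then
      s'.u (yw y) g * G.q s' {g} else 0 := fun g x => by split_ifs; exacts [u0 g, le_rfl]
  refine le_trans (sum_le_sum (g := fun g => (∑ x ∈ N, if (0, x) ∈ g.2 then δ * G.q s' {g} else 0) +
    ∑ x ∈ An, if (0, x) ∈ g.2 ∧ Hit (cyl Nᶜ) g then s'.u (yw y) g * G.q s' {g} else 0)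
    fun g hg => ?_) ((sum_le_univ_sum_of_nonneg fun g =>
      add_nonneg (a1 g) (sum_nonneg fun x _ => a2 g x)).trans ?_)
  · obtain ⟨h1, h2⟩ := (mem_filter.1 hg).2
    split_ifs with c
    · rw [congrFun (Pl.tot_u (yw y) y' s) g |> (add_comm _ _).trans, up_add (hv.of_add hG) hv]
      by_cases k : s'.u (yw y) g * G.q s' {g} = 0
      · exact k.trans_le (add_nonneg (a1 g) (sum_nonneg fun x _ => a2 g x))
      have k1 : ¬ Hit s'.K g := fun k1 => k (by rw [Cfg.u, off, if_pos k1, zero_mul])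
      have k2 : Cd (s'.add {g}) := by rwa [hs', Cfg.add_add, union_comm, ← insert_eq]
      obtain ⟨u, u1, u2⟩ := h1
      obtain ⟨x, x1, x2⟩ := anchor_cfg hG hv (right_ne_zero_of_mul k) k1 (E.slow _ k2)
        ⟨u, u1, mem_cyl.2 ((E.anc _ hA).1 (mem_cyl.1 u2))⟩
      have := single_le_sum (fun x _ => a2 g x) (show x ∈ An from x1)
      rw [if_pos ⟨x2, c⟩] at this
      exact le_add_of_nonneg_of_le (a1 g) this
    · rw [add_zero, up_add (hv.of_add hG) hv]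
      refine le_add_of_le_of_nonneg ((mul_le_mul_of_nonneg_right ((u_le D0 _ g).trans (E.small g))
        (q0 g)).trans (le_of_eq ?_)) (sum_nonneg fun x _ => a2 g x)
      rw [wd_le c, mul_sum, sum_mul]
      exact sum_congr rfl fun x _ => by split_ifs <;> simp
  · rw [sum_add_distrib, sum_comm, sum_comm (t := An)]
    refine le_trans (add_le_add (le_of_eq (sum_congr rfl fun x _ =>
      sum_pt_one (G.pn s') (0, x) δ)) (sum_le_card_nsmul _ _ γd fun x hx => E.retD s' hv hA (0, x) _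
        (fun a => mem_compl.1 a ((E.anc _ hA).2 x hx).1) fun f a =>
          ((E.anc _ hA).2 x hx).2 f (mem_compl.1 a))) (le_trans ?_ E.num)
    rw [sum_const, nsmul_eq_mul, nsmul_eq_mul, mul_comm]
    exact add_le_add (mul_le_mul_of_nonneg_left (Nat.cast_le.2 (E.card s hs).1) E.δ0)
      (mul_le_mul_of_nonneg_right (Nat.cast_le.2 (E.card s hs).2) E.γ0.1)

/-- **the junk side of the excision.** -/
theorem Bs.ExcK.excJ
    (E : G.ExcK y y' In Pre Cx Cd Cb Zs Z2 Pd Pb R v R1 nR nA K0 ε1 ε2 ε3 γd γb δ)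
    (hG : G.Ok) (h0 : 0 ≤ y') (hy : y' ≤ y) (h1 : y ≤ 1) :
    G.ExcJ y y' In Pre Zs R (fun s x => Pre (s.rev x (cyl (Zs s.cv))) ∧ Cx (s.add x))
      (fun s A => Cd (s.add A)) (ε1 + ε2) (δ * K0 + γb + ε3) := by
  classical
  have y0 := h0.trans hy
  refine ⟨fun _ _ _ h => h.1, fun s x0 x h => ⟨E.aP _ x0 ?_, E.aX _ x0 ?_⟩, E.kil,
    fun s A B hB h => E.aD _ A ?_, fun s hv hs => ?_, fun s x _ h hv _ => ?_,
    fun s A hs hv hA => by convert E.one hG h0 hy hs hv hA, fun s hv hs z => ?_⟩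
  · rw [rev_add]; exact h.1
  · rw [Pl.add_comm']; exact h.2
  · rwa [Cfg.add_add, union_eq_right.2 hB]
  · refine le_trans ?_ (add_le_add (E.stepU s hv hs) (E.stepX s hv hs))
    rw [← ex_add]
    refine ex_mono (hG.pr (yw_nn y0) s).nn fun w => ?_
    simp only [Op.ind, not_and_or]
    split_ifs <;> first | tauto | norm_num
  · have := E.stepV _ hv h.2
    have e : (s.add x).rev ∅ (cyl (Zs s.cv)) = s.rev x (cyl (Zs s.cv)) := by simp [Cfg.rev, Cfg.add]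
    rw [← e]
    refine le_trans (le_of_eq ?_) this
    congr 1; funext w; simp only [Op.ind, Cfg.add_add]
  · refine (Bs.touch (N := nbd G.d R1 {z.2}) E.retB hG hv h0 E.δ0 E.γ0.2 (fun g =>
      ⟨sub_nonneg.2 (yw_mono h0 hy g), E.small g, sub_le_self _ (yw_nn h0 g)⟩) (fun g => ?_)
      (E.stepW s hv hs) (mem_nbd.2 ⟨_, mem_singleton_self _, by rw [hG.d.1]; omega⟩)
      fun w => (E.ball z.2).2 _).trans ?_
    · rw [yw_eq]; exact pow_le_one₀ y0 h1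
    · have := mul_le_mul_of_nonneg_left (Nat.cast_le (α := ℝ).2 (E.ball z.2).1) E.δ0
      linarith

end Crest.Agent.N337.M
end

-- ▼ part N337/M/ExcP

/-!
# Row 337, the chain: `Dlv.exc` from the cell claims, the closure bound and numbers
-/

set_option autoImplicit false
set_option linter.unusedSectionVars false

namespace Crest.Agent.N337.M

open Finset Crest.Agent.N337.Op Crest.Agent.N337.Gas Crest.Agent.N337.A Crest.Agent.N337.Ld
  Crest.Agent.N337.Ex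

/-- only the visits within `loc m` matter. -/
theorem W2_loc {X α κ : Type} [Fintype X] [SemilatticeSup α] [Preorder κ] {S : Rg.Sys X α κ}
    {d m : ℕ} {E : α} {Z : κ} {V V' Q : ℕ → X → Prop} {x : X} (h : S.W2 d E Z V Q m x)
    (hV : ∀ l < m, ∀ y, S.d x y ≤ S.loc m → V l y → V' l y) : S.W2 d E Z V' Q m x := by
  classical
  induction m generalizing x with
  | zero => exact h
  | succ m ih =>
    have k : ∀ y, S.Adm d E Z m x y → V m y → V' m y := fun y a =>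
      hV m (by omega) y (a.d_le.trans (Nat.le_add_right _ _))
    rcases h with ⟨l, hl, c, h⟩ | h | h
    · refine .inl ⟨l, hl, c, h.trans_le (card_le_card fun y hy => ?_)⟩
      simp only [mem_filter, Rg.Sys.T1] at hy ⊢
      exact ⟨hy.1, k y hy.1.2.1 hy.2.1, hy.2.2⟩
    · refine .inr (.inl (Rg.Sys.Sepd.mono h fun y hy => ⟨hy.1, k y ?_ hy.2.1, hy.2.2⟩))
      have := hy.1
      simp only [mem_filter, Rg.Sys.T2] at this
      exact this.2.1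
    · refine .inr (.inr (h.mono fun y hy => ⟨hy.1, hy.2.1, ih hy.2.2 fun l hl z hz =>
        hV l (by omega) z ((S.d_tri x y z).trans (add_le_add hy.1.d_le hz))⟩))

variable {Λ : Type} [Fintype Λ] [DecidableEq Λ] {T : ℕ} [NeZero T] {X α κ : Type} [Fintype X]
  [DecidableEq X] [SemilatticeSup α] [Preorder κ]

section gen
variable {I : Ins T Λ X α κ} {G : Bs T Λ} {Sd : Finset (Fin T × Λ) → Prop}
  {d m t N nc nD R0 R1 R2 R3 R4 : ℕ} {y Y ε : ℝ} {μ : Lp T Λ → ℝ} {Fc : Finset Λ → Finset X}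
  {U : Cfg T Λ → Finset (Fin T × Λ)} {In Out : Cfg T Λ → Prop}

open Classical in
/-- **StepX** from the claims with `U` killed: far from the cover no octant dies. -/
theorem stepX' (h : Std G y Y μ)
    (f : F123 I G Sd y Y (fun s => EU G y Y (U s) s) U d m nc R0 R1 R2 R3 ε)
    (hA : AlvH I N m nD) (n : Rom I.S d t R0 R1 R2 R3) (h4 : R3 ≤ R4)
    (ho : ∀ s x z, ∀ l < m, I.S.Off (Fc s.cv) R4 x → I.S.d x z ≤ I.S.loc m →
      I.S.oct l (I.kz (s.Z ∪ U s)) z ≤ I.S.oct l (I.kz s.Z) z)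
    (hI : ∀ s, In s → Kl I Sd N nc d m t Fc R0 s)
    (hO : ∀ s x, In s → Cd I d m (t + 1) (Fc s.cv) R4 (s.add x) → Out (s.add x)) :
    G.StepX y U In Out (3 * nD * ε) := fun s hs hi => by
  have k := hI s hi
  obtain ⟨Dm, h1, h2⟩ := hA s k.sup
  have tr := tri_EG h.zero (h.pr s) (fun _ hw => hs.add (Bs.gs_supp hw).1)
    (B0 := fun w _ => w.filter (Hit (U s))) (w0 := id)
    (fun _ _ => (filter_subset _ _).trans subset_union_left) (fun _ => rfl) rfl f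
    (k.ad hs (by have := n.t; omega))
  have tr' : Tri I.S (pb (EU G y Y (U s) s)) (fun ω => I.pa ω.1) (fun ω => I.pa ω.2.1)
      (fun ω => I.pa ω.2.2) d (I.pa s.e) (I.kz s.Z) (I.kz s.Z) m (Fc s.cv) R1 R2 R4 ε :=
    ⟨tr.sub, tr.e0, tr.le, tr.f1, tr.f2, fun x hx => (tr.sub.mono _ _ fun ω hω => ⟨hω.1,
      W2_loc hω.2 fun l hl z hz hv => ⟨ho s x z l hl hx hz, hv.2⟩⟩).trans
        (tr.f3 x (hx.mono Subset.rfl h4))⟩
  have e0 := f.e0
  refine le_trans (le_of_eq ((gs_eq Y (U s) (Op.ind fun B => ¬ Out (s.add B))).trans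
    (pb_eq _ fun ω : Tp T Λ => ¬ Out (s.add ω.2.2)).symm))
    ((tr.sub.mono _ _ fun ω hω hc => hω (hO s _ hi (cd_add.2 ?_))).trans
      ((tr'.step ⟨n.d, n.t, n.r1, n.r2, n.r3.trans h4⟩ h2 k.cl le_rfl).trans (by gcongr)))
  exact hc.cls k.cl (n.r1.trans (n.r2.trans (n.r3.trans h4)))

variable {e : Λ → Λ → ℕ} {A B : Finset Λ} {r r' : ℕ} {V : ℕ → ℕ}

lemma nbd_sub (hd : Met G.ex G.ey e) (h : A ⊆ nbd e r B) : nbd e r' A ⊆ nbd e (r + r') B :=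
  fun x hx => by
    obtain ⟨a, h1, h2⟩ := mem_nbd.1 hx
    obtain ⟨b, h3, h4⟩ := mem_nbd.1 (h h1)
    exact mem_nbd.2 ⟨b, h3, (hd.2.2.1 x a b).trans (by omega)⟩

lemma card_nbd (hd : Met G.ex G.ey e) (hV : C9.Vol e V) (hA : A.card ≤ nc) (r : ℕ) :
    (nbd e r A).card ≤ nc * V r :=
  (card_le_card (t := A.biUnion fun a => univ.filter fun x => e x a ≤ r) fun x hx => by
    simpa using mem_nbd.1 hx).trans ((card_biUnion_le_card_mul _ _ _ fun a _ =>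
      C9.card_in hd hV r a).trans (Nat.mul_le_mul_right _ hA))

end gen

/-- the closure bound in the class with one dense party, off the balls `(F, R)`. -/
def RetA (I : Ins T Λ X α κ) (G : Bs T Λ) (Sd : Finset (Fin T × Λ) → Prop) (y : ℝ)
    (N m nc R Rf : ℕ) (γ : ℝ) : Prop :=
  ∀ F, G.RetC y (fun s => s.Sup N ∧ Ad I G Sd 1 m nc R s F) (fun _ z f => Rf ≤ G.d z f) γ

/-- radii and real parameters of the excision. -/
structure ExP where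
  R1 : ℕ
  R2 : ℕ
  R3 : ℕ
  R4 : ℕ
  R5 : ℕ
  /-- reach of the excised set -/
  rZ : ℕ
  /-- distances in the two closure bounds -/
  Rf : ℕ
  Rg : ℕ
  nD : ℕ
  /-- speeds of the tower, range of the clustering -/
  v0 : ℕ
  v1 : ℕ
  D : ℕ
  ε : ℝ
  γ : ℝ
  γg : ℝ
  δ : ℝ
  σ : ℝ
  κb : ℝ

/-- range of the short loops. -/
def ExP.R (E : ExP) : ℕ := E.Rf + E.v0 + 1 + E.R5

/-- **numbers of the excision** at level `j + 1` (`V` = volume of balls, `kd = k0 + oc`). -/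
structure ExN {Λ : Type} (P : Par Λ) (E : ExP) (V : ℕ → ℕ) (j kd tm : ℕ) : Prop where
  T0 : 0 < P.Tf j
  d : kd + 1 ≤ tm
  tI : P.tI (j + 1) + 1 ≤ P.tP (j + 1)
  tP : P.tP (j + 1) + 1 ≤ tm
  r1 : P.R (j + 1) ≤ E.R1
  r2 : E.R1 ≤ E.R2
  r3 : E.R2 ≤ E.R3
  r4 : E.R3 ≤ E.R4
  r5 : E.R4 ≤ E.R5
  rZ : E.rZ ≤ E.R5
  blk : P.nc * (2 * (E.rZ + E.R + E.v1 + 3 * E.D + 3) + 1) ≤ P.σ (j + 1)
  γ0 : 0 ≤ E.γ ∧ 0 ≤ E.γg
  σ0 : 0 ≤ E.σ
  κ0 : 0 ≤ E.κb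
  e1 : 6 * E.nD * E.ε ≤ 1 / 10000
  e2 : 12 * E.nD * E.ε ≤ P.e (j + 1)
  one : 3 / P.Tf j * (P.nc * V (E.rZ + E.R) : ℕ) + (P.nc * V (E.R5 + (E.v0 + 1)) : ℕ) * E.γ ≤
    1 / 10000
  peel : 22 * (3 / P.Tf j * V E.Rg + E.γg + E.nD * E.ε) + 22 * E.κb + 40 * P.e (j + 1) ≤ E.σ ^ 2
  small : (P.nc * V (E.rZ + (E.R + 1 + E.v1)) : ℕ) * (2 * (E.σ + 6 * Real.sqrt E.δ)) +
    2 * Real.sqrt E.δ ≤ 1 / 2

namespace Par
variable (P : Par Λ) (I : Ins T Λ X α κ) (G : Bs T Λ)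

/-- geometry of the excised set `Zs`. -/
structure ExG (E : ExP) (V : ℕ → ℕ) (j : ℕ) (Zs : Finset Λ → Finset Λ) : Prop where
  vol : C9.Vol G.d V
  alv : AlvH I (P.N (j + 1)) ((j + 1) / 3) E.nD
  sub : ∀ F, F ⊆ Zs F ∧ Zs F ⊆ nbd G.d E.rZ F
  dead : ∀ (Z : Finset (Fin T × Λ)) F, ∀ c ∈ F, ∀ z,
    I.S.d (I.π c) z ≤ E.R3 + I.S.loc ((j + 1) / 3) → I.S.dead (I.kz (Z ∪ cyl (Zs F))) z
  oct : ∀ (Z : Finset (Fin T × Λ)) F x z, ∀ l < (j + 1) / 3, I.S.Off (F.image I.π) E.R4 x →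
    I.S.d x z ≤ I.S.loc ((j + 1) / 3) → I.S.oct l (I.kz (Z ∪ cyl (Zs F))) z ≤ I.S.oct l (I.kz Z) z
  slow : ∀ s, Cd I 1 ((j + 1) / 3) (P.tP (j + 1) + 1) (s.cv.image I.π) E.R5 s →
    G.Sl E.v0 (s.rev ∅ (cyl (nbd G.d E.R5 s.cv)))
  tow : ∃ K v g m f, v 0 = E.v0 ∧ v 1 = E.v1 ∧
    Tow G.ex G.ey G.d ⟨G.p, fun _ => 0⟩ ∅ (P.Tf j) E.δ K v g (P.N (j + 1)) m f E.D

/-- the probabilistic claims (purple fugacity `Y`). -/
structure ExC (E : ExP) (j : ℕ) (Zs : Finset Λ → Finset Λ) (Y : ℝ) : Prop where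
  Y0 : 0 ≤ Y
  Y1 : Y ≤ 1
  fU : F123 I G P.Sd ((P.lev I G).y (j + 1)) Y
    (fun s => EU G ((P.lev I G).y (j + 1)) Y (cyl (Zs s.cv)) s) (fun s => cyl (Zs s.cv)) 0
    ((j + 1) / 3) P.nc (P.R (j + 1)) E.R1 E.R2 E.R3 E.ε
  f1 : F1 I G P.Sd ((P.lev I G).y (j + 1)) 0 ((j + 1) / 3) P.nc E.R4 E.R5 E.ε
  ret : RetA I G P.Sd ((P.lev I G).y (j + 1)) (P.N (j + 1)) ((j + 1) / 3) P.nc E.R5 E.Rf E.γ
  reg : RetA I G P.Sd ((P.lev I G).y (j + 1)) (P.N (j + 1)) ((j + 1) / 3) P.nc E.R5 E.Rg E.γg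

variable {P I G} {E : ExP} {V : ℕ → ℕ} {j : ℕ} {Zs : Finset Λ → Finset Λ} {Y : ℝ}

/-- **`Dlv.exc`.** -/
theorem exc_dlv (hG : G.Ok) (h0 : P.Tf 0 = 0) (hT : ∀ j, 0 ≤ P.Tf j)
    (hy : (P.lev I G).y j ≤ (P.lev I G).y (j + 1)) (h3 : (j + 1) % 3 = 2)
    (n : ExN P E V j (I.S.k0 + I.S.oc) I.S.tm) (g : P.ExG I G E V j Zs) (c : P.ExC I G E j Zs Y)
    (hL : G.LadH (yw ((P.lev I G).y (j + 1))) ((P.lev I G).y j) (P.Pre I G (j + 1))
      (P.Post I (j + 1)) E.κb)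
    (hS : G.StepH (yw ((P.lev I G).y (j + 1))) ((P.lev I G).y j) (P.Pre I G (j + 1))
      (I.Cl ((j + 1) / 3) (P.tQ (j + 1)) ∅ 0) (P.e (j + 1) / 10)) :
    G.Stg (yw ((P.lev I G).y (j + 1))) ((P.lev I G).y (j + 1)) (P.In I (j + 1))
      (P.Pre I G (j + 1)) (P.σ (j + 1)) c1 10 (P.e (j + 1)) := by
  classical
  have hW := Lev.admW_yw (V := P.lev I G) h0 hT hy
  have y1 := Lev.y_le_one (V := P.lev I G) hT (j + 1)
  have ey : (P.lev I G).y j = Real.exp (-1 / P.Tf j) := if_neg (by omega)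
  set y := (P.lev I G).y (j + 1)
  set m := (j + 1) / 3
  have y0 : 0 ≤ y := Lev.y_nn _
  have sd : Std G y Y fun _ => 0 := ⟨hG, y0, c.Y0, c.Y1, by simp⟩
  have e0 := c.fU.e0
  have e1 : 0 ≤ E.nD * E.ε := by positivity
  have hd := hG.d
  have hI : ∀ s, P.In I (j + 1) s → s.cv.card ≤ P.nc ∧
      Kl I P.Sd (P.N (j + 1)) P.nc 0 m (P.tI (j + 1)) (image I.π) (P.R (j + 1)) s := fun s h => by
    have := h.2
    rw [if_pos h3] at this
    exact ⟨this.1, h.1.1, h.1.2, card_image_le.trans this.1, this.2⟩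
  have tI := n.tI
  have tP := n.tP
  have hk := n.d
  have rom : Rom I.S 0 (P.tI (j + 1)) (P.R (j + 1)) E.R1 E.R2 E.R3 :=
    ⟨hk, by omega, n.r1, n.r2, n.r3⟩
  have K : G.ExcK y ((P.lev I G).y j) (P.In I (j + 1)) (P.Pre I G (j + 1))
      (Kl I P.Sd (P.N (j + 1)) P.nc 0 m (P.tI (j + 1) + 1) (image I.π) E.R4)
      (Kl I P.Sd (P.N (j + 1)) P.nc 1 m (P.tI (j + 1) + 1 + 1) (image I.π) E.R5)
      (Kl I P.Sd (P.N (j + 1)) P.nc 1 m (P.tP (j + 1) + 1) (fun _ => ∅) E.R5) Zs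
      (nbd G.d E.R5) (fun _ z f => E.Rf ≤ G.d z f)
      (fun _ z f => E.Rg ≤ G.d z f) E.R E.v0 E.Rg (P.nc * V (E.rZ + E.R))
      (P.nc * V (E.R5 + (E.v0 + 1))) (V E.Rg) (3 * E.nD * E.ε) (3 * E.nD * E.ε) (E.nD * E.ε)
      E.γ E.γg (3 / P.Tf j) := by
    refine ⟨anti_Pre _, Kl.anti, Kl.anti, fun s U h => ⟨⟨h.1.1.mono subset_union_left, by omega⟩,
      h.2.mono (union_empty _).subset subset_union_left le_rfl⟩,
      Ld.stepU sd c.fU g.alv rom (fun s h => (hI s h).2) fun s x h hc =>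
        ⟨⟨h.1.mono subset_union_left, by omega⟩, fun z _ => ?_⟩,
      stepX' sd c.fU g.alv rom n.r4 (fun s => g.oct s.Z s.cv) (fun s h => (hI s h).2)
        fun s x h hc => (hI s h).2.add hc,
      fun s hs h => (Ld.stepV sd e0 c.f1 g.alv (by omega) (by omega) n.r5 (fun _ h => h)
        (fun s x h hc => h.add hc) s hs h _).trans (by linarith [n.e1]),
      Ld.stepW sd e0 c.f1 g.alv (by omega) (t := P.tP (j + 1)) (by omega) n.r5
        (Fc := fun _ => ∅) (fun s h => ⟨h.1.1.1, h.1.1.2, Nat.zero_le _, fun z _ => h.2 z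
          fun _ a => absurd a (notMem_empty _)⟩) fun s x h hc =>
          ⟨h.1.1.1, h.1.1.2, Nat.zero_le _, hc⟩,
      fun s a h => c.ret _ s a ⟨h.sup, h.ad a (by omega)⟩,
      fun s a h => c.reg ∅ s a ⟨h.sup, h.ad a tP⟩,
      fun s h => g.slow s (h.mono le_rfl (by omega) le_rfl).cl,
      fun s _ => ⟨fun x hx => ?_, fun x hx => ⟨?_, fun f hf => ?_⟩⟩,
      fun s h => ⟨(card_le_card (nbd_sub hd (g.sub _).2)).trans (card_nbd hd g.vol (hI s h).1 _),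
        (card_le_card (nbd_sub hd Subset.rfl)).trans (card_nbd hd g.vol (hI s h).1 _)⟩,
      fun x => ⟨(card_nbd hd g.vol (card_singleton x).le _).trans_eq (one_mul _), fun _ f hf => ?_⟩,
      div_nonneg (by norm_num) n.T0.le, n.γ0, fun g => ?_, n.one⟩
    · by_cases k : I.S.Off (s.cv.image I.π) E.R3 z
      · exact (hc z k).up tI
      · simp only [Rg.Sys.Off, not_forall, not_lt, mem_image] at k
        obtain ⟨_, ⟨a, a1, rfl⟩, a2⟩ := k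
        exact Rg.Sys.good_dead fun u hu => g.dead _ _ a a1 u ((I.S.d_tri _ z u).trans (by omega))
    · obtain ⟨a, a1, a2⟩ := mem_nbd.1 ((g.sub _).2 hx)
      exact mem_nbd.2 ⟨a, a1, a2.trans n.rZ⟩
    · obtain ⟨a, a1, a2⟩ := mem_nbd.1 (nbd_sub hd Subset.rfl hx)
      exact mem_nbd.2 ⟨a, (g.sub _).1 a1, a2.trans (by unfold ExP.R; omega)⟩
    · obtain ⟨a, a1, a2⟩ := mem_nbd.1 (nbd_sub hd Subset.rfl hx)
      have k1 : E.R < G.d f a := lt_of_not_ge fun k => hf (mem_nbd.2 ⟨a, (g.sub _).1 a1, k⟩)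
      have k2 := hd.2.2.1 f x a
      rw [hd.2.1 f x] at k2
      unfold ExP.R at k1
      omega
    · rw [hd.2.1]
      exact le_of_not_ge fun k => hf (mem_nbd.2 ⟨x, mem_singleton_self x, k⟩)
    · rw [div_mul_eq_mul_div, le_div_iff₀ n.T0]; exact (hW g).2.2
  obtain ⟨Kt, v, gt, mt, ft, v0, v1, tw⟩ := g.tow
  have J := K.excJ hG (Lev.y_nn _) hy y1
  rw [ey] at J hL hS hy
  refine monoStmt _ _ G _ _ _ _ _ _ _ _ _ _ _ _ _ _ hG (yw_nn y0) (fun _ h => h) (fun _ h => h)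
    n.blk (by norm_num [c1]) (by norm_num) (by linarith [n.e2])
    (exc _ _ G y _ _ _ (P.Post I (j + 1)) Zs
      (fun F => (nbd G.d (E.rZ + E.R + E.v1 + 3 * E.D + 3) F)ᶜ) _ _ E.δ E.σ _ _ _ E.κb Kt v gt _ _
      mt ft E.D (P.nc * V (E.rZ + (E.R + 1 + E.v1))) _ hG hy y1 (by linarith [n.e1]) n.κ0 J
      ⟨tw, fun s h => h.1.1, fun s _ z hz a ha => ?_, fun s h => bk_balls hd (hI s h).1 fun u hu =>
        of_not_not fun k => hu (mem_union_right _ (mem_cyl.2 (mem_compl.2 k))),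
        fun s h => v1 ▸ (card_le_card (nbd_sub hd (g.sub _).2)).trans
          (card_nbd hd g.vol (hI s h).1 _), fun s h => ?_, n.σ0, n.small⟩ hL
      (hS.and fun s x h => h.1.1) (by linarith [n.peel]))
  · obtain ⟨b, b1, b2⟩ := mem_nbd.1 ((g.sub _).2 hz)
    have k1 : ¬ G.d a b ≤ _ := fun k => mem_compl.1 ha (mem_nbd.2 ⟨b, b1, k⟩)
    have k2 := hd.2.2.1 a z b
    omega
  · have := g.slow (s.cov ∅) fun z _ => (h.2 z fun _ a => absurd a (notMem_empty _)).mono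
      (Nat.zero_le 1) le_rfl le_rfl (Nat.le_succ _)
    rw [v0]
    simpa [Bs.Sl, Cfg.rev, Cfg.cov, nbd, cyl] using this

end Par

end Crest.Agent.N337.M
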