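import Crest.Agent.N337.M.CelI
import Crest.Agent.N337.Par.Cx_Mg
import Crest.Agent.N337.Par.Nu
import Crest.Agent.N337.Par.Fin4

-- ▼ part N337/Rg/FinC
section

/-!
# Row 337 (helper75): `fK`, `fH`, `fU`, `n3`, `Anc` on the objects of the final assembly
-/

set_option autoImplicit false
set_option linter.unusedSectionVars false

namespace Crest.Agent.N337.Rg

open Finset Crest.Agent.N337.Free Crest.Agent.N337.I Crest.Agent.N337.M Crest.Agent.N337.Gas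
  Crest.Agent.N337.Ld Crest.Agent.N337.A Crest.Agent.N337.Top Crest.Agent.N337.Par

variable {L n u Dw : ℕ}

lemma slN (h : Bg n u) {d : ℕ} (hd : d ≤ 176) : C9.SlN (Par.num h Dw 12) d ctm ctm :=
  ⟨ll_pos u, by change ck0 + 27 + d ≤ ctm; unfold ctm; omega, le_rfl,
    hρ h Dw 12 le_rfl (Nat.le_add_right _ _), hJ h Dw 12 le_rfl (Nat.le_add_right _ _)⟩

lemma vv_le (h : Bg n u) (k : ℕ) : 1 + vv (Par.num h Dw 12) ctm k ≤ x u k 0 := by
  have hu := h.hu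
  have h1 := h.tm
  have h2 := lw_le h Dw 12 le_rfl (τ := ctm) (Nat.le_add_right _ _) k
  change 1 + (2 * ctm * Y u 1 + _) ≤ _
  tier! (48 * k + 1)

lemma locN_le (h : Bg n u) (k : ℕ) : locN (Par.num h Dw 12) k ≤ 2 * x u k 0 := by
  have hu := h.hu
  induction k with
  | zero => exact Nat.le_mul_of_pos_left _ two_pos
  | succ m ih =>
    have h1 : 2 * x u m 0 ≤ x u (m + 1) 0 := by tier! (48 * m + 11)
    change x u (m + 1) 0 + _ ≤ _
    omega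

lemma vn (h : Bg n u) (μ : ℕ) : VN (Par.num h Dw 12) 2 ctm μ fun k => x u k 1 := by
  have hu := h.hu
  refine ⟨slN h (by norm_num), ?_, fun k _ => ?_⟩
  · change 2 ≤ cLam
    have : 1 ≤ (2 * cc + 2) ^ cN := Nat.one_le_pow _ _ (by omega)
    unfold cLam; omega
  · have a1 := vv_le (Dw := Dw) h k
    have a2 := locN_le (Dw := Dw) h k
    have a3 : 3 * x u k 0 ≤ x u k 1 := by tier! (48 * k + 11)
    have a4 : x u k 1 + 1 ≤ x u k 12 := by tier! (48 * k + 12)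
    exact ⟨by omega, a4, a4.trans (Y_mono (show 48 * k + 11 + 12 ≤ 48 * k + 11 + 20 by omega))⟩

variable [NeZero L] [NeZero n] {ms w : ℕ} {β : ℝ} {sy : List (Sl L n × Sl L n × ℝ)}

/-- the numerics of the union bound (`Par/Cx`). -/
def CxN (L n T u : ℕ) [NeZero L] [NeZero T] (P : I.Num) (B μ : ℕ) (z : Tor 3 L) : Prop :=
  ∃ nc g vj, (cxI L n T B P.D cQ μ (fun k => x u k 1) (fun k => x u k 3) (tauX u)).Nm (sys n T P z)
    (fun k => (2 * x u (k + 1) 0 + 1) ^ 3) nc g vj (Par.eps u)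

variable (C : Ctx u ms β w sy) (z : Tor 3 L) {m : ℕ} {Yp : ℝ}

lemma w3 (h0 : 0 ≤ Yp) (h1 : Yp ≤ Yt u ms) :
    W3 C.W (GT β w sy) C.Q (gs u (ms + 2 + 1)) (PP n u ms β z).Sd (Bw β)
      (Gl.vT (eg u (M.Dw w sy) (ms + 2)) (kT u (ms + 2) (u * D ^ (48 * (ms + 2) + 6))))
      (s u (48 * (ms + 1))) Yp := by
  have hu := C.hu
  refine ⟨C.wr h0 h1, C.hT, ⟨ctm, 2, _, le_rfl, le_rfl, C.wd.nu ((gh_gs u _).nu0 C.bg _
    (Nat.le_add_right _ _) (two_le_Y hu 1) (gs_ok C.bg (by omega) (lt_of_lt_of_le ?_ C.hL))) le_rfl _⟩,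
    C.er (by omega), fun Z hZ => tp_cube _ hZ ?_ Subset.rfl⟩
  · exact Nat.lt_of_add_one_le (by tier! (48 * (ms + 2 + 1)))
  · change _ ≤ (2 * (2 ^ kT u (ms + 2) _ (ms + 2) / 4) + 1) ^ 3
    rw [kT, if_neg (lt_irrefl _), ← Y_def]
    have a : 4 * (4 * (2 * lt u ms + 1)) ≤ Y u (48 * (ms + 2) + 6) := by
      tier! (48 * (ms + 1) + 11 + 27)
    refine le_trans ?_ (Nat.pow_le_pow_left (show 2 * (2 * lt u ms + 1) ≤ _ by omega) 3)
    rw [mul_pow]; omega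

lemma n3n (hm : m ≤ ms + 1) (hy : yl u (3 * m) ≤ Yp)
    (N : CxN L n (TT β w sy) u C.Q (Bw β) m z) :
    N3n (cxI L n (TT β w sy) (Bw β) C.Q.D cQ m (fun k => x u k 1) (fun k => x u k 3) (tauX u)) C.Q z
      (gs u (ms + 2 + 1)) (eg u (M.Dw w sy) (ms + 2)) (kT u (ms + 2) (u * D ^ (48 * (ms + 2) + 6)))
      (kT' u) (fun _ => 0) C.W.κ (s u (48 * (ms + 1))) Yp (3 / Tf u (3 * m - 1)) ((ctm + 1) * ca)
      (Rr u m 30) (nx u m) (fun k => (2 * x u (k + 1) 0 + 1) ^ 3) (Par.eps u) := by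
  have h := C.bg
  have hu := h.hu
  have hn := h.hn
  refine ⟨fun R hR => ⟨le_nx u m R, gcN h z (tr_ok h z (C.le_L (by omega))) (tb_gs h le_rfl z
      (fun _ _ => Nat.zero_le _) (Y_def _ _).le ?_) h.Cg (by omega) (by norm_num)
      (by unfold cN; omega) (hR.trans (Rr_le h (by norm_num)))
      (fun _ => Nat.mul_le_mul_right _ (Nat.le_succ _)) (s_pos _ _).le (s_anti (by omega))⟩, N,
    ⟨_, vn h m⟩, fun l hl => ⟨?_, fun r _ => le_trans ?_ (tauX_ge u l r)⟩, fun l _ => sep_σ h l⟩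
  · rw [← Y_def]
    exact le_trans (by tier! (48 * (ms + 2) + 6)) C.hL
  · change l < m at hl
    rw [yl, if_neg (by omega), Tf_ne (by omega)] at hy
    refine (half_le_pow (Yr_pos _ _) ?_).trans (pow_le_pow_left₀ (Real.exp_pos _).le hy _)
    have := tb_eq (3 * m)
    have a : 2 * (n * (2 * x u l 12 + 1) ^ 3) ≤ Y u (tb (3 * m) + 6) := by tier! (48 * l + 23)
    exact_mod_cast a
  · change l < m at hl
    have := tb_eq (3 * m - 1)
    rw [Tf_ne (by omega)]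
    change 2 * (3 / _) * ((n * (2 * x u l 12 + 1) ^ 3 : ℕ) : ℝ) ≤ _
    sm! (48 * l + 23)

/-- **`fK`, `fH`, `fU`** of `C.Cel z m Yp`. -/
theorem tp3C (hm : m ≤ ms + 1) (hy : yl u (3 * m) ≤ Yp) (h1 : Yp ≤ Yt u ms)
    (N : CxN L n (TT β w sy) u C.Q (Bw β) m z) :
    Tp3 (C.I z) (GT β w sy) (PP n u ms β z).Sd (C.Gr z m) m Yp (3 / Tf u (3 * m - 1)) (Par.eps u m)
      ((ctm + 1) * ca) (Rr u m 30) (nx u m) :=
  tp3 (w3 C z ((yl_nn _ _).trans hy) h1) (n3n C z hm hy N)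

/-- **`n3`** of `C.Cen z m Yp`. -/
theorem n3C (hm : m ≤ ms) (hy : yl u (3 * m + 3) ≤ Yp) (h1 : Yp ≤ Yt u ms)
    (N : CxN L n (TT β w sy) u C.Q (Bw β) (m + 1) z) (y : ℝ) (D : Lp (TT β w sy) (Sl L n) → ℝ)
    (h0 : 0 ≤ y) (hD : Thin Yp (3 / Tf u (3 * m + 2)) D) :
    N3 (C.I z) (GT β w sy) (PP n u ms β z).Sd (EK (GT β w sy) y Yp (Ld.mk D Yp)) 0 m
      (sx u (m + 1) 0 ^ 1000) := by
  have hu := C.hu
  refine (n3 (w3 C z ((yl_nn _ _).trans hy) h1) (n3n C z (m := m + 1) (by omega) hy N) y D h0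
    hD).mono (fun _ h => h) ?_
  unfold Par.eps
  sm! (48 * (m + 1) + 11)

lemma cxN (μ : ℕ) : CxN L n (TT β w sy) u C.Q (Bw β) μ z := ⟨_, _, _, Cv.cx_nm C.bg _ z C.B2 μ⟩

/-- **final form**, `fK`, `fH`, `fU`. -/
theorem tp3F (hm : m ≤ ms + 1) (hy : yl u (3 * m) ≤ Yp) (h1 : Yp ≤ Yt u ms) :
    Tp3 (C.I z) (GT β w sy) (PP n u ms β z).Sd (C.Gr z m) m Yp (3 / Tf u (3 * m - 1)) (Par.eps u m)
      ((ctm + 1) * ca) (Rr u m 30) (nx u m) := tp3C C z hm hy h1 (cxN C z m)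

/-- **final form**, `n3`. -/
theorem n3F (hm : m ≤ ms) (hy : yl u (3 * m + 3) ≤ Yp) (h1 : Yp ≤ Yt u ms) (y : ℝ)
    (D : Lp (TT β w sy) (Sl L n) → ℝ) (h0 : 0 ≤ y) (hD : Thin Yp (3 / Tf u (3 * m + 2)) D) :
    N3 (C.I z) (GT β w sy) (PP n u ms β z).Sd (EK (GT β w sy) y Yp (Ld.mk D Yp)) 0 m
      (sx u (m + 1) 0 ^ 1000) := n3C C z hm hy h1 (cxN C z _) y D h0 hD


/-- **joint TP.** -/
theorem _root_.Crest.Agent.N337.M.Ctx.j3 : C.J3 z :=
  ⟨fun _ a _ b c => tp3F C z a b c, fun _ a _ b c y D d _ e => n3F C z a b c y D d e⟩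

end Crest.Agent.N337.Rg
end

-- ▼ part N337/M/CelJ

/-!
# Row 337, the chain (helper23): `JA`, `JC` from the engine alone
-/

set_option autoImplicit false

namespace Crest.Agent.N337.M.Ctx

open Crest.Agent.N337.Free Crest.Agent.N337.A Crest.Agent.N337.Top Crest.Agent.N337.Par

variable {L n : ℕ} [NeZero L] [NeZero n] {u ms w : ℕ} {β : ℝ} {sy : List (Sl L n × Sl L n × ℝ)}
  (C : Ctx u ms β w sy) (z : Tor 3 L)

theorem j4 : C.J4 z :=
  ⟨fun _ a _ _ _ b c e f => C.f1c z (by omega) b c (by omega) f,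
    fun _ a _ b c => C.n1 z (by omega) b c (by omega)⟩

variable {C z}

/-- **joint (A)** from the engine. -/
theorem ja (hB : C.JB z) : C.JA z := ja_of (C.j4 z) hB (C.j3 z)

theorem jc (hN : C.JN z) : C.JC z := jc_of (C.j4 z) hN (C.j3 z)

end Crest.Agent.N337.M.Ctx
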