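import Crest.Agent.N337.B.Two
import Crest.Agent.N337.Op.CE
import Crest.Agent.N337.M.Bas
import Crest.Agent.N337.Pc.Peel

-- ▼ part N337/B/Defs
section

/-!
# Row 337, move (b): hypotheses of the excision (junk free)
-/

set_option autoImplicit false
set_option linter.unusedSectionVars false

namespace Crest.Agent.N337.Ex

open Finset Equiv Crest.Agent.N337.Rep Crest.Agent.N337.LY0 Crest.Agent.N337.A
  Crest.Agent.N337.Gas Crest.Agent.N337.Pc

variable {Λ : Type} [Fintype Λ] [DecidableEq Λ] {T : ℕ} [NeZero T] (ex ey : Fin T → Λ)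

/-- the time-`0` points over a set of slots. -/
def top (U : Finset Λ) : Finset (Fin T × Λ) := univ.filter fun v => v.1 = 0 ∧ v.2 ∈ U

/-- the numerical data of the box move and of the clustering lemma (as in `A.boxS`). -/
structure Tow (d : Λ → Λ → ℕ) (M : Mdl T Λ) (S : Finset Λ) (Tf δ : ℝ) (K : ℕ → ℝ) (v g : ℕ → ℕ)
    (N m f D : ℕ) : Prop where
  met : Met ex ey d
  sup : ∀ u, M.b u ≠ 0 → u.2 ∈ S
  card : S.card ≤ N
  one : 1 ≤ N
  tow : ∀ i < 4, v (i + 1) = (g i + 1) * (v i + 1) ∧ Rate ex ey d M (v i + 2) (K i) ∧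
    N * Real.exp (40 * K i - g i) ≤ δ
  num : Num N Tf (K 3) δ (v 3) m f D

/-- long loops: they meet the junk `Zs` and have the top colour or leave its `R`-neighbourhood. -/
def Lng (d : Λ → Λ → ℕ) (Zs : Finset Λ) (R : ℕ) (z : Lp T Λ × Bool) : Prop :=
  Hit (cyl Zs) z.1 ∧ (z.2 = true ∨ Hit (cyl (nbd d R Zs)ᶜ) z.1)

instance (d : Λ → Λ → ℕ) (Zs : Finset Λ) (R : ℕ) : DecidablePred (Lng (T := T) d Zs R) :=
  fun _ => by unfold Lng; infer_instance

open Classical in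
/-- **hypotheses of the excision** of the cylinder over `Zs` in the two-level model `(r, M)`;
the block that is heat bathed is `Cᶜ`; `gx` = good `X`, `gd` = good states. -/
structure Exc (d : Λ → Λ → ℕ) (r : Fin T × Λ → ℝ) (M : Mdl T Λ) (Zs C : Finset Λ)
    (gx gd : Finset (Lp T Λ × Bool) → Prop) (R v0 v1 D : ℕ) (δ σ e : ℝ) : Prop where
  far : ∀ z ∈ Zs, ∀ c ∈ C, R + v1 + 3 * D + 3 ≤ d c z
  e_le : e ≤ 1 / 10000
  σ0 : 0 ≤ σ
  small : (nbd d (R + 1 + v1) Zs).card * (2 * (σ + 6 * Real.sqrt δ)) + 2 * Real.sqrt δ ≤ 1 / 2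
  down : ∀ A z, gd A → gd (A.erase z)
  /-- `X` is good (stationary rarity). -/
  rare : Op.ex (law2 ex ey r M) (Op.ind fun A => ¬gx (A.filter (HitL (cyl Zs)))) ≤ e
  /-- the state is good given a good `X`. -/
  bad : ∀ x, gx x → qq ex ey M.p (fg x) ≠ 0 → (∀ z ∈ x, HitL (cyl Zs) z) →
    Op.ex (law2 ex ey r (chd ex ey M (cyl Zs) (fg x))) (Op.ind fun B => ¬gd (x ∪ B)) ≤ e
  /-- one-point bound for the long loops. -/
  one : ∀ A, gd A → law2 ex ey r M A ≠ 0 →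
    ∑ z ∈ univ.filter (fun z => Lng d Zs R z ∧ gd (insert z A)),
      w2 r M z * up (qq ex ey M.p) (fg A) z.1 ≤ e
  slow : ∀ x, gx x → qq ex ey M.p (fg x) ≠ 0 → (∀ z ∈ x, HitL (cyl Zs) z ∧ ¬Lng d Zs R z) →
    Slow ex ey d (Cheap ex ey d (chd ex ey M (cyl Zs) (fg x)))
      (fun u => (chd ex ey M (cyl Zs) (fg x)).b u ≠ 0) v0
  /-- export of the peel in the clean models with more killed time-`0` points. -/
  peel : ∀ x, gx x → qq ex ey M.p (fg x) ≠ 0 → (∀ z ∈ x, HitL (cyl Zs) z ∧ ¬Lng d Zs R z) →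
    ∀ U ⊆ nbd d (R + 1 + v1) Zs, ∀ a ∈ nbd d (R + 1 + v1) Zs,
      let μ := law2 ex ey r (chd ex ey M (cyl Zs ∪ top U) (fg x))
      Op.var μ (Op.ap (Op.ce μ hi) (Op.ind fun B => B.filter (HitL {(0, a)}) = ∅)) ≤ σ ^ 2

open Classical in
/-- **(Excise)** -/
def ExcStmt : Prop :=
  ∀ (Λ : Type) [Fintype Λ] [DecidableEq Λ] (T : ℕ) [NeZero T] (ex ey : Fin T → Λ)
    (d : Λ → Λ → ℕ) (r : Fin T × Λ → ℝ) (M : Mdl T Λ) (Zs C S : Finset Λ)
    (gx gd : Finset (Lp T Λ × Bool) → Prop) (Tf δ σ e : ℝ) (K : ℕ → ℝ) (v g : ℕ → ℕ)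
    (R N m f D : ℕ), M.Ok 1 → (∀ u, 0 ≤ r u ∧ r u ≤ 1) → (low r M).Ok (Real.exp (-1 / Tf)) →
    Tow ex ey d M S Tf δ K v g N m f D → Exc ex ey d r M Zs C gx gd R (v 0) (v 1) D δ σ e →
    ∀ F : Finset (Lp T Λ × Bool) → ℝ,
      let μ := law2 ex ey r M
      let X : Finset (Lp T Λ × Bool) → Finset (Lp T Λ × Bool) := filter (HitL (cyl Zs))
      Op.var μ F ≤ 400 * (Op.nsq μ (fun A => F A - Op.ap (Op.ce μ (filter (HiOr (cyl C)))) F A) +
        4 * Dir μ F + 2 * Op.ex μ (fun A => Op.ind (fun A => ¬gx (X A)) A * (F A - Op.ex μ F) ^ 2) +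
        Op.ex μ fun A => if gx (X A) then
          Op.var (law2 ex ey r (chd ex ey M (cyl Zs) (fg (X A)))) (fun B => F (X A ∪ B)) else 0)

end Crest.Agent.N337.Ex
end

-- ▼ part N337/B/Loc
section

/-!
# Row 337, move (b): slow families, locality of one-point observables
-/

set_option autoImplicit false
set_option linter.unusedSectionVars false

namespace Crest.Agent.N337.Ex

open Finset Equiv Crest.Agent.N337.Rep Crest.Agent.N337.LY0 Crest.Agent.N337.A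
  Crest.Agent.N337.Gas Crest.Agent.N337.Pc

variable {Λ : Type} [Fintype Λ] [DecidableEq Λ] {T : ℕ} [NeZero T] {ex ey : Fin T → Λ}
  {d : Λ → Λ → ℕ} {M M' M'' : Mdl T Λ} {S : Finset Λ} {Tf δ y : ℝ} {K : ℕ → ℝ} {v g : ℕ → ℕ}
  {N m f D : ℕ} {r : Fin T × Λ → ℝ} {U : Finset (Fin T × Λ)}

/-- more pins, more killing. -/
def Sub (M' M : Mdl T Λ) : Prop :=
  (∀ s, M'.p s = M.p s ∨ M'.p s = 0 ∨ M'.p s = 1) ∧ ∀ u, M'.b u ≠ 0 → M.b u ≠ 0

lemma Sub.trans (h : Sub M'' M') (h' : Sub M' M) : Sub M'' M :=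
  ⟨fun s => (h.1 s).elim (fun e => e ▸ h'.1 s) Or.inr, fun u a => h'.2 u (h.2 u a)⟩

lemma sub_chd (M : Mdl T Λ) (U : Finset (Fin T × Λ)) (x : Finset (Lp T Λ)) :
    Sub (chd ex ey M U x) M :=
  ⟨fun s => by simp only [chd, pin]; split_ifs <;> simp, fun _ h => (kill_ne h).2⟩

lemma sub_low (r : Fin T × Λ → ℝ) (M : Mdl T Λ) : Sub (low r M) M :=
  ⟨fun _ => Or.inl rfl, fun _ h => right_ne_zero_of_mul h⟩


lemma Tow.sub (h : Tow ex ey d M S Tf δ K v g N m f D) (hM : M.Ok y) (hs : Sub M' M) :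
    Tow ex ey d M' S Tf δ K v g N m f D :=
  ⟨h.met, fun u a => h.sup u (hs.2 u a), h.card, h.one, fun i hi => ⟨(h.tow i hi).1,
    (h.tow i hi).2.1.of_le le_rfl (fun s => (hM.1 s).1) hs.1, (h.tow i hi).2.2⟩, h.num⟩

lemma Tow.δ0 (h : Tow ex ey d M S Tf δ K v g N m f D) : 0 < δ := h.num.2.1

lemma Tow.δ1 (h : Tow ex ey d M S Tf δ K v g N m f D) : δ ≤ 1 / 8 := h.num.2.2.1

variable (ex ey) in
/-- the pins of the model together with the active steps of the family are slow. -/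
def SlowG (d : Λ → Λ → ℕ) (M : Mdl T Λ) (v : ℕ) (A : Finset (Lp T Λ)) : Prop :=
  Slow ex ey d (fun s => Cheap ex ey d M s ∨ cn A s = true) (fun u => M.b u ≠ 0) v

lemma cn_mono {A B : Finset (Lp T Λ)} (h : A ⊆ B) {s : Fin T} (hs : cn A s = true) :
    cn B s = true := by
  simp only [cn, decide_eq_true_eq] at hs ⊢
  exact hs.imp fun g hg => ⟨h hg.1, hg.2⟩

lemma SlowG.chd {w : ℕ} {A B : Finset (Lp T Λ)} (h : SlowG ex ey d M w B) (hA : A ⊆ B)
    (hp : M'.p = M.p) (hb : ∀ u, M'.b u ≠ 0 → M.b u ≠ 0) (U : Finset (Fin T × Λ)) :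
    Slow ex ey d (Cheap ex ey d (chd ex ey M' U A)) (fun u => (chd ex ey M' U A).b u ≠ 0) w := by
  refine Slow.mono' h le_rfl (fun u a => hb u (kill_ne a).2) fun s _ _ _ hc => ?_
  rcases hc with hc | hc
  · simp only [Gas.chd, pin] at hc
    split_ifs at hc with h1 h2
    exacts [Or.inr (cn_mono hA h2), absurd hc zero_ne_one, Or.inl (Or.inl (hp ▸ hc))]
  · exact Or.inl (Or.inr hc)

open Classical in
/-- fast families are rare. -/
theorem fast_law (h : Tow ex ey d M S Tf δ K v g N m f D) (hM : M.Ok y) (hy : 0 ≤ y) {i : ℕ}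
    (hi : i < 4) (hs : Slow ex ey d (Cheap ex ey d M) (fun u => M.b u ≠ 0) (v i)) :
    Op.ex (law ex ey M) (Op.ind fun A => ¬SlowG ex ey d M (v (i + 1)) A) ≤ δ := by
  obtain ⟨h1, h2, h3⟩ := h.tow i hi
  refine (dn_le_Pb hM fun ω hw a b => a ?_).trans
    ((fastS ex ey (g i) h.met hM hy h2 hs lab_lab1 h.sup h.card).trans h3)
  rw [h1]
  refine Slow.mono' b le_rfl (fun _ h => h) fun s _ _ _ hc => ?_
  rcases hc with (hc | hc) | hc
  exacts [Or.inl (wt_p1 hw hc), Or.inr hc, Or.inl (by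
    rw [cn_eq (dn_sub ω)] at hc
    split_ifs at hc
    exact hc)]

/-- a loop of a slow family passes time `0` near each of its points. -/
lemma reach {w : ℕ} {A : Finset (Lp T Λ)} (hA : law ex ey M A ≠ 0) (h : SlowG ex ey d M w A)
    {l : Lp T Λ} (hl : l ∈ A) {u : Fin T × Λ} (hu : u ∈ l.2) :
    ∃ x, (0, x) ∈ l.2 ∧ d u.2 x ≤ w := by
  obtain ⟨ξ, -, hξ⟩ := qq_supp (nu_supp hA).1
  have hb := prod_ne_zero_iff.1 ((nu_supp hA).2 l hl)
  have hm : ∀ k, (Sg ex ey ξ ^ k) u ∈ l.2 := fun k => by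
    rw [eq_lp (hξ hl) hu]; exact mem_obv.2 (o_pow _ _ _)
  have h0 : ((Sg ex ey ξ ^ (T - u.1.val)) u).1 = 0 := by
    apply Fin.ext
    rw [Sg_pow_val, Nat.add_sub_cancel' u.1.2.le]; simp
  refine ⟨((Sg ex ey ξ ^ (T - u.1.val)) u).2, h0 ▸ hm _, seg_le h ξ u (fun k => ?_)
    (fun k _ => hb _ (hm k)) _ (by have := u.1.2; omega)⟩
  set c := (Sg ex ey ξ ^ k) u with hc
  have e : ((Sg ex ey ξ ^ (k + 1)) u).2 = sg (ex c.1) (ey c.1) (ξ c.1) c.2 := by
    rw [pow_succ', Perm.mul_apply, ← hc]; rfl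
  rw [e]
  by_cases h2 : ξ c.1 = true
  · by_cases h3 : c.2 = ex c.1 ∨ c.2 = ey c.1
    · refine Or.inr ⟨Or.inr ?_, by simp [sg, h2]⟩
      rw [cn_eq hξ, if_pos, h2]
      have h4 : (c.1, c.2) ∈ l.2 := hm k
      exact tch_pts.2 ⟨l, hl, h3.imp (fun a => by rwa [a] at h4) fun a => by rwa [a] at h4⟩
    · push Not at h3
      exact Or.inl (by simp [sg, h2, swap_apply_of_ne_of_ne h3.1 h3.2])
  · exact Or.inl (by simp [sg, h2])

/-- **locality**: far loops do not influence a local observable. -/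
theorem loc_var (h : Tow ex ey d M S Tf δ K v g N m f D) (hM : M.Ok (Real.exp (-1 / Tf)))
    (hs : Slow ex ey d (Cheap ex ey d M) (fun u => M.b u ≠ 0) (v 1)) {C : Finset Λ}
    {ψ : Finset (Lp T Λ) → ℝ} (h1 : ∀ A, |ψ A| ≤ 1)
    (hψ : ∀ A, ψ (A.filter (Hit (cyl (nbd d (2 * D + 1) (nbd d D C))ᶜ))) = ψ A) :
    Op.var (law ex ey M) (Op.ap (Op.ce (law ex ey M) (filter (Hit (cyl C)))) ψ) ≤ 33 * δ := by
  classical
  obtain ⟨v1, R1, g1⟩ := h.tow 1 (by omega)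
  obtain ⟨v2, R2, g2⟩ := h.tow 2 (by omega)
  have a3 : App ex ey d M lab1 m ((g 2 + 1) * (v 2 + 1))
      (cyl (nbd d (2 * D + 1) (univ ∩ nbd d D C))ᶜ) (fun ω => ψ (dn ex ey ω)) 0 :=
    ⟨fun ω => ψ (dn ex ey ω), fun _ => h1 _, fun ω hw _ => by
      beta_reduce
      rw [dn_res (wt_cl hw), univ_inter, hψ, sub_self, abs_zero]⟩
  obtain ⟨φ, hφ, a0⟩ := step h.sup h.card h.one h.met hM (h.tow 3 (by omega)).2.1 h.num lab_lab1
    (by rw [v2]; nlinarith) R2 g2 le_rfl (fun _ => h1 _) a3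
  have e0 : ∀ ω' : St T Λ Unit, res ex ey (cyl univᶜ) ω' = (fun _ => false, fun _ => none) :=
    fun ω' => by
      have e : rn ex ey (cyl univᶜ) ω' = fun _ => none := by funext w; simp [rn, cyl]
      simp only [res, e]
      simp [Tch]
  simp only [e0, zero_add] at a0
  have hP := Pb_not_Gd (M := M) m (g 1) h.met hM (Real.exp_pos _).le lab_lab1 h.sup h.sup h.card
    (fun _ h => h) R1 hs
  rw [← v1] at hP
  have h5 := (h.num.small h.one).2
  have h6 := h.δ0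
  have h7 := h.δ1
  refine ((pr_law hM).var_le_sub _ (φ (fun _ => false, fun _ => none))).trans ?_
  rw [Op.nsq_eq_ex, ← Ev_dn]
  have h8 : Ev ex ey M lab1 (fun ω => (14 * δ) ^ 2 +
      4 * if ¬ Gd ex ey d M m (v (1 + 1)) ω then 1 else 0) ≤ 33 * δ := by
    rw [Ev_add, Ev_mul, Ev_const bas hM lab_lab1]
    have : Ev ex ey M lab1 (fun ω => if ¬ Gd ex ey d M m (v (1 + 1)) ω then 1 else 0) ≤ _ :=
      le_trans (le_of_eq (by unfold Pb; congr; funext ω; congr)) hP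
    nlinarith
  refine le_trans (Ev_mono bas hM lab_lab1 fun ω hw => ?_) h8
  rw [← Pk_dn hM (cyl C) (fun _ _ => rfl) ω hw]
  split_ifs with a
  · have := a0 ω hw a
    rw [← sq_abs, mul_zero, add_zero]
    exact pow_le_pow_left₀ (abs_nonneg _) this 2
  · have b1 := abs_le.1 (Pk_abs (ex := ex) (ey := ey) (U := cyl C) hM lab_lab1
      (F := fun ω => ψ (dn ex ey ω)) (fun _ => h1 _) ω)
    have b2 := abs_le.1 (hφ (fun _ => false, fun _ => none))
    nlinarith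

end Crest.Agent.N337.Ex
end

-- ▼ part N337/Op/Exc
section

/-!
# Row 337, move (b): abstract excision lemma

* `exc_con`: the word `E[·|η] E[·|κ] P_S Ê[·|X]` contracts mean-zero functions;
* `gas_res`, `gas_long`: the dilute gas of long loops;
* `kill_step`: one step of the killing path.
-/

set_option autoImplicit false
set_option linter.unusedSectionVars false

namespace Crest.Agent.N337.Op

open Finset

variable {Ω : Type} [Fintype Ω] [DecidableEq Ω] {μ : Ω → ℝ}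

/-- `X` on `{X good}`, everything elsewhere. -/
def hat {α : Type} (X : Ω → α) (gx : α → Prop) [DecidablePred gx] (ω : Ω) : α ⊕ Ω :=
  if gx (X ω) then Sum.inl (X ω) else Sum.inr ω

/-- the residual of `hat`: conditional variances on the good fibres only. -/
theorem res_hat_row {α : Type} [DecidableEq α] (hμ : ∀ ω, 0 ≤ μ ω) (X : Ω → α) (gx : α → Prop)
    [DecidablePred gx] {ω : Ω} (h : μ ω ≠ 0) :
    ce μ (hat X gx) ω = if gx (X ω) then cond μ X (X ω) else idk ω := by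
  rw [ce_of_ne hμ h]
  funext ω'
  split_ifs with hg
  · have e : ∀ x, hat X gx x = hat X gx ω ↔ X x = X ω := fun x => by
      unfold hat; rw [if_pos hg]
      split_ifs with hx
      · simp
      · simp only [false_iff]; intro e; exact hx (e ▸ hg)
    simp only [cond, mass, e]
  · have e : ∀ x, hat X gx x = hat X gx ω ↔ x = ω := fun x => by
      unfold hat; rw [if_neg hg]
      split_ifs with hx
      · simp only [false_iff]; intro e; exact hg (e ▸ hx)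
      · simp
    simp only [cond, mass, e, sum_ite_eq', mem_univ, if_true, idk]
    by_cases e' : ω' = ω
    · subst e'; simp [h]
    · simp [e', Ne.symm e']

lemma var_two_val {ρ v : Ω → ℝ} (hρ : Pr ρ) (s : Ω → Prop) [DecidablePred s] {p : ℝ}
    (hp : ex ρ (ind fun ω => ¬s ω) ≤ p) (h0 : ∀ ω, ¬s ω → v ω = 0)
    (h1 : ∀ ω ω', ρ ω ≠ 0 → ρ ω' ≠ 0 → s ω → s ω' → v ω = v ω') :
    var ρ v ≤ p * nsq ρ v := by
  have p0 : 0 ≤ p := (ex_nn hρ.nn (ind_nn _)).trans hp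
  by_cases h : ∃ ω0, ρ ω0 ≠ 0 ∧ s ω0
  · obtain ⟨ω0, a0, s0⟩ := h
    have e : ∀ ω, ρ ω ≠ 0 → v ω = v ω0 * ind s ω := fun ω a => by
      unfold ind; split_ifs with hs
      · rw [h1 ω ω0 a a0 hs s0, mul_one]
      · rw [h0 ω hs, mul_zero]
    have e1 : ex ρ v = v ω0 * ex ρ (ind s) := by rw [ex_congr e, ex_mul]
    have e2 : nsq ρ v = v ω0 ^ 2 * ex ρ (ind s) := by
      rw [nsq_congr e, nsq_mul]; simp only [nsq, sq (ind s _), ind_sq]; rfl
    have e3 : ex ρ (ind fun ω => ¬s ω) = 1 - ex ρ (ind s) := by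
      rw [← hρ.ex_compl]; congr 1; funext ω; by_cases hs : s ω <;> simp [ind, hs]
    have e4 : 0 ≤ v ω0 ^ 2 * ex ρ (ind s) := mul_nonneg (sq_nonneg _) (ex_nn hρ.nn (ind_nn _))
    rw [hρ.var_eq, e1, e2]
    nlinarith
  · push Not at h
    have e : nsq ρ v = 0 := by
      rw [nsq_congr (g := fun _ => 0) fun ω a => h0 ω (h ω a)]; simp [nsq]
    have := hρ.var_le v
    rw [e] at this ⊢; simpa using this

/-- **Lemma B.** -/
theorem exc_con {α β γ : Type} [DecidableEq α] [Fintype β] [DecidableEq β] [DecidableEq γ]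
    (hμ : Pr μ) (X : Ω → α) (η : Ω → β) (κ : Ω → γ) (gx sh : α → Prop) [DecidablePred gx]
    [DecidablePred sh] (bad : Ω → Prop) [DecidablePred bad] {e : ℝ} (he : e ≤ 1 / 10000)
    (hS : ex μ (ind fun ω => ¬gx (X ω)) ≤ e)
    (hbad : ∀ x, gx x → mass μ X x ≠ 0 → ex (cond μ X x) (ind bad) ≤ e)
    (hκ1 : ∀ ω ω', κ ω' = κ ω → bad ω → ω' = ω)
    (hκ2 : ∀ ω ω', κ ω' = κ ω → sh (X ω) → sh (X ω') → X ω' = X ω)
    (hκ3 : ∀ ω, μ ω ≠ 0 → ¬bad ω → ex (cond μ κ (κ ω)) (ind fun ω => ¬sh (X ω)) ≤ e)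
    (hTV : ∀ x x', gx x ∧ sh x → gx x' ∧ sh x' → mass μ X x ≠ 0 → mass μ X x' ≠ 0 →
      ∀ h : β → ℝ, (∀ b, |h b| ≤ 1) →
      |ex (cond μ X x) (fun ω => h (η ω)) - ex (cond μ X x') fun ω => h (η ω)| ≤ 1) :
    Con μ (word [ce μ η, ce μ κ, ps (fun ω => ¬gx (X ω)) μ, ce μ (hat X gx)]) (9 / 10) := by
  have nn := hμ.nn
  have e0 : 0 ≤ e := (ex_nn nn (ind_nn _)).trans hS
  refine con_of_nrm nn (by norm_num) fun f hf => ?_
  simp only [word, ap_comp, ap_idk]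
  have pP := proj_ps hμ (S := fun ω => ¬gx (X ω)) (by linarith)
  set f0 := ap (ce μ (hat X gx)) f with hf0
  set f1 := ap (ps (fun ω => ¬gx (X ω)) μ) f0 with hf1
  have m0 : ex μ f0 = 0 := by rw [hf0, (proj_ce nn _).ker.ex_ap, hf]
  have m1 : ex μ f1 = 0 := by rw [hf1, pP.ker.ex_ap, m0]
  have n1 : nsq μ f1 ≤ nsq μ f := (pP.ctr nn _).trans ((proj_ce nn _).ctr nn _)
  -- `f1` is a function of `X` vanishing off the good set
  set φ : α → ℝ := fun x => ind gx x * (ex (cond μ X x) f - exc (fun ω => ¬gx (X ω)) μ f0) with hφ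
  have a1 : ∀ ω, μ ω ≠ 0 → f1 ω = φ (X ω) := fun ω h => by
    rw [hf1, ap_ps, m0, zero_add, hφ]
    by_cases hg : gx (X ω)
    · simp only [ind, hg, not_true, if_false, if_true, sub_zero]
      rw [hf0, ap_eq_ex, res_hat_row nn X gx h, if_pos hg]
    · simp [ind, hg]
  set F : Ω → ℝ := fun ω => φ (X ω) with hF
  have mF : ex μ F = 0 := by rw [← ex_congr a1, m1]
  have nF : nsq μ F ≤ nsq μ f := by rw [← nsq_congr a1]; exact n1
  have N0 := nsq_nn nn F
  have r1 : nrm μ (ap (ce μ η) (ap (ce μ κ) f1)) = nrm μ (ap (ce μ η) (ap (ce μ κ) F)) :=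
    nrm_congr ((proj_ce nn η).ap_congr ((proj_ce nn κ).ap_congr a1))
  -- weight of the bad states
  have b1 : ∀ ψ : α → ℝ, (∀ x, 0 ≤ ψ x) → (∀ x, ¬gx x → ψ x = 0) →
      ex μ (fun ω => ψ (X ω) * ind bad ω) ≤ e * ex μ fun ω => ψ (X ω) := fun ψ h0 h1 => by
    rw [← ex_mul_ce (π := X) nn fun _ _ h => by rw [h], ← ex_mul]
    refine ex_mono_ae nn fun ω h => ?_
    by_cases hg : gx (X ω)
    · rw [ap_ce_ae nn _ h, mul_comm e]
      exact mul_le_mul_of_nonneg_left (hbad _ hg (mass_ne nn h)) (h0 _)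
    · simp [h1 _ hg]
  have row : ∀ ω, μ ω ≠ 0 → bad ω → ∀ g : Ω → ℝ, ap (ce μ κ) g ω = g ω := fun ω _ hb g => by
    rw [ap_eq_ex, ex_congr (g := fun _ => g ω) fun ω' h' => by rw [hκ1 ω ω' (ce_supp h') hb],
      (pr_ce nn ω).ex_const]
  set v : Ω → ℝ := fun ω => ind sh (X ω) * F ω with hv
  set w : Ω → ℝ := fun ω => ind (fun ω => ¬sh (X ω)) ω * F ω with hw
  have vw : F = fun ω => v ω + w ω := by
    funext ω; simp only [hv, hw, ind]; split_ifs <;> ring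
  have nv : nsq μ v ≤ nsq μ F := ex_mono nn fun ω => by
    simp only [hv, ind]; split_ifs <;> simp [sq_nonneg]
  have c1 : nsq μ (ap (ce μ κ) w) ≤ 2 * e * nsq μ F := by
    have h1 : nsq μ (ap (ce μ κ) w) ≤
        ex μ fun ω => e * ap (ce μ κ) (fun x => F x ^ 2) ω + φ (X ω) ^ 2 * ind bad ω := by
      refine ex_mono_ae nn fun ω h => ?_
      have g0 : 0 ≤ ap (ce μ κ) (fun x => F x ^ 2) ω := ex_nn (ce_nn nn ω) fun _ => sq_nonneg _
      by_cases hb : bad ω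
      · have : w ω ^ 2 ≤ φ (X ω) ^ 2 := by
          simp only [hw, hF, ind]; split_ifs <;> simp [sq_nonneg]
        rw [row ω h hb w]; simp only [ind, hb, if_true, mul_one]; nlinarith [mul_nonneg e0 g0]
      · have h2 := cs (ce_nn nn (π := κ) ω) (ind fun ω => ¬sh (X ω)) F
        have h3 : nsq (ce μ κ ω) (ind fun ω => ¬sh (X ω)) ≤ e := by
          have := hκ3 ω h hb
          rw [← ce_of_ne nn h] at this
          simpa only [nsq, sq, ind_sq, ex] using this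
        simp only [ind, hb, if_false, mul_zero, add_zero]
        exact h2.trans (mul_le_mul_of_nonneg_right h3 g0)
    rw [ex_add, ex_mul, (proj_ce nn κ).ker.ex_ap] at h1
    have h2 := b1 (fun x => φ x ^ 2) (fun _ => sq_nonneg _) fun x hx => by simp [hφ, ind, hx]
    rw [nsq_eq_ex μ F]; simp only [hF] at h1 ⊢; linarith
  have c2 : nsq μ (fun ω => v ω - ap (ce μ κ) v ω) ≤ e * nsq μ F := by
    refine le_trans ?_ (mul_le_mul_of_nonneg_left nv e0)
    rw [(proj_ce nn κ).res_eq (ce_nn nn), nsq_eq_ex μ v,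
      ← (proj_ce nn κ).ker.ex_ap fun ω => v ω ^ 2, ← ex_mul]
    refine ex_mono_ae nn fun ω h => ?_
    by_cases hb : bad ω
    · rw [(pr_ce nn ω).var_eq, ← ap_eq_ex, nsq_eq_ex, ← ap_eq_ex, row ω h hb, row ω h hb, sub_self]
      positivity
    · refine var_two_val (pr_ce nn ω) (fun ω => sh (X ω)) ?_ (fun ω' h' => by simp [hv, ind, h'])
        fun a b ha hb' sa sb => ?_
      · rw [ce_of_ne nn h]; exact hκ3 ω h hb
      · simp only [hv, hF, hκ2 a b ((ce_supp hb').trans (ce_supp ha).symm) sa sb]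
  have d1 : nrm μ (fun ω => ap (ce μ κ) F ω - v ω) ≤ 1 / 40 * nrm μ F := by
    have : (fun ω => ap (ce μ κ) F ω - v ω) =
        fun ω => ap (ce μ κ) w ω + (ap (ce μ κ) v ω - v ω) := by
      conv_lhs => rw [vw, ap_add]
      funext ω; ring
    rw [this]
    refine (nrm_add nn _ _).trans ?_
    rw [nrm_sub_comm]
    have h1 : nrm μ (ap (ce μ κ) w) ≤ 3 / 200 * nrm μ F :=
      (nrm_le_mul nn (by norm_num)).2 (c1.trans (mul_le_mul_of_nonneg_right (by linarith) N0))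
    have h2 : nrm μ (fun ω => v ω - ap (ce μ κ) v ω) ≤ 1 / 100 * nrm μ F :=
      (nrm_le_mul nn (by norm_num)).2 (c2.trans (mul_le_mul_of_nonneg_right (by linarith) N0))
    linarith
  have d2 : ex μ v ^ 2 ≤ (1 / 40) ^ 2 * nsq μ F := by
    have h := hμ.sq_ex_le fun ω => ap (ce μ κ) F ω - v ω
    rw [ex_sub, (proj_ce nn κ).ker.ex_ap, mF, zero_sub, neg_sq] at h
    exact h.trans ((nrm_le_mul nn (by norm_num)).1 d1)
  -- the typical set has mass at least one half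
  set T : α → Prop := fun x => gx x ∧ sh x with hT
  have t1 : 1 / 2 ≤ ex μ fun ω => ind T (X ω) := by
    have h1 := b1 (ind gx) (ind_nn _) fun x hx => by simp [ind, hx]
    have h2 : ex μ (fun ω => ind gx (X ω)) ≤ 1 := by
      rw [← hμ.ex_const 1]; exact ex_mono nn fun _ => ind_le_one _ _
    have h3 : ex μ (fun ω => (1 - ind bad ω) * ind (fun ω => ¬sh (X ω)) ω) ≤ e := by
      rw [← ex_mul_ce (π := κ) nn, ← hμ.ex_const e]
      · refine ex_mono_ae nn fun ω h => ?_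
        by_cases hb : bad ω
        · simp [ind, hb, e0]
        · rw [ap_ce_ae nn _ h]; simpa [ind, hb] using hκ3 ω h hb
      · intro a b hab
        by_cases ha : bad a
        · rw [hκ1 a b hab.symm ha]
        · by_cases hb : bad b
          · rw [hκ1 b a hab hb]
          · simp [ind, ha, hb]
    have h4 : ex μ (fun _ => (1 : ℝ)) ≤ ex μ fun ω => ind T (X ω) + (ind (fun ω => ¬gx (X ω)) ω +
        (ind gx (X ω) * ind bad ω + (1 - ind bad ω) * ind (fun ω => ¬sh (X ω)) ω)) :=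
      ex_mono nn fun ω => by
        simp only [ind, hT]
        by_cases a : gx (X ω) <;> by_cases b : sh (X ω) <;> by_cases c : bad ω <;> simp [a, b, c]
    rw [hμ.ex_const, ex_add, ex_add, ex_add] at h4
    nlinarith
  have ov := overlap nn X η T (d := 1 / 2)
    (fun x x' a b c d h hh => (hTV x x' a b c d h hh).trans (by norm_num))
    φ fun b => ex (cond μ η b) v
  have q1 : ∀ ω, ind T (X ω) * φ (X ω) = v ω := fun ω => by
    simp only [hv, hF, hφ, hT, ind]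
    by_cases a : gx (X ω) <;> by_cases b : sh (X ω) <;> simp [a, b]
  have q2 : (fun ω => ind T (X ω) * φ (X ω) ^ 2) = fun ω => v ω ^ 2 := funext fun ω => by
    rw [← q1]; unfold ind; split_ifs <;> ring
  have q3 : ex μ (fun ω => ind T (X ω) * (φ (X ω) - ex (cond μ η (η ω)) v) ^ 2) ≤
      nsq μ v - nsq μ (ap (ce μ η) v) := by
    rw [← (proj_ce nn η).pyth]
    refine ex_mono_ae nn fun ω h => ?_
    beta_reduce
    rw [ap_ce_ae nn _ h, ← q1 ω]
    unfold ind; split_ifs <;> simp [sq_nonneg]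
  simp only [q1, q2, ← nsq_eq_ex] at ov
  set t := ex μ fun ω => ind T (X ω)
  have d3 : nrm μ (ap (ce μ η) v) ≤ 7 / 8 * nrm μ F := by
    rw [nrm_le_mul nn (by norm_num)]
    have h1 : t * (4 * nsq μ (ap (ce μ η) v)) ≤ t * (3 * nsq μ v + 2 * ex μ v ^ 2) := by
      nlinarith [sq_nonneg (ex μ v), mul_le_mul_of_nonneg_left q3 (by linarith : 0 ≤ t)]
    have := le_of_mul_le_mul_left h1 (by linarith)
    nlinarith
  have d4 := nrm_le_add nn (ap (ce μ η) (ap (ce μ κ) F)) (ap (ce μ η) v)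
  rw [← ap_sub] at d4
  have d5 := ((proj_ce nn η).ctr nn).nrm_le fun ω => ap (ce μ κ) F ω - v ω
  have d6 := nrm_mono nF
  rw [r1]; linarith

/-- one step of the killing path. -/
theorem kill_step {β : Type} [DecidableEq β] (hμ : Pr μ) (ψ : Ω → Prop) [DecidablePred ψ]
    (η : Ω → β) {c σ : ℝ} (hc : 0 < c) (h1 : c ≤ ex μ (ind ψ)) (hσ : 0 ≤ σ)
    (h2 : var μ (ap (ce μ η) (ind ψ)) ≤ σ ^ 2) (h : β → ℝ) (hh : ∀ b, |h b| ≤ 1) :
    |ex (fun ω => ind ψ ω * μ ω / ex μ (ind ψ)) (fun ω => h (η ω)) - ex μ fun ω => h (η ω)| ≤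
      σ / c := by
  have h3 := abs_cond_sub hμ ψ η (h := fun ω => h (η ω)) (fun _ _ e => by rw [e]) fun _ => hh _
  have h4 : 0 < ex μ (ind ψ) := hc.trans_le h1
  have e : ex (fun ω => ind ψ ω * μ ω / ex μ (ind ψ)) (fun ω => h (η ω)) =
      ex μ (fun ω => ind ψ ω * h (η ω)) / ex μ (ind ψ) := by
    generalize ex μ (ind ψ) = z
    rw [ex, ex, sum_div]; exact sum_congr rfl fun _ _ => by ring
  rw [e, div_sub' h4.ne', abs_div, abs_of_pos h4]
  exact div_le_div₀ hσ (h3.trans (Real.sqrt_le_iff.2 ⟨hσ, h2⟩)) hc h1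

/-! ### the dilute gas -/

section Gas
variable {Λ : Type} [Fintype Λ] [DecidableEq Λ] {w : Finset Λ → ℝ} {Lg : Finset Λ}
  {gd : Finset Λ → Prop} [DecidablePred gd] {p : ℝ}

/-- classes: good states modulo the loops in `Lg`; the other states are frozen. -/
def gasK (Lg : Finset Λ) (gd : Finset Λ → Prop) [DecidablePred gd] (A : Finset Λ) :
    Finset Λ ⊕ Finset Λ := if gd A then Sum.inl (A \ Lg) else Sum.inr A

lemma gas_shift (hd : ∀ A g, gd A → g ∈ Lg → gd (A.erase g))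
    (hp : ∀ A, gd A → ∑ g ∈ Lg \ A, ind gd (insert g A) * w (insert g A) ≤ p * w A)
    {Φ : Finset Λ → ℝ} (hΦ : ∀ A, 0 ≤ Φ A) :
    ∑ A, ∑ g ∈ A ∩ Lg, ind gd A * w A * Φ (A.erase g) ≤ p * ∑ A, ind gd A * w A * Φ A := by
  have e : ∑ A, ∑ g ∈ A ∩ Lg, ind gd A * w A * Φ (A.erase g) =
      ∑ A, ∑ g ∈ Lg \ A, ind gd (insert g A) * w (insert g A) * Φ A := by
    rw [sum_sigma', sum_sigma']
    refine sum_bij' (fun x _ => ⟨x.1.erase x.2, x.2⟩) (fun x _ => ⟨insert x.2 x.1, x.2⟩)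
      ?_ ?_ ?_ ?_ ?_
    · simp +contextual
    · simp +contextual
    · rintro ⟨A, g⟩ h
      simp only [mem_sigma, mem_inter] at h
      simp [insert_erase h.2.1]
    · rintro ⟨A, g⟩ h
      simp only [mem_sigma, mem_sdiff] at h
      simp [erase_insert h.2.2]
    · rintro ⟨A, g⟩ h
      simp only [mem_sigma, mem_inter] at h
      simp [insert_erase h.2.1]
  rw [e, mul_sum]
  refine sum_le_sum fun A _ => ?_
  rw [← sum_mul]
  by_cases hA : gd A
  · simp only [ind, hA, if_true, one_mul, ← mul_assoc]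
    exact mul_le_mul_of_nonneg_right (hp A hA) (hΦ A)
  · rw [sum_eq_zero fun g hg => ?_]
    · simp [ind, hA]
    · rw [mem_sdiff] at hg
      rw [ind, if_neg fun h => hA (by simpa [erase_insert hg.2] using hd _ g h hg.1), zero_mul]

/-- the residual of the gas projection is bounded by the birth-death form of the long loops. -/
theorem gas_res (hw : ∀ A, 0 ≤ w A) (hd : ∀ A g, gd A → g ∈ Lg → gd (A.erase g)) (hp4 : p ≤ 1 / 4)
    (hp : ∀ A, gd A → ∑ g ∈ Lg \ A, ind gd (insert g A) * w (insert g A) ≤ p * w A)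
    (F : Finset Λ → ℝ) : nsq w (fun A => F A - ap (ce w (gasK Lg gd)) F A) ≤
      4 * ex w fun A => ∑ g ∈ A ∩ Lg, (F A - F (A.erase g)) ^ 2 := by
  set Φ : Finset Λ → ℝ := fun A => (F A - F (A \ Lg)) ^ 2 with hΦ
  set S := ∑ A, ind gd A * w A * Φ A with hS
  have S0 : 0 ≤ S :=
    sum_nonneg fun A _ => mul_nonneg (mul_nonneg (ind_nn _ _) (hw A)) (sq_nonneg _)
  have h1 : nsq w (fun A => F A - ap (ce w (gasK Lg gd)) F A) ≤ S := by
    refine (res_ce_le hw (g := fun A => if gd A then F (A \ Lg) else F A) (fun A B h => ?_) F).trans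
      (le_of_eq (sum_congr rfl fun A _ => ?_))
    · unfold gasK at h
      split_ifs at h with a b b
      · simp only [Sum.inl.injEq] at h; simp [a, b, h]
      · simp only [Sum.inr.injEq] at h; simp [h]
    · simp only [hΦ, ind]; split_ifs <;> simp
  have h2 := gas_shift hd hp (Φ := Φ) fun _ => sq_nonneg _
  have h3 : S ≤ 2 * ex w (fun A => ∑ g ∈ A ∩ Lg, (F A - F (A.erase g)) ^ 2) +
      2 * ∑ A, ∑ g ∈ A ∩ Lg, ind gd A * w A * Φ (A.erase g) := by
    rw [ex, mul_sum, mul_sum, ← sum_add_distrib]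
    refine sum_le_sum fun A _ => ?_
    have iw : 0 ≤ ind gd A * w A := mul_nonneg (ind_nn _ _) (hw A)
    have iw' : ind gd A * w A ≤ w A := mul_le_of_le_one_left (hw A) (ind_le_one _ _)
    have a0 : 0 ≤ ∑ g ∈ A ∩ Lg, (F A - F (A.erase g)) ^ 2 := sum_nonneg fun _ _ => sq_nonneg _
    rw [← mul_sum]
    have key : Φ A ≤ 2 * ∑ g ∈ A ∩ Lg, (F A - F (A.erase g)) ^ 2 +
        2 * ∑ g ∈ A ∩ Lg, Φ (A.erase g) := by
      rcases (A ∩ Lg).eq_empty_or_nonempty with h | ⟨g, hg⟩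
      · have : A \ Lg = A := sdiff_eq_self_of_disjoint (disjoint_iff_inter_eq_empty.2 h)
        simp [hΦ, this, h]
      · have b1 := single_le_sum (f := fun g => (F A - F (A.erase g)) ^ 2)
          (fun _ _ => sq_nonneg _) hg
        have b2 := single_le_sum (f := fun g => Φ (A.erase g)) (fun _ _ => sq_nonneg _) hg
        have b3 : A.erase g \ Lg = A \ Lg := by
          ext x; simp only [mem_sdiff, mem_erase]
          exact ⟨fun h => ⟨h.1.2, h.2⟩, fun h => ⟨⟨fun e => h.2 (e ▸ (mem_inter.1 hg).2), h.1⟩, h.2⟩⟩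
        simp only [hΦ, b3] at b2 ⊢
        nlinarith [sq_nonneg (F A - F (A.erase g) - (F (A.erase g) - F (A \ Lg)))]
    nlinarith [mul_le_mul_of_nonneg_left key iw, mul_le_mul_of_nonneg_right iw' a0]
  rw [← hS] at h2
  nlinarith

/-- inside a good class a long loop is present with probability `≤ p`. -/
theorem gas_long (hw : ∀ A, 0 ≤ w A) (hd : ∀ A g, gd A → g ∈ Lg → gd (A.erase g))
    (hp : ∀ A, gd A → ∑ g ∈ Lg \ A, ind gd (insert g A) * w (insert g A) ≤ p * w A)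
    {A0 : Finset Λ} (h0 : w A0 ≠ 0) (hg : gd A0) :
    ex (cond w (gasK Lg gd) (gasK Lg gd A0)) (ind fun A => ¬A ∩ Lg = ∅) ≤ p := by
  have hm := mass_ne (π := gasK Lg gd) hw h0
  have hm0 := (mass_nn (π := gasK Lg gd) hw _).lt_of_ne' hm
  have h2 := gas_shift hd hp (Φ := ind fun A => A \ Lg = A0 \ Lg) (ind_nn _)
  have e : ∀ A, (gasK Lg gd A = gasK Lg gd A0) ↔ gd A ∧ A \ Lg = A0 \ Lg := fun A => by
    unfold gasK; rw [if_pos hg]; split_ifs with h <;> simp [h]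
  refine le_of_mul_le_mul_left ?_ hm0
  rw [mass_mul_ex_cond hm, mul_comm]
  refine le_trans (sum_le_sum fun A _ => ?_) (h2.trans_eq ?_)
  · simp only [e]
    split_ifs with h
    · rcases (A ∩ Lg).eq_empty_or_nonempty with h' | ⟨g, hg'⟩
      · simp [ind, h']
      · refine le_trans ?_ (single_le_sum (f := fun g => ind gd A * w A *
          ind (fun A => A \ Lg = A0 \ Lg) (A.erase g)) (fun _ _ =>
          mul_nonneg (mul_nonneg (ind_nn _ _) (hw A)) (ind_nn _ _)) hg')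
        have b3 : A.erase g \ Lg = A \ Lg := by
          ext x; simp only [mem_sdiff, mem_erase]
          exact ⟨fun h => ⟨h.1.2, h.2⟩,
            fun h => ⟨⟨fun e => h.2 (e ▸ (mem_inter.1 hg').2), h.1⟩, h.2⟩⟩
        simp only [ind, h.1, b3, h.2, if_true, one_mul, mul_one]
        split_ifs <;> simp [hw A]
    · exact sum_nonneg fun _ _ => mul_nonneg (mul_nonneg (ind_nn _ _) (hw A)) (ind_nn _ _)
  · congr 1
    refine sum_congr rfl fun A _ => ?_
    simp only [e, ind]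
    by_cases a : gd A <;> by_cases b : A \ Lg = A0 \ Lg <;> simp [a, b]

end Gas

end Crest.Agent.N337.Op
end

-- ▼ part N337/B/Path
section

/-!
# Row 337, move (b): the killing path
-/

set_option autoImplicit false
set_option linter.unusedSectionVars false

namespace Crest.Agent.N337.Ex

open Finset Equiv Crest.Agent.N337.Rep Crest.Agent.N337.LY0 Crest.Agent.N337.A
  Crest.Agent.N337.Gas Crest.Agent.N337.Pc

section op
variable {Ω κ κ' : Type} [Fintype Ω] [DecidableEq Ω] [DecidableEq κ] [DecidableEq κ'] {μ : Ω → ℝ}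
  {π : Ω → κ} {π' : Ω → κ'}

lemma ex_cond_tower (hμ : ∀ ω, 0 ≤ μ ω) (h : ∀ ω ω', π ω = π ω' → π' ω = π' ω') (c : κ')
    (f : Ω → ℝ) : Op.ex (Op.cond μ π' c) (Op.ap (Op.ce μ π) f) = Op.ex (Op.cond μ π' c) f := by
  have e : ∀ f : Ω → ℝ, Op.ex (Op.cond μ π' c) f =
      Op.ex μ fun ω => (if π' ω = c then 1 / Op.mass μ π' c else 0) * f ω := fun f =>
    sum_congr rfl fun ω _ => by
      unfold Op.cond; beta_reduce; split_ifs <;> ring
  rw [e, e, Op.ex_mul_ce hμ fun a b hab => by rw [h a b hab]]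

/-- variance of a conditional expectation, split along a coarser partition. -/
lemma var_tower (hμ : Op.Pr μ) (h : ∀ ω ω', π ω = π ω' → π' ω = π' ω') (f : Ω → ℝ) :
    Op.var μ (Op.ap (Op.ce μ π) f) = Op.var μ (Op.ap (Op.ce μ π') f) +
      Op.ex μ fun ω => Op.var (Op.cond μ π' (π' ω)) (Op.ap (Op.ce μ π) f) := by
  rw [(Op.proj_ce hμ.nn π').var_split hμ, Op.res_ce hμ.nn, add_comm]
  congr 1
  exact Op.var_congr fun ω a => by
    rw [Op.ap_ce_ae hμ.nn _ a, Op.ap_ce_ae hμ.nn _ a, ex_cond_tower hμ.nn h]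

lemma abs_ex_le_one (hμ : Op.Pr μ) {f : Ω → ℝ} (h : ∀ ω, |f ω| ≤ 1) : |Op.ex μ f| ≤ 1 := by
  have h1 := Op.ex_mono hμ.nn fun ω => (abs_le.1 (h ω)).1
  have h2 := Op.ex_mono hμ.nn fun ω => (abs_le.1 (h ω)).2
  rw [hμ.ex_const] at h1 h2
  exact abs_le.2 ⟨h1, h2⟩

lemma var_le_one (hμ : Op.Pr μ) {f : Ω → ℝ} (h : ∀ ω, |f ω| ≤ 1) : Op.var μ f ≤ 1 := by
  refine (hμ.var_le f).trans ?_
  rw [Op.nsq_eq_ex, ← hμ.ex_const 1]
  exact Op.ex_mono hμ.nn fun ω => by rw [← sq_abs]; exact pow_le_one₀ (abs_nonneg _) (h ω)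

lemma abs_ind_le {α : Type} (S : α → Prop) [DecidablePred S] (a : α) : |Op.ind S a| ≤ 1 := by
  rw [abs_of_nonneg (Op.ind_nn _ _)]; exact Op.ind_le_one _ _

lemma ex_ind_not (hμ : Op.Pr μ) (S : Ω → Prop) [DecidablePred S] :
    Op.ex μ (Op.ind fun ω => ¬S ω) = 1 - Op.ex μ (Op.ind S) := by
  rw [← hμ.ex_compl]; congr 1; funext ω; by_cases hs : S ω <;> simp [Op.ind, hs]

lemma var_ce_ind (hμ : Op.Pr μ) (S : Ω → Prop) [DecidablePred S] (π : Ω → κ) :
    Op.var μ (Op.ap (Op.ce μ π) (Op.ind S)) ≤ Op.ex μ (Op.ind fun ω => ¬S ω) := by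
  have h1 := (Op.proj_ce hμ.nn π).var_split hμ (Op.ind S)
  have h2 := Op.nsq_nn hμ.nn fun ω => Op.ind S ω - Op.ap (Op.ce μ π) (Op.ind S) ω
  have h3 := hμ.var_le_sub (Op.ind S) 1
  have h4 : (Op.nsq μ fun ω => Op.ind S ω - 1) = Op.ex μ (Op.ind fun ω => ¬S ω) := by
    rw [Op.nsq_eq_ex]; congr 1; funext ω; by_cases hs : S ω <;> simp [Op.ind, hs]
  linarith

end op

variable {Λ : Type} [Fintype Λ] [DecidableEq Λ] {T : ℕ} [NeZero T] {ex ey : Fin T → Λ}
  {d : Λ → Λ → ℕ} {M : Mdl T Λ} {S : Finset Λ} {Tf δ y : ℝ} {K : ℕ → ℝ} {v g : ℕ → ℕ}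
  {N m f D : ℕ} {r : Fin T × Λ → ℝ} {U : Finset (Fin T × Λ)}

lemma law_chd_supp {x A : Finset (Lp T Λ)} (hx : qq ex ey M.p x ≠ 0)
    (hA : law ex ey (chd ex ey M U x) A ≠ 0) : qq ex ey M.p (x ∪ A) ≠ 0 := by
  have := (nu_supp hA).1
  simp only [chd, ← sh_qq hx, sh] at this
  exact (div_ne_zero_iff.1 this).1

lemma filter_HiOr {H : Finset (Lp T Λ × Bool)} (hH : ∀ z ∈ H, HiOr ∅ z) (A : Finset (Lp T Λ)) :
    (H ∪ lb A).filter (HiOr U) = H ∪ lb (A.filter (Hit U)) := by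
  ext z
  simp only [mem_filter, mem_union, mem_lb, HiOr]
  have := hH z
  simp only [HiOr, Hit, notMem_empty, and_false, exists_false, or_false] at this
  cases h : z.2 <;> simp_all

lemma filter_HitL (B : Finset (Lp T Λ × Bool)) :
    B.filter (HitL U) = ∅ ↔ (fg B).filter (Hit U) = ∅ := by
  rw [← fg_filter, fg, image_eq_empty]; rfl

lemma ind_HitL (U : Finset (Fin T × Λ)) : (Op.ind fun B : Finset (Lp T Λ × Bool) =>
    B.filter (HitL U) = ∅) = fun B => Op.ind (fun A => A.filter (Hit U) = ∅) (fg B) := by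
  funext B; simp only [Op.ind, filter_HitL]

/-- **B5**: far medium loops do not matter for a local observable. -/
theorem var_eta (h : Tow ex ey d M S Tf δ K v g N m f D) (hM : M.Ok 1)
    (hr : ∀ u, 0 ≤ r u ∧ r u ≤ 1) (hL : (low r M).Ok (Real.exp (-1 / Tf)))
    (hs : Slow ex ey d (Cheap ex ey d M) (fun u => M.b u ≠ 0) (v 0)) {C : Finset Λ}
    {ψ : Finset (Lp T Λ) → ℝ} (h1 : ∀ A, |ψ A| ≤ 1)
    (hψ : ∀ H A, ψ (H ∪ A.filter (Hit (cyl (nbd d (2 * D + 1) (nbd d D C))ᶜ))) = ψ (H ∪ A)) :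
    Op.var (law2 ex ey r M) (Op.ap (Op.ce (law2 ex ey r M) (filter (HiOr (cyl C)))) fun B => ψ (fg B))
      ≤ Op.var (law2 ex ey r M) (Op.ap (Op.ce (law2 ex ey r M) hi) fun B => ψ (fg B)) + 34 * δ := by
  classical
  have hμ := pr_law2 (ex := ex) (ey := ey) hM hr
  rw [var_tower (π' := hi) hμ fun a b hab => by
    have e : ∀ a : Finset (Lp T Λ × Bool), hi a = hi (a.filter (HiOr (cyl C))) := fun a => by
      ext z; simp only [hi, mem_filter, HiOr]; tauto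
    rw [e a, e b, hab]]
  refine add_le_add le_rfl ?_
  have h2 := fast_law h hM zero_le_one (by omega : 0 < 4) hs
  rw [← ex_law2 r] at h2
  have h3 : Op.ex (law2 ex ey r M) (fun B => 33 * δ +
      Op.ind (fun A => ¬SlowG ex ey d M (v (0 + 1)) A) (fg B)) ≤ 34 * δ := by
    rw [Op.ex_add, hμ.ex_const]; linarith
  refine le_trans (Op.ex_mono_ae hμ.nn fun B hB => ?_) h3
  have hm := Op.mass_ne (π := hi) hμ.nn hB
  have h0 := h.δ0
  by_cases hS : SlowG ex ey d M (v (0 + 1)) (fg B)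
  swap
  · refine (var_le_one (Op.pr_cond hμ.nn hm) fun B' => ?_).trans (by simp [Op.ind, hS]; linarith)
    exact abs_ex_le_one (Op.pr_ce hμ.nn B') fun _ => h1 _
  rw [Op.var_congr (g := fun B' => Op.ex (law ex ey (chd ex ey (low r M) (cyl C)
    (fg (B'.filter (HiOr (cyl C)))))) fun A => ψ (fg (B'.filter (HiOr (cyl C))) ∪ A)) fun B' a => by
      have a' := (Op.cond_supp a).2
      rw [Op.ap_ce_ae hμ.nn _ a', ex_condH hM hr (Op.mass_ne hμ.nn a')]
      simp only [fg_union, fg_lb]]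
  rw [hi_eq] at hm ⊢
  obtain ⟨q1, q2⟩ := mass2_supp hM hm
  rw [var_condH hM hr hm]
  set H := B.filter (HiOr ∅)
  have hL' := ok_chd (ex := ex) (ey := ey) hL ∅ (fg H)
  have h4 := loc_var (h.sub hM ((sub_chd _ ∅ (fg H)).trans (sub_low r M))) hL'
    (hS.chd (M' := low r M) (fg_mono (filter_subset _ _)) rfl (sub_low r M).2 ∅) (C := C)
    (ψ := fun A => ψ (fg H ∪ A)) (fun _ => h1 _) (hψ _)
  refine le_trans (le_of_eq (Op.var_congr fun A hA => ?_)) (h4.trans (by simp [Op.ind, hS]))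
  have q3 : qq ex ey (low r M).p (fg H ∪ A.filter (Hit (cyl C))) ≠ 0 :=
    (cpt_M hL).ne_of_sub (union_subset_union_right (filter_subset _ _)) (law_chd_supp q1 hA)
  rw [Op.ap_ce_ae (pr_law hL').nn _ hA, ex_cond_law hL' (Op.mass_ne (pr_law hL').nn hA),
    chd_chd q3, empty_union, filter_HiOr q2, fg_union, fg_lb]
  simp only [union_assoc]

lemma top_insert (a : Λ) (U : Finset Λ) :
    (top (insert a U) : Finset (Fin T × Λ)) = top U ∪ {(0, a)} := by
  ext ⟨s, x⟩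
  simp only [top, mem_filter, mem_univ, true_and, mem_insert, mem_union, mem_singleton, Prod.mk.injEq]
  tauto

/-- killing time-`0` points one by one. -/
theorem chain {β : Type} [DecidableEq β] (hM : M.Ok y) (hr : ∀ u, 0 ≤ r u ∧ r u ≤ 1)
    (η : Finset (Lp T Λ × Bool) → β) {W : Finset Λ} {σ : ℝ} (hσ : 0 ≤ σ)
    (h : ∀ U ⊆ W, ∀ a ∈ W, Op.var (law2 ex ey r (kil M (top U)))
      (Op.ap (Op.ce (law2 ex ey r (kil M (top U))) η)
        (Op.ind fun B => B.filter (HitL {(0, a)}) = ∅)) ≤ σ ^ 2)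
    (φ : β → ℝ) (hφ : ∀ b, |φ b| ≤ 1) (U : Finset Λ) (hU : U ⊆ W) :
    |Op.ex (law2 ex ey r (kil M (top U))) (fun B => φ (η B)) -
      Op.ex (law2 ex ey r M) fun B => φ (η B)| ≤ U.card * (2 * σ) := by
  induction U using Finset.induction_on with
  | empty =>
    have : (top ∅ : Finset (Fin T × Λ)) = ∅ := by simp [top]
    simp [this, kil_empty]
  | insert a U ha ih =>
    have h1 := ih ((subset_insert _ _).trans hU)
    have hM' := ok_kil hM (top U)
    have h2 := Op.kill_step (pr_law2 hM' hr) _ η (c := 1 / 2) (by norm_num)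
      (by rw [ind_HitL, ex_law2]; exact avoid_half hM' _) hσ
      (h U ((subset_insert _ _).trans hU) a (hU (mem_insert_self _ _))) φ hφ
    rw [← law2_kil hM' hr, kil_kil, ← top_insert] at h2
    rw [card_insert_of_notMem ha]
    push_cast
    linarith [abs_sub_le (Op.ex (law2 ex ey r (kil M (top (insert a U)))) fun B => φ (η B))
      (Op.ex (law2 ex ey r (kil M (top U))) fun B => φ (η B))
      (Op.ex (law2 ex ey r M) fun B => φ (η B))]

/-- the last step: from the time-`0` points to the cylinder. -/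
theorem last {β : Type} [DecidableEq β] (h : Tow ex ey d M S Tf δ K v g N m f D) (hM : M.Ok 1)
    (hr : ∀ u, 0 ≤ r u ∧ r u ≤ 1)
    (hs : Slow ex ey d (Cheap ex ey d M) (fun u => M.b u ≠ 0) (v 0)) {W : Finset Λ}
    (hW : ∀ a ∈ W, ∀ x, d a x ≤ v 1 → M.b (0, x) = 0) (η : Finset (Lp T Λ × Bool) → β)
    (φ : β → ℝ) (hφ : ∀ b, |φ b| ≤ 1) :
    |Op.ex (law2 ex ey r (kil M (cyl W))) (fun B => φ (η B)) -
      Op.ex (law2 ex ey r M) fun B => φ (η B)| ≤ 2 * Real.sqrt δ := by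
  classical
  have hμ := pr_law2 (ex := ex) (ey := ey) hM hr
  have h1 : Op.ex (law2 ex ey r M) (Op.ind fun B => ¬B.filter (HitL (cyl W)) = ∅) ≤ δ := by
    refine le_trans ?_ (fast_law h hM zero_le_one (by omega : 0 < 4) hs)
    rw [ex_ind_not hμ, ind_HitL, ex_law2, ← ex_ind_not (pr_law hM)]
    refine Op.ex_mono_ae (pr_law hM).nn fun A hA => ?_
    by_cases a : SlowG ex ey d M (v (0 + 1)) A
    · have b : A.filter (Hit (cyl W)) = ∅ := filter_eq_empty_iff.2 fun l hl ⟨u, u1, u2⟩ => by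
        obtain ⟨x, x1, x2⟩ := reach hA a hl u1
        exact prod_ne_zero_iff.1 ((nu_supp hA).2 l hl) _ x1 (hW _ (mem_cyl.1 u2) x x2)
      rw [Op.ind, if_neg (not_not.2 b)]
      exact Op.ind_nn _ _
    · exact (Op.ind_le_one _ _).trans (by simp [Op.ind, a])
  have h2 := Op.kill_step hμ (fun B => B.filter (HitL (cyl W)) = ∅) η (c := 1 / 2) (by norm_num)
    (by rw [ex_ind_not hμ] at h1; linarith [h.δ1]) (Real.sqrt_nonneg δ)
    (by rw [Real.sq_sqrt h.δ0.le]; exact (var_ce_ind hμ _ _).trans h1) φ hφ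
  rw [← law2_kil hM hr] at h2
  linarith

/-- after killing the neighbourhood of a family its pins are invisible. -/
lemma law2_forget (hd : Met ex ey d) {x : Finset (Lp T Λ)} {W W' : Finset Λ}
    (hx : ∀ u ∈ pts x, u.2 ∈ W) (hW : nbd d 1 W ⊆ W') (hU : cyl W' ⊆ U) :
    law2 ex ey r (chd ex ey M U x) = law2 ex ey r (kil M U) := by
  have h0 : ∀ a ∈ W, a ∈ W' := fun a ha => hW (mem_nbd.2 ⟨a, ha, by rw [hd.1]; omega⟩)
  have e : U ∪ pts x = U := union_eq_left.2 fun u hu => hU (mem_cyl.2 (h0 _ (hx u hu)))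
  rw [law2, law2, chd, e, kil, w2_kill r _ M.p, w2_kill r M.p M.p]
  refine nu_congr_q fun A hA => ?_
  unfold qL
  split_ifs
  · refine qq_congr fun s hs => if_neg fun ht => ?_
    obtain ⟨l, hl, hs⟩ := tch_pts.1 hs
    obtain ⟨c, hc⟩ := mem_fg.1 hl
    have k : ∀ a, (s, a) ∈ l.2 → (a = ex s ∨ a = ey s) → False := fun a h1 h2 =>
      hA _ hc (if_pos ⟨_, h1, hU (mem_cyl.2 (hW (mem_nbd.2 (ht.elim
        (fun b => ⟨_, hx _ b, hd.ends h2 (Or.inl rfl)⟩)
        fun b => ⟨_, hx _ b, hd.ends h2 (Or.inr rfl)⟩))))⟩)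
    exact hs.elim (fun a => k _ a (Or.inl rfl)) fun a => k _ a (Or.inr rfl)
  · rfl

end Crest.Agent.N337.Ex
end

-- ▼ part N337/B/Main
section

/-!
# Row 337, move (b): the excision
-/

set_option autoImplicit false
set_option linter.unusedSectionVars false

namespace Crest.Agent.N337.Ex

open Finset Equiv Crest.Agent.N337.Rep Crest.Agent.N337.LY0 Crest.Agent.N337.A
  Crest.Agent.N337.Gas Crest.Agent.N337.Pc

section gas
variable {Γ : Type} [Fintype Γ] [DecidableEq Γ] {q : Finset Γ → ℝ} {u : Γ × Bool → ℝ}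

lemma up_nn (hq : Cpt q) (w : Finset Γ) (g : Γ) : 0 ≤ up q w g := by
  unfold up; split_ifs
  exacts [le_rfl, div_nonneg (hq.nn _) (hq.nn _)]

/-- births in a labelled gas. -/
lemma nu_insert_le (hq : Cpt q) (hu : ∀ z, 0 ≤ u z) {A : Finset (Γ × Bool)} {z : Γ × Bool}
    (hz : z ∉ A) : nu (qL q) u (insert z A) ≤ nu (qL q) u A * (u z * up q (fg A) z.1) := by
  have h0 := mul_nonneg (nu_nn hq.qL hu A) (mul_nonneg (hu z) (up_nn hq (fg A) z.1))
  by_cases h : qL q (insert z A) = 0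
  · rwa [nu, gw, h, zero_mul, zero_div]
  have hA := hq.qL.ne_of_sub (subset_insert z A) h
  have h1 : z.1 ∉ fg A := fun a => by
    obtain ⟨c, hc⟩ := mem_fg.1 a
    exact hz ((qL_supp h).1 _ (mem_insert_of_mem hc) z (mem_insert_self _ _) rfl ▸ hc)
  rw [nu, nu, gw_insert hz hA, up, if_neg h1, sh, sh, union_comm A, ← insert_eq, qL,
    if_pos (qL_supp h).1, qL, if_pos (qL_supp hA).1, insert_eq, fg_union, union_comm]
  exact le_of_eq (by simp only [fg, image_singleton]; ring)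

end gas

variable {Λ : Type} [Fintype Λ] [DecidableEq Λ] {T : ℕ} [NeZero T] {ex ey : Fin T → Λ}
  {d : Λ → Λ → ℕ} {M : Mdl T Λ} {S Zs C : Finset Λ} {Tf δ σ e : ℝ} {K : ℕ → ℝ} {v g : ℕ → ℕ}
  {R N m f D : ℕ} {r : Fin T × Λ → ℝ} {gx gd : Finset (Lp T Λ × Bool) → Prop}

lemma mem_top {U : Finset Λ} {a : Λ} : ((0, a) : Fin T × Λ) ∈ top U ↔ a ∈ U := by simp [top]

lemma Exc.slow' {v0 v1 : ℕ} (E : Exc ex ey d r M Zs C gx gd R v0 v1 D δ σ e)
    {x : Finset (Lp T Λ × Bool)} (h1 : gx x) (h2 : qq ex ey M.p (fg x) ≠ 0)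
    (h3 : ∀ z ∈ x, HitL (cyl Zs) z ∧ ¬Lng d Zs R z) (U : Finset (Fin T × Λ)) :
    Slow ex ey d (Cheap ex ey d (chd ex ey M (cyl Zs ∪ U) (fg x)))
      (fun u => (chd ex ey M (cyl Zs ∪ U) (fg x)).b u ≠ 0) v0 :=
  Slow.mono' (E.slow x h1 h2 h3) le_rfl (fun u a => by
    rw [← kil_chd] at a; exact (kill_ne a).2) fun _ _ _ _ a => a

lemma ind_loc {U : Finset (Fin T × Λ)} {u : Fin T × Λ} (hu : u ∈ U) (H A : Finset (Lp T Λ)) :
    Op.ind (fun A : Finset (Lp T Λ) => A.filter (Hit {u}) = ∅) (H ∪ A.filter (Hit U)) =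
      Op.ind (fun A : Finset (Lp T Λ) => A.filter (Hit {u}) = ∅) (H ∪ A) := by
  have b3 : (H ∪ A.filter (Hit U)).filter (Hit {u}) = (H ∪ A).filter (Hit {u}) := by
    ext l
    simp only [mem_filter, mem_union]
    exact and_congr_left fun ⟨w, u1, u2⟩ => or_congr_right
      (and_iff_left ⟨w, u1, mem_singleton.1 u2 ▸ hu⟩)
  simp only [Op.ind, b3]

lemma var_pt (hM : M.Ok 1) (hr : ∀ u, 0 ≤ r u ∧ r u ≤ 1)
    (hL : (low r M).Ok (Real.exp (-1 / Tf))) (h : Tow ex ey d M S Tf δ K v g N m f D)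
    (E : Exc ex ey d r M Zs C gx gd R (v 0) (v 1) D δ σ e) {x : Finset (Lp T Λ × Bool)}
    (h1 : gx x) (h2 : qq ex ey M.p (fg x) ≠ 0) (h3 : ∀ z ∈ x, HitL (cyl Zs) z ∧ ¬Lng d Zs R z)
    (U : Finset Λ) (hU : U ⊆ nbd d (R + 1 + v 1) Zs) (a : Λ) (ha : a ∈ nbd d (R + 1 + v 1) Zs) :
    Op.var (law2 ex ey r (kil (chd ex ey M (cyl Zs) (fg x)) (top U)))
      (Op.ap (Op.ce (law2 ex ey r (kil (chd ex ey M (cyl Zs) (fg x)) (top U)))
        (filter (HiOr (cyl C)))) (Op.ind fun B => B.filter (HitL {(0, a)}) = ∅)) ≤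
      (σ + 6 * Real.sqrt δ) ^ 2 := by
  have t := h.met.2.2.1
  have b1 := E.peel x h1 h2 h3 U hU a ha
  have b2 : (0, a) ∈ (cyl (nbd d (2 * D + 1) (nbd d D C))ᶜ : Finset (Fin T × Λ)) := by
    refine mem_cyl.2 (mem_compl.2 fun b => ?_)
    simp only [mem_nbd] at b ha
    obtain ⟨c', ⟨c, hc, d1⟩, d2⟩ := b
    obtain ⟨z, hz, d3⟩ := ha
    have := E.far z hz c hc
    have := t c c' z
    have := t c' a z
    have := h.met.2.1 c c'
    have := h.met.2.1 a c'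
    omega
  have b3 : (low r (chd ex ey M (cyl Zs ∪ top U) (fg x))).Ok (Real.exp (-1 / Tf)) := by
    rw [low_chd]; exact ok_chd hL _ _
  have b4 := var_eta (h.sub hM (sub_chd _ _ _)) (ok_chd hM _ _) hr b3 (E.slow' h1 h2 h3 (top U))
    (abs_ind_le _) (ind_loc b2)
  rw [← ind_HitL] at b4
  rw [kil_chd]
  refine b4.trans ((add_le_add b1 le_rfl).trans ?_)
  nlinarith [Real.sq_sqrt h.δ0.le, E.σ0, h.δ0, Real.sqrt_nonneg δ]

/-- **B4**: the law of `η` hardly depends on a short good `X`. -/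
theorem tv_one (hM : M.Ok 1) (hr : ∀ u, 0 ≤ r u ∧ r u ≤ 1)
    (hL : (low r M).Ok (Real.exp (-1 / Tf))) (h : Tow ex ey d M S Tf δ K v g N m f D)
    (E : Exc ex ey d r M Zs C gx gd R (v 0) (v 1) D δ σ e) {x : Finset (Lp T Λ × Bool)}
    (h1 : gx x) (h2 : qq ex ey M.p (fg x) ≠ 0) (h3 : ∀ z ∈ x, HitL (cyl Zs) z ∧ ¬Lng d Zs R z)
    (φ : Finset (Lp T Λ × Bool) → ℝ) (hφ : ∀ b, |φ b| ≤ 1) :
    |Op.ex (law2 ex ey r (kil M (cyl Zs ∪ top (nbd d (R + 1 + v 1) Zs) ∪ cyl (nbd d (R + 1) Zs))))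
        (fun B => φ (B.filter (HiOr (cyl C)))) -
      Op.ex (law2 ex ey r (chd ex ey M (cyl Zs) (fg x))) fun B => φ (B.filter (HiOr (cyl C)))| ≤
      1 / 2 := by
  have t := h.met.2.2.1
  have s0 := Real.sqrt_nonneg δ
  have a1 := chain (ok_chd hM (cyl Zs) (fg x)) hr (filter (HiOr (cyl C))) (by linarith [E.σ0])
    (var_pt hM hr hL h E h1 h2 h3) φ hφ _ Subset.rfl
  rw [kil_chd] at a1
  have a2 := last (h.sub hM (sub_chd _ (cyl Zs ∪ top (nbd d (R + 1 + v 1) Zs)) (fg x)))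
    (ok_chd hM _ _) hr (E.slow' h1 h2 h3 _) (W := nbd d (R + 1) Zs) (fun a ha b hb => by
      refine if_pos (mem_union_left _ (mem_union_right _ (mem_top.2 ?_)))
      obtain ⟨z, hz, d1⟩ := mem_nbd.1 ha
      have := t b a z
      have := h.met.2.1 a b
      exact mem_nbd.2 ⟨z, hz, by omega⟩) (filter (HiOr (cyl C))) φ hφ
  rw [kil_chd, law2_forget h.met (W := nbd d R Zs) (W' := nbd d (R + 1) Zs) (fun u hu => ?_)
    (fun a ha => ?_) subset_union_right] at a2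
  · have := E.small
    rw [abs_le] at a1 a2 ⊢
    constructor <;> linarith [a1.1, a1.2, a2.1, a2.2]
  · obtain ⟨l, hl, u1⟩ := mem_pts.1 hu
    obtain ⟨c, hc⟩ := mem_fg.1 hl
    by_contra u2
    exact (h3 _ hc).2 ⟨(h3 _ hc).1, Or.inr ⟨u, u1, mem_cyl.2 (mem_compl.2 u2)⟩⟩
  · simp only [mem_nbd] at ha ⊢
    obtain ⟨b, ⟨z, hz, d1⟩, d2⟩ := ha
    exact ⟨z, hz, (t a b z).trans (by omega)⟩

/-- **the excision.** -/
theorem excise : ExcStmt := by
  intro Λ _ _ T _ ex ey d r M Zs C S gx gd Tf δ σ e K v g R N m f D hM hr hL h E F μ X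
  classical
  have hμ : Op.Pr μ := pr_law2 hM hr
  set Lg : Finset (Lp T Λ × Bool) := univ.filter (Lng d Zs R) with hLg
  have mL : ∀ z, z ∈ Lg ↔ Lng d Zs R z := fun z => by simp [hLg]
  have e0 : 0 ≤ e := (Op.ex_nn hμ.nn (Op.ind_nn _)).trans E.rare
  have hd : ∀ A z, gd A → z ∈ Lg → gd (A.erase z) := fun A z a _ => E.down A z a
  have hp : ∀ A, gd A → ∑ z ∈ Lg \ A, Op.ind gd (insert z A) * μ (insert z A) ≤ e * μ A := by
    intro A hA
    have k : ∑ z ∈ Lg \ A, Op.ind gd (insert z A) * μ (insert z A) ≤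
        μ A * ∑ z ∈ univ.filter (fun z => Lng d Zs R z ∧ gd (insert z A)),
          w2 r M z * up (qq ex ey M.p) (fg A) z.1 := by
      simp only [Op.ind, ite_mul, one_mul, zero_mul, ← sum_filter, mul_sum]
      refine (sum_le_sum fun z hz => nu_insert_le (cpt_M hM) (w2_nn hM hr)
        (mem_sdiff.1 (mem_filter.1 hz).1).2).trans
        (sum_le_sum_of_subset_of_nonneg (fun z hz => ?_) fun z _ _ =>
          mul_nonneg (hμ.nn A) (mul_nonneg (w2_nn hM hr z) (up_nn (cpt_M hM) _ _)))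
      rw [mem_filter, mem_sdiff, mL] at hz
      exact mem_filter.2 ⟨mem_univ _, hz.1.1, hz.2⟩
    by_cases h0 : μ A = 0
    · rwa [h0, zero_mul, ← mul_zero e, ← h0] at k
    · rw [mul_comm e]
      exact k.trans (mul_le_mul_of_nonneg_left (E.one A hA h0) (hμ.nn A))
  have sX : ∀ A, X A ∩ Lg = A ∩ Lg := fun A => by
    ext z
    simp only [X, mem_inter, mem_filter, mL]
    exact and_congr_left fun a => and_iff_left a.1
  have sh1 : ∀ x, x ∩ Lg = ∅ → (∀ z ∈ x, HitL (cyl Zs) z) →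
      ∀ z ∈ x, HitL (cyl Zs) z ∧ ¬Lng d Zs R z := fun x a b z hz =>
    ⟨b z hz, fun c => notMem_empty z (a ▸ mem_inter.2 ⟨hz, (mL z).2 c⟩)⟩
  have sh2 : ∀ x : Finset (Lp T Λ × Bool), (∀ z ∈ x, HitL (cyl Zs) z ∧ ¬Lng d Zs R z) → ∀ B,
      (x ∪ B).filter (HiOr (cyl C)) = B.filter (HiOr (cyl C)) := fun x a B => by
    rw [filter_union, filter_false_of_mem, empty_union]
    rintro z hz (b | ⟨u, u1, u2⟩)
    · exact (a z hz).2 ⟨(a z hz).1, Or.inl b⟩
    · refine (a z hz).2 ⟨(a z hz).1, Or.inr ⟨u, u1, mem_cyl.2 (mem_compl.2 fun c => ?_)⟩⟩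
      obtain ⟨y, hy, d1⟩ := mem_nbd.1 c
      have := E.far y hy _ (mem_cyl.1 u2)
      omega
  have hc := Op.exc_con hμ X (filter (HiOr (cyl C))) (Op.gasK Lg gd) gx (fun x => x ∩ Lg = ∅)
    (fun A => ¬gd A) E.e_le E.rare (fun x a b => by
      rw [ex_cond2 hM hr b]
      exact E.bad x a (mass2_supp hM b).1 (mass2_supp hM b).2)
    (fun A A' a b => by
      unfold Op.gasK at a
      rw [if_neg b] at a
      split_ifs at a
      exact Sum.inr.inj a)
    (fun A A' a b c => by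
      have k : ∀ A, X A ∩ Lg = ∅ → X A = X (A \ Lg) := fun A a => by
        ext z
        simp only [X, mem_filter, mem_sdiff]
        exact and_congr_left fun b => (and_iff_left_of_imp fun c d =>
          notMem_empty z (a ▸ mem_inter.2 ⟨mem_filter.2 ⟨c, b⟩, d⟩)).symm
      unfold Op.gasK at a
      split_ifs at a
      · rw [k A b, k A' c, Sum.inl.inj a]
      · rw [Sum.inr.inj a])
    (fun A a b => by
      refine le_trans (le_of_eq ?_) (Op.gas_long hμ.nn hd hp a (not_not.1 b))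
      congr 1; funext B; simp only [Op.ind, sX])
    (fun x x' a a' b b' φ hφ => by
      have c := sh1 x a.2 (mass2_supp hM b).2
      have c' := sh1 x' a'.2 (mass2_supp hM b').2
      have t1 := tv_one hM hr hL h E a.1 (mass2_supp hM b).1 c φ hφ
      have t2 := tv_one hM hr hL h E a'.1 (mass2_supp hM b').1 c' φ hφ
      rw [ex_cond2 hM hr b, ex_cond2 hM hr b']
      simp only [sh2 x c, sh2 x' c']
      rw [abs_le] at t1 t2 ⊢
      constructor <;> linarith [t1.1, t1.2, t2.1, t2.2])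
  have he := E.e_le
  have pP := Op.proj_ps hμ (S := fun A => ¬gx (X A)) (by linarith [E.rare])
  have hv := Op.var_le_word hμ (L := [_, _, _, _]) (by
      simp only [List.mem_cons, List.not_mem_nil, or_false]
      rintro _ (rfl | rfl | rfl | rfl)
      exacts [(Op.proj_ce hμ.nn _).ker, (Op.proj_ce hμ.nn _).ker, pP.ker, (Op.proj_ce hμ.nn _).ker])
    (by
      simp only [List.mem_cons, List.not_mem_nil, or_false]
      rintro _ (rfl | rfl | rfl | rfl)
      exacts [(Op.proj_ce hμ.nn _).ctr hμ.nn, (Op.proj_ce hμ.nn _).ctr hμ.nn, pP.ctr hμ.nn,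
        (Op.proj_ce hμ.nn _).ctr hμ.nn]) (by norm_num) (by norm_num) hc F
  simp only [List.map_cons, List.map_nil, List.sum_cons, List.sum_nil, List.length_cons,
    List.length_nil] at hv
  have r3 := (Op.gas_res hμ.nn hd (by linarith) hp F).trans (mul_le_mul_of_nonneg_left
    (show _ ≤ Dir μ F from Op.ex_mono hμ.nn fun A =>
      sum_le_sum_of_subset_of_nonneg inter_subset_left fun _ _ _ => sq_nonneg _) (by norm_num))
  have r2 := Op.res_ps_le hμ (S := fun A => ¬gx (X A)) (by linarith [E.rare]) F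
  have r1 : Op.nsq μ (fun A => F A - Op.ap (Op.ce μ (Op.hat X gx)) F A) =
      Op.ex μ fun A => if gx (X A) then
        Op.var (law2 ex ey r (chd ex ey M (cyl Zs) (fg (X A)))) (fun B => F (X A ∪ B)) else 0 := by
    rw [(Op.proj_ce hμ.nn _).res_eq (Op.ce_nn hμ.nn)]
    refine Op.ex_congr fun A a => ?_
    rw [Op.res_hat_row hμ.nn X gx a]
    split_ifs
    · exact var_cond2 hM hr (Op.mass_ne hμ.nn a) F
    · simp [Op.var, Op.nsq, Op.ex, Op.idk]
  rw [r1] at hv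
  push_cast at hv
  linarith

end Crest.Agent.N337.Ex
end

-- ▼ part N337/M/Exc

/-!
# Row 337, the chain: the excision as a stage
-/

set_option autoImplicit false
set_option linter.unusedSectionVars false

namespace Crest.Agent.N337.M

open Finset Crest.Agent.N337.Op Crest.Agent.N337.Gas Crest.Agent.N337.A Crest.Agent.N337.Ex

variable {Λ : Type} [Fintype Λ] [DecidableEq Λ] {T : ℕ} [NeZero T]

namespace Bs
variable (G : Bs T Λ)

open Classical in
/-- **junk side of the excision** of `cyl (Zs s.cv)`; `gx s x`: the revealed family is good,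
`gd s A`: the state is good. -/
structure ExcJ (y y' : ℝ) (In Pre : Cfg T Λ → Prop) (Zs : Finset Λ → Finset Λ) (R : ℕ)
    (gx gd : Cfg T Λ → Finset (Lp T Λ) → Prop) (ε π : ℝ) : Prop where
  pre : ∀ s x, In s → gx s x → Pre (s.rev x (cyl (Zs s.cv)))
  anti : ∀ s x0 x, gx (s.add x0) x → gx s x
  kil : ∀ s U, Pre s → Pre (s.rev ∅ U)
  down : ∀ s A B, B ⊆ A → gd s A → gd s B
  rare : ∀ s, G.Val s → In s →
    Op.ex (G.gs (yw y) s) (Op.ind fun w => ¬gx s (w.filter (Hit (cyl (Zs s.cv))))) ≤ ε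
  bad : ∀ s x, In s → gx s x → G.Val (s.add x) → (∀ g ∈ x, Hit (cyl (Zs s.cv)) g) →
    Op.ex (G.gs (yw y) (s.rev x (cyl (Zs s.cv)))) (Op.ind fun w => ¬gd s (x ∪ w)) ≤ 1 / 10000
  one : ∀ s A, In s → G.Val (s.add A) → gd s A →
    ∑ g ∈ univ.filter (fun g => Hit (cyl (Zs s.cv)) g ∧ gd s (insert g A)),
      (s.u (fun g => yw y g - yw y' g) g +
        if Hit (cyl (nbd G.d R (Zs s.cv))ᶜ) g then s.u (yw y') g else 0) * Pc.up (G.q s) A g ≤
      1 / 10000
  tch : ∀ s, G.Val s → Pre s → ∀ v,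
    G.hE (yw y) y' s (Op.ind fun A => ¬A.filter (Hit {v}) = ∅) ≤ π

/-- **geometry and numbers of the excision**; `(C s.cv)ᶜ` is the block that is heat bathed. -/
structure ExcG (In Pre : Cfg T Λ → Prop) (Zs C : Finset Λ → Finset Λ) (Tf δ σ : ℝ) (K : ℕ → ℝ)
    (v g : ℕ → ℕ) (R N m f D n σb : ℕ) : Prop where
  tow : Tow G.ex G.ey G.d ⟨G.p, fun _ => 0⟩ ∅ Tf δ K v g N m f D
  sup : ∀ s, In s → s.Sup N
  far : ∀ s, In s → ∀ z ∈ Zs s.cv, ∀ c ∈ C s.cv, R + v 1 + 3 * D + 3 ≤ G.d c z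
  blk : ∀ s, In s → G.Bk σb (s.Z ∪ cyl (C s.cv))
  card : ∀ s, In s → (nbd G.d (R + 1 + v 1) (Zs s.cv)).card ≤ n
  slow : ∀ s, Pre s → G.Sl (v 0) s
  σ0 : 0 ≤ σ
  small : n * (2 * (σ + 6 * Real.sqrt δ)) + 2 * Real.sqrt δ ≤ 1 / 2

end Bs

/-- **(Exc)** the excision as a stage. -/
def ExcStmt : Prop :=
  ∀ (Λ : Type) [Fintype Λ] [DecidableEq Λ] (T : ℕ) [NeZero T] (G : Bs T Λ) (y Tf : ℝ)
    (In Pre Out : Cfg T Λ → Prop) (Zs C : Finset Λ → Finset Λ)
    (gx gd : Cfg T Λ → Finset (Lp T Λ) → Prop) (δ σ ε ε' π κb : ℝ) (K : ℕ → ℝ) (v g : ℕ → ℕ)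
    (R N m f D n σb : ℕ), G.Ok → Real.exp (-1 / Tf) ≤ y → y ≤ 1 → ε ≤ 1 / 10000 → 0 ≤ κb →
    G.ExcJ y (Real.exp (-1 / Tf)) In Pre Zs R gx gd ε π →
    G.ExcG In Pre Zs C Tf δ σ K v g R N m f D n σb →
    G.LadH (yw y) (Real.exp (-1 / Tf)) Pre Out κb → G.StepH (yw y) (Real.exp (-1 / Tf)) Pre Out ε' →
    22 * π + 22 * κb + 400 * ε' ≤ σ ^ 2 → G.Stg (yw y) y In Pre σb 1600 2 (2 * ε)

/-! ### configurations and models -/

/-- the ratio of two fugacities. -/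
noncomputable def rr (y y' : ℝ) (v : Fin T × Λ) : ℝ := if v.1 = 0 then y' / y else 1

variable {G : Bs T Λ} {y y' : ℝ} {s : Cfg T Λ} {x : Finset (Lp T Λ)} {U : Finset (Fin T × Λ)}

lemma rr_mem (h0 : 0 < y') (h : y' ≤ y) (v : Fin T × Λ) : 0 ≤ rr y y' v ∧ rr y y' v ≤ 1 := by
  unfold rr; split_ifs
  exacts [⟨div_nonneg h0.le (h0.le.trans h), (div_le_one (h0.trans_le h)).2 h⟩, ⟨zero_le_one, le_rfl⟩]

lemma low_mdl (h : y ≠ 0) (s : Cfg T Λ) : low (rr y y') (G.mdl y s) = G.mdl y' s := by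
  simp only [low, Bs.mdl, Mdl.mk.injEq, true_and]
  funext v
  simp only [rr, kill, Top.bt]
  split_ifs <;> simp [h]

lemma ub_mdl (y : ℝ) (s : Cfg T Λ) : ub (G.mdl y s).b = s.u (yw y) := ub_kill _ _

lemma law_mdl (y : ℝ) (s : Cfg T Λ) : law G.ex G.ey (G.mdl y s) = G.gs (yw y) s := by
  rw [law, ub_mdl]; rfl

lemma w2_mdl (h : y ≠ 0) (s : Cfg T Λ) : w2 (rr y y') (G.mdl y s) =
    Pc.two (s.u (yw y')) (s.u fun g => yw y g - yw y' g) := by
  rw [w2, low_mdl h, ub_mdl]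
  congr 1; funext g
  simp only [DD, low_mdl h, ub_mdl, Cfg.u, off]
  split_ifs <;> simp

lemma ok_mdl (hG : G.Ok) (h0 : 0 ≤ y) (h1 : y ≤ 1) (s : Cfg T Λ) : (G.mdl y s).Ok y :=
  ok_chd (M := ⟨G.p, Top.bt y⟩) ⟨fun r => ⟨(hG.p r).1, (hG.p r).2.trans (by norm_num)⟩,
    fun v => by simp only [Top.bt]; split_ifs; exacts [⟨h0, h1⟩, ⟨zero_le_one, le_rfl⟩],
    fun _ => by simp [Top.bt]⟩ s.Z s.e

lemma val_add (h : G.Val s) : G.Val (s.add x) ↔ G.q s x ≠ 0 := by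
  rw [Bs.q, Bs.pn, ← sh_qq h, sh, div_ne_zero_iff]
  exact (and_iff_left h).symm

lemma chd_mdl (h : G.Val (s.add x)) (y : ℝ) (U : Finset (Fin T × Λ)) :
    chd G.ex G.ey (G.mdl y s) U x = G.mdl y (s.rev x U) :=
  chd_chd (M := ⟨G.p, Top.bt y⟩) (U := s.Z) h

lemma slow_mdl (hG : G.Ok) {v : ℕ} (h : G.Sl v s) (y : ℝ) :
    Slow G.ex G.ey G.d (Cheap G.ex G.ey G.d (G.mdl y s)) (fun u => (G.mdl y s).b u ≠ 0) v := by
  refine Slow.mono' h le_rfl (fun u a b => (kill_ne a).1 (mem_union_left _ b)) fun r _ _ _ hc => ?_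
  refine hc.imp_left fun hc => ?_
  simp only [Bs.mdl, Bs.pn, pin] at hc
  split_ifs at hc with h1 h2
  exacts [h2, absurd hc zero_ne_one, absurd (hc ▸ (hG.p r).2) (by norm_num)]

lemma tow_mdl (hG : G.Ok) {Tf δ : ℝ} {K : ℕ → ℝ} {v g : ℕ → ℕ} {N m f D : ℕ}
    (h : Tow G.ex G.ey G.d ⟨G.p, fun _ => 0⟩ ∅ Tf δ K v g N m f D) (hs : s.Sup N) (y : ℝ) :
    ∃ S, Tow G.ex G.ey G.d (G.mdl y s) S Tf δ K v g N m f D := by
  obtain ⟨S, h1, h2⟩ := hs
  exact ⟨S, h.met, fun u a => h2 u fun b => (kill_ne a).1 (mem_union_left _ b), h1, h.one,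
    fun i hi => ⟨(h.tow i hi).1, (h.tow i hi).2.1.of_le le_rfl (fun r => (hG.p r).1)
      (sub_chd (ex := G.ex) (ey := G.ey) ⟨G.p, Top.bt y⟩ s.Z s.e).1, (h.tow i hi).2.2⟩, h.num⟩

lemma rev_rev (s : Cfg T Λ) (x : Finset (Lp T Λ)) (U U' : Finset (Fin T × Λ)) :
    (s.rev x U).rev ∅ U' = s.rev x (U ∪ U') := by simp [Cfg.rev]

lemma rev_add (s : Cfg T Λ) (x x0 : Finset (Lp T Λ)) (U : Finset (Fin T × Λ)) :
    (s.rev x U).add x0 = (s.add x0).rev x U := by simp [Cfg.rev, Cfg.add, union_comm x]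

lemma ph_nn (hG : G.Ok) (s : Cfg T Λ) (x0 w : Finset (Lp T Λ)) : 0 ≤ G.ph s x0 w := by
  have h := (cpt_M (ex := G.ex) (ey := G.ey) (ok_mdl hG zero_le_one le_rfl s)).nn
  unfold Bs.ph; split_ifs
  exacts [div_nonneg (h _) (h _), le_rfl]

/-- the top part of the form of a one-point observable. -/
lemma Dhi_pt {μ : Finset (Lp T Λ × Bool) → ℝ} (hμ : ∀ B, 0 ≤ μ B) (U : Finset (Fin T × Λ)) :
    Pc.Dhi μ (Op.ind fun B => B.filter (HitL U) = ∅) ≤
      Op.ex μ fun B => Op.ind (fun A => ¬A.filter (Hit U) = ∅) (fg (Pc.hi B)) := by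
  refine ex_mono hμ fun B => ?_
  have k : ∀ z ∈ Pc.hi B, (Op.ind (fun B => B.filter (HitL U) = ∅) B -
      Op.ind (fun B => B.filter (HitL U) = ∅) (B.erase z)) ^ 2 ≠ 0 → B.filter (HitL U) = {z} := by
    intro z _ h
    simp only [Op.ind, filter_erase] at h
    split_ifs at h with a b b
    · simp at h
    · exact absurd (by rw [a, erase_empty]) b
    · exact ((erase_eq_empty_iff _ _).1 b).resolve_left a
    · simp at h
  by_cases h : ∃ z ∈ Pc.hi B, B.filter (HitL U) = {z}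
  · obtain ⟨z, h1, h2⟩ := h
    have h3 := mem_filter.1 (h2 ▸ mem_singleton_self z)
    rw [sum_eq_single_of_mem z h1 fun z' a b => by_contra fun c =>
      b (singleton_injective ((k z' a c).symm.trans h2)), Op.ind, Op.ind, Op.ind,
      if_pos (ne_empty_of_mem (mem_filter.2 ⟨mem_fg_of h1, h3.2⟩))]
    split_ifs <;> norm_num
  · rw [sum_eq_zero fun z a => by_contra fun c => h ⟨z, a, k z a c⟩]
    exact ind_nn _ _

section main
variable {Tf : ℝ} {In Pre Out : Cfg T Λ → Prop} {Zs C : Finset Λ → Finset Λ}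
  {gx gd : Cfg T Λ → Finset (Lp T Λ) → Prop} {δ σ ε ε' π κb : ℝ} {K : ℕ → ℝ} {v g : ℕ → ℕ}
  {R N m f D n σb : ℕ}

open Classical in
/-- the export of the peel. -/
lemma peel_pt (hG : G.Ok) (h0 : 0 < y') (hy : y' ≤ y) (hy1 : y ≤ 1) (hb : 0 ≤ κb)
    (J : G.ExcJ y y' In Pre Zs R gx gd ε π) (hL : G.LadH (yw y) y' Pre Out κb)
    (hS : G.StepH (yw y) y' Pre Out ε') (hv : G.Val s) (hs : Pre s) (u : Fin T × Λ) :
    var (law2 G.ex G.ey (rr y y') (G.mdl y s)) (ap (ce (law2 G.ex G.ey (rr y y') (G.mdl y s)) Pc.hi)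
      (Op.ind fun B => B.filter (HitL {u}) = ∅)) ≤ 22 * π + 22 * κb + 400 * ε' := by
  obtain ⟨Gd, h1, h2⟩ := hL s hv hs
  have hμ := pr_law2 (ex := G.ex) (ey := G.ey) (ok_mdl hG (h0.le.trans hy) hy1 s) (rr_mem h0 hy)
  have h3 := Pc.peel_core h1 le_rfl hb (Op.ind fun B => B.filter (HitL {u}) = ∅) 0
  have h4 := J.tch s hv hs u
  have h5 := hS s hv hs
  have e : Pc.mu (Rep.Pw (G.pn s)) (L G.ex G.ey) (s.u (yw y')) (s.u fun g => yw y g - yw y' g) =
      law2 G.ex G.ey (rr y y') (G.mdl y s) := by rw [law2, w2_mdl (h0.trans_le hy).ne']; rfl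
  unfold Bs.hE at h4 h5
  change Op.ex (Pc.mu (Rep.Pw (G.pn s)) (L G.ex G.ey) _ _) _ ≤ _ at h4 h5
  rw [e] at h3 h4 h5
  set μ := law2 G.ex G.ey (rr y y') (G.mdl y s)
  have h6 := (Dhi_pt hμ.nn {u}).trans h4
  have h7 := ((proj_ce hμ.nn Pc.hi).res_le_var hμ _).trans
    (var_le_one hμ (abs_ind_le fun B => B.filter (HitL {u}) = ∅))
  have h8 : Op.ex μ (Pc.bS Gd) ≤ ε' := le_trans (ex_mono hμ.nn fun B => by
    simp only [Pc.bS, Op.ind]
    split_ifs with a b b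
    exacts [le_rfl, zero_le_one, absurd (h2 _ b) a, le_rfl]) h5
  have h9 : Op.ex μ (fun B => (Op.ex μ (Pc.bS Gd) + Pc.bS Gd B) *
      (Op.ind (fun B => B.filter (HitL {u}) = ∅) B - 0) ^ 2) ≤
      Op.ex μ fun B => Op.ex μ (Pc.bS Gd) + Pc.bS Gd B := ex_mono hμ.nn fun B =>
    mul_le_of_le_one_right (add_nonneg (ex_nn hμ.nn fun _ => ind_nn _ _) (ind_nn _ _))
      (by rw [sub_zero, sq, ind_sq]; exact ind_le_one _ _)
  rw [ex_add, hμ.ex_const] at h9
  nlinarith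

open Classical in
lemma exc_of (hG : G.Ok) (hy : Real.exp (-1 / Tf) ≤ y) (hy1 : y ≤ 1) (hε : ε ≤ 1 / 10000)
    (hb : 0 ≤ κb) (J : G.ExcJ y (Real.exp (-1 / Tf)) In Pre Zs R gx gd ε π)
    (E : G.ExcG In Pre Zs C Tf δ σ K v g R N m f D n σb)
    (hL : G.LadH (yw y) (Real.exp (-1 / Tf)) Pre Out κb)
    (hS : G.StepH (yw y) (Real.exp (-1 / Tf)) Pre Out ε') (hσ : 22 * π + 22 * κb + 400 * ε' ≤ σ ^ 2)
    (hv : G.Val s) (hs : In s) :
    Exc G.ex G.ey G.d (rr y (Real.exp (-1 / Tf))) (G.mdl y s) (Zs s.cv) (C s.cv)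
      (fun x => gx s (fg x)) (fun A => gd s (fg A)) R (v 0) (v 1) D δ σ (1 / 10000) := by
  have h0 := Real.exp_pos (-1 / Tf)
  have hM := ok_mdl hG (h0.le.trans hy) hy1 s
  have hr := rr_mem (T := T) (Λ := Λ) h0 hy
  refine ⟨E.far s hs, le_rfl, E.σ0, le_trans (add_le_add (mul_le_mul_of_nonneg_right
    (Nat.cast_le.2 (E.card s hs)) (by have := E.σ0; positivity)) le_rfl) E.small,
    fun A z a => J.down _ _ _ (fg_mono (erase_subset _ _)) a, ?_, fun x a b c => ?_,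
    fun A a b => ?_, fun x a b _ => ?_, fun x a b _ U _ u _ => ?_⟩
  · refine le_trans (le_of_eq ?_) ((J.rare s hv hs).trans hε)
    rw [← law_mdl, ← ex_law2 (rr y (Real.exp (-1 / Tf)))]
    congr 1; funext A; simp only [Op.ind, ← fg_filter]; rfl
  · have := (val_add hv).2 b
    refine le_trans (le_of_eq ?_) (J.bad s _ hs a this fun l hl => (mem_fg.1 hl).elim fun _ => c _)
    rw [chd_mdl this, ← law_mdl, ← ex_law2 (rr y (Real.exp (-1 / Tf)))]
    congr 1; funext A; simp only [Op.ind, fg_union]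
  · refine le_trans (le_of_eq ?_) (J.one s _ hs ((val_add hv).2 (law2_supp b).2.1) a)
    rw [sum_filter, sum_filter, Fintype.sum_prod_type, w2_mdl (h0.trans_le hy).ne']
    refine sum_congr rfl fun l _ => ?_
    have e : ∀ c, fg (insert (l, c) A) = insert l (fg A) := fun c => image_insert _ _ _
    simp only [Fintype.sum_bool, Lng, e, Pc.two, true_or, and_true, if_true, Bool.false_eq_true,
      false_or, if_false, Bs.q, Bs.mdl]
    by_cases c1 : Hit (cyl (Zs s.cv)) l <;> by_cases c2 : gd s (insert l (fg A)) <;>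
      by_cases c3 : Hit (cyl (nbd G.d R (Zs s.cv))ᶜ) l <;> simp [c1, c2, c3, add_mul]
  · have := (val_add hv).2 b
    rw [chd_mdl this]
    exact slow_mdl hG (E.slow _ (J.pre s _ hs a)) y
  · have := (val_add hv).2 b
    rw [chd_mdl this, ← rev_rev]
    exact (peel_pt hG h0 hy hy1 hb J hL hS (by simpa [Bs.Val, Cfg.rev, Cfg.add] using this)
      (J.kil _ _ (J.pre s _ hs a)) _).trans hσ

open Classical in
/-- the fibres of the excision. -/
noncomputable def excMix (G : Bs T Λ) (y y' : ℝ) (s : Cfg T Λ) (U U' : Finset (Fin T × Λ))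
    (P : Finset (Lp T Λ) → Prop) : Mix T Λ where
  I := Finset (Lp T Λ) ⊕ Finset (Lp T Λ × Bool)
  c := Sum.elim (fun w => if P (w.filter (Hit U)) then G.gs (yw y) s w / 2 else 0)
    fun B => law2 G.ex G.ey (rr y y') (G.mdl y s) B / 2
  x := Sum.elim (fun w => w.filter (Hit U)) fun B => fg (B.filter (HiOr U'))
  Z := Sum.elim (fun _ => s.Z ∪ U) fun _ => s.Z ∪ U'
  lv := Sum.elim (fun _ => y) fun _ => y'
  op := Sum.elim (fun _ => True) fun _ => False

open Classical in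
lemma excMix_sum (U U' : Finset (Fin T × Λ)) (P : Finset (Lp T Λ) → Prop)
    (Ψ : Cfg T Λ → ℝ → Finset (Lp T Λ) → Prop → ℝ) :
    ∑ i, (excMix G y y' s U U' P).c i * Ψ ((excMix G y y' s U U' P).cf s i)
      ((excMix G y y' s U U' P).lv i) ((excMix G y y' s U U' P).x i) ((excMix G y y' s U U' P).op i) =
    (Op.ex (G.gs (yw y) s) (fun w => if P (w.filter (Hit U)) then
        Ψ (s.rev (w.filter (Hit U)) U) y (w.filter (Hit U)) True else 0) +
      Op.ex (law2 G.ex G.ey (rr y y') (G.mdl y s)) fun B =>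
        Ψ (s.rev (fg (B.filter (HiOr U'))) U') y' (fg (B.filter (HiOr U'))) False) / 2 := by
  refine (Fintype.sum_sum_type _).trans ?_
  rw [add_div, Op.ex, Op.ex, sum_div, sum_div]
  congr 1 <;> refine sum_congr rfl fun w _ => ?_ <;>
    simp only [excMix, Mix.cf, Cfg.rev, Sum.elim_inl, Sum.elim_inr]
  · split_ifs <;> ring
  · ring

section
variable (hG : G.Ok) (h0 : 0 < y') (hy : y' ≤ y) (hy1 : y ≤ 1)
include hG h0 hy hy1

lemma pr_gs (s : Cfg T Λ) : Pr (G.gs (yw y) s) :=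
  law_mdl y s ▸ pr_law (ok_mdl hG (h0.le.trans hy) hy1 s)

lemma pr_l2 (s : Cfg T Λ) : Pr (law2 G.ex G.ey (rr y y') (G.mdl y s)) :=
  pr_law2 (ok_mdl hG (h0.le.trans hy) hy1 s) (rr_mem h0 hy)

variable (hv : G.Val s)
include hv

lemma val1 {w : Finset (Lp T Λ)} (a : G.gs (yw y) s w ≠ 0) (Q : Lp T Λ → Prop) [DecidablePred Q] :
    G.Val (s.add (w.filter Q)) :=
  (val_add hv).2 ((cpt_M (ok_mdl hG (h0.le.trans hy) hy1 s)).ne_of_sub (filter_subset _ _)
    (nu_supp a).1)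

lemma val2 {B : Finset (Lp T Λ × Bool)} (a : law2 G.ex G.ey (rr y y') (G.mdl y s) B ≠ 0)
    (Q : Lp T Λ × Bool → Prop) [DecidablePred Q] : G.Val (s.add (fg (B.filter Q))) :=
  (val_add hv).2 ((cpt_M (ok_mdl hG (h0.le.trans hy) hy1 s)).ne_of_sub
    (fg_mono (filter_subset _ _)) (law2_supp a).2.1)

lemma ce1 {w : Finset (Lp T Λ)} (a : G.gs (yw y) s w ≠ 0) (F : Finset (Lp T Λ) → ℝ) :
    Op.ex (G.gs (yw y) (s.rev (w.filter (Hit U)) U)) (fun A => F (w.filter (Hit U) ∪ A)) =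
      ap (ce (G.gs (yw y) s) (filter (Hit U))) F w := by
  have hν := pr_gs hG h0 hy hy1 s
  have hm := mass_ne (π := filter (Hit U)) hν.nn a
  rw [ap_ce_ae hν.nn _ a, ← law_mdl, ← chd_mdl (val1 hG h0 hy hy1 hv a _)]
  rw [← law_mdl] at hm ⊢
  rw [ex_cond_law (ok_mdl hG (h0.le.trans hy) hy1 s) hm]

lemma ce2 {B : Finset (Lp T Λ × Bool)} (a : law2 G.ex G.ey (rr y y') (G.mdl y s) B ≠ 0)
    (F : Finset (Lp T Λ) → ℝ) :
    Op.ex (Op.cond (law2 G.ex G.ey (rr y y') (G.mdl y s)) (filter (HiOr U)) (B.filter (HiOr U)))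
      (fun B => F (fg B)) = Op.ex (G.gs (yw y') (s.rev (fg (B.filter (HiOr U))) U))
        fun A => F (fg (B.filter (HiOr U)) ∪ A) := by
  rw [ex_condH (ok_mdl hG (h0.le.trans hy) hy1 s) (rr_mem h0 hy)
    (mass_ne (pr_l2 hG h0 hy hy1 s).nn a), low_mdl (h0.trans_le hy).ne',
    chd_mdl (val2 hG h0 hy hy1 hv a _), law_mdl]
  simp only [fg_union, fg_lb]

lemma exc_dom (U' : Finset (Fin T × Λ)) (P : Finset (Lp T Λ) → Prop) (F : Finset (Lp T Λ) → ℝ)
    (hF : ∀ w, 0 ≤ F w) :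
    ∑ i, G.fE (excMix G y y' s U U' P) s F i ≤ Op.ex (G.gs (yw y) s) F := by
  classical
  have hν := pr_gs hG h0 hy hy1 s
  have hμ := pr_l2 hG h0 hy hy1 s
  refine (excMix_sum U U' P fun c l x _ => Op.ex (G.gs (yw l) c) fun A => F (x ∪ A)).trans_le ?_
  rw [div_le_iff₀ two_pos, mul_two]
  refine add_le_add ?_ (le_of_eq ?_)
  · rw [← (proj_ce hν.nn (filter (Hit U))).ker.ex_ap F]
    refine ex_mono_ae hν.nn fun w a => ?_
    rw [ce1 hG h0 hy hy1 hv a]
    split_ifs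
    exacts [le_rfl, ex_nn (ce_nn hν.nn w) hF]
  · rw [← law_mdl y s, ← ex_law2 (rr y y') _ F, ← (proj_ce hμ.nn (filter (HiOr U'))).ker.ex_ap
      fun B => F (fg B)]
    exact ex_congr fun B a => by rw [ap_ce_ae hμ.nn _ a, ce2 hG h0 hy hy1 hv a]

open Classical in
lemma exc_res (U' : Finset (Fin T × Λ)) (P : Finset (Lp T Λ) → Prop) (F : Finset (Lp T Λ) → ℝ) :
    2 * G.res (excMix G y y' s U U' P) s F =
    nsq (law2 G.ex G.ey (rr y y') (G.mdl y s)) (fun B => F (fg B) -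
      ap (ce (law2 G.ex G.ey (rr y y') (G.mdl y s)) (filter (HiOr U'))) (fun B => F (fg B)) B) +
    Op.ex (law2 G.ex G.ey (rr y y') (G.mdl y s)) fun B => if P (fg (B.filter (HitL U))) then
      var (law2 G.ex G.ey (rr y y') (chd G.ex G.ey (G.mdl y s) U (fg (B.filter (HitL U)))))
        (fun B' => F (fg (B.filter (HitL U) ∪ B'))) else 0 := by
  have hμ := pr_l2 hG h0 hy hy1 s
  have h1 : G.res (excMix G y y' s U U' P) s F = _ :=
    excMix_sum U U' P fun c l x _ => var (G.gs (yw l) c) fun A => F (x ∪ A)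
  rw [h1, mul_div_cancel₀ _ two_ne_zero, add_comm, res_ce hμ.nn]
  congr 1
  · refine ex_congr fun B a => ?_
    simp only [var, nsq_eq_ex, ce2 hG h0 hy hy1 hv a]
    exact (ce2 hG h0 hy hy1 hv a fun A => (F A - _) ^ 2).symm
  · rw [← law_mdl y s, ← ex_law2 (rr y y')]
    refine ex_congr fun B a => ?_
    have fX : fg (B.filter (HitL U)) = (fg B).filter (Hit U) := fg_filter _ _
    rw [← fX, ← law_mdl, ← chd_mdl (val2 hG h0 hy hy1 hv a _), ← var_law2 (rr y y')]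
    simp only [fg_union]

open Classical in
lemma exc_next (U' : Finset (Fin T × Λ)) (P : Finset (Lp T Λ) → Prop) (x0 : Finset (Lp T Λ)) :
    ∑ i, (if (excMix G y y' s U U' P).op i ∧ ¬Pre (((excMix G y y' s U U' P).cf s i).add x0) then
      G.fE (excMix G y y' s U U' P) s (G.ph s x0) i else 0) ≤ Op.ex (G.gs (yw y) s) fun w =>
        G.ph s x0 w * Op.ind (fun w => ¬Pre ((s.rev (w.filter (Hit U)) U).add x0)) w := by
  have hν := pr_gs hG h0 hy hy1 s
  have a1 := excMix_sum (G := G) (y := y) (y' := y') (s := s) U U' P fun c l x o =>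
    if o ∧ ¬Pre (c.add x0) then Op.ex (G.gs (yw l) c) fun A => G.ph s x0 (x ∪ A) else 0
  simp only [mul_ite, mul_zero, false_and, if_false, true_and, (pr_l2 hG h0 hy hy1 s).ex_const,
    add_zero] at a1
  refine a1.trans_le ?_
  have a2 := ex_mul_ce (π := filter (Hit U)) hν.nn
    (g := Op.ind fun w => ¬Pre ((s.rev (w.filter (Hit U)) U).add x0))
    (fun w w' e => by simp only [Op.ind, e]) (G.ph s x0)
  simp only [mul_comm (G.ph s x0 _)]
  rw [← a2]
  have a4 : ∀ w, 0 ≤ ap (ce (G.gs (yw y) s) (filter (Hit U))) (G.ph s x0) w := fun w =>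
    ex_nn (ce_nn hν.nn w) (ph_nn hG s x0)
  have a3 := ex_nn hν.nn fun w => mul_nonneg (ind_nn (fun w => ¬Pre ((s.rev (w.filter (Hit U))
    U).add x0)) w) (a4 w)
  refine (div_le_iff₀ two_pos).2 ((ex_mono_ae hν.nn fun w c => ?_).trans
    (le_mul_of_one_le_right a3 one_le_two))
  rw [ce1 hG h0 hy hy1 hv c, Op.ind]
  split_ifs <;> simp [a4 w]

end

lemma res_ind {ν : Finset (Lp T Λ) → ℝ} (hν : Pr ν) (S : Finset (Lp T Λ) → Prop) [DecidablePred S]
    (F : Finset (Lp T Λ) → ℝ) : (Op.ex ν fun w => Op.ind S w * (F w - Op.ex ν F) ^ 2) ≤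
      2 * nsq (fun w => (Op.ind S w + Op.ex ν (Op.ind S)) * ν w) F := by
  have b1 : nsq (fun w => (Op.ind S w + Op.ex ν (Op.ind S)) * ν w) F =
      Op.ex ν fun w => Op.ind S w * F w ^ 2 + Op.ex ν (Op.ind S) * F w ^ 2 :=
    sum_congr rfl fun w _ => by ring
  have b3 := mul_le_mul_of_nonneg_left (hν.sq_ex_le F) (ex_nn hν.nn (ind_nn S))
  have b2 : (Op.ex ν fun w => Op.ind S w * (F w - Op.ex ν F) ^ 2) ≤
      Op.ex ν fun w => 2 * (Op.ind S w * F w ^ 2) + 2 * Op.ex ν F ^ 2 * Op.ind S w :=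
    ex_mono hν.nn fun w => by
      nlinarith [mul_nonneg (ind_nn S w) (sq_nonneg (F w + Op.ex ν F))]
  rw [ex_add, ex_mul, ex_mul] at b2
  rw [b1, ex_add, ex_mul, ← nsq_eq_ex]
  linarith

open Classical in
/-- **the excision as a stage.** -/
theorem exc_of_giv (hGiv : GivStmt) : ExcStmt := by
  intro Λ _ _ T _ G y Tf In Pre Out Zs C gx gd δ σ ε ε' π κb K v g R N m f D n σb hG hy hy1 hε hb
    J E hL hS hσ s hv hs
  have X := exc_of hG hy hy1 hε hb J E hL hS hσ hv hs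
  have h0 := Real.exp_pos (-1 / Tf)
  have y0 : 0 < y := h0.trans_le hy
  have hν := pr_gs hG h0 hy hy1 s
  have hμ := pr_l2 hG h0 hy hy1 s
  have S0 := ex_nn hν.nn (ind_nn fun w => ¬gx s (w.filter (Hit (cyl (Zs s.cv)))))
  have S1 := J.rare s hv hs
  have p0 := ph_nn hG s
  have rr0 : ∀ x0, G.Val (s.add x0) → In (s.add x0) → ∀ Q : Finset (Lp T Λ) → Prop,
      (∀ x, gx (s.add x0) x → Q x) → Op.ex (G.gs (yw y) s) (fun w => G.ph s x0 w *
        Op.ind (fun w => ¬Q (w.filter (Hit (cyl (Zs s.cv))))) w) ≤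
        ε * Op.ex (G.gs (yw y) s) (G.ph s x0) := by
    intro x0 a b Q hQ
    rw [hGiv Λ T G (yw y) s x0 _ hG (ub_nn fun u => by
      unfold Top.bt; split_ifs; exacts [y0.le, zero_le_one]) a, mul_comm]
    refine mul_le_mul_of_nonneg_right (le_trans (ex_mono (pr_gs hG h0 hy hy1 _).nn fun w => ?_)
      (J.rare _ a b)) (ex_nn hν.nn (p0 x0))
    simp only [Op.ind]
    split_ifs with c e e
    exacts [le_rfl, zero_le_one, absurd (hQ _ e) c, le_rfl]
  refine ⟨excMix G y (Real.exp (-1 / Tf)) s (cyl (Zs s.cv)) (cyl (C s.cv)) (gx s), fun w =>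
    (Op.ind (fun w => ¬gx s (w.filter (Hit (cyl (Zs s.cv))))) w + Op.ex (G.gs (yw y) s)
      (Op.ind fun w => ¬gx s (w.filter (Hit (cyl (Zs s.cv)))))) * G.gs (yw y) s w,
    ?_, ?_, ?_, ?_, exc_dom hG h0 hy hy1 hv _ _, fun F => ?_, fun w => ?_, fun w => ?_,
    fun x0 a b => ?_, fun x0 a b => (exc_next hG h0 hy hy1 hv _ _ x0).trans ?_⟩
  · rintro (w | B)
    · simp only [excMix, Sum.elim_inl]; split_ifs
      exacts [by linarith [hν.nn w], le_rfl]
    · exact div_nonneg (hμ.nn B) two_pos.le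
  · rintro (w | B) a
    · exact ⟨val1 hG h0 hy hy1 hv (w := w) (fun e => a (by simp [excMix, e])) _, subset_union_left,
        y0.le, hy1⟩
    · exact ⟨val2 hG h0 hy hy1 hv (B := B) (fun e => a (by simp [excMix, e])) _, subset_union_left,
        h0.le, hy.trans hy1⟩
  · rintro (w | B) a b
    · exact ⟨rfl, J.pre s _ hs (by_contra fun e => a (if_neg e))⟩
    · exact b.elim
  · rintro (w | B) _ b
    exacts [absurd trivial b, E.blk s hs]
  · obtain ⟨S', hT⟩ := tow_mdl hG E.tow (E.sup s hs) y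
    have hl : (low (rr y (Real.exp (-1 / Tf))) (G.mdl y s)).Ok (Real.exp (-1 / Tf)) := by
      rw [low_mdl y0.ne']; exact ok_mdl hG h0.le (hy.trans hy1) s
    have h1 := excise Λ T G.ex G.ey G.d _ _ _ _ S' _ _ Tf δ σ _ K v g R N m f D
      ((ok_mdl hG y0.le hy1 s).mono hy1) (rr_mem h0 hy) hl hT X fun B => F (fg B)
    have t1 := exc_res hG h0 hy hy1 hv (U := cyl (Zs s.cv)) (cyl (C s.cv)) (gx s) F
    have t2 := res_ind hν (fun w => ¬gx s (w.filter (Hit (cyl (Zs s.cv))))) F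
    have t3 := ex_law2 (ex := G.ex) (ey := G.ey) (rr y (Real.exp (-1 / Tf))) (G.mdl y s) fun w =>
      Op.ind (fun w => ¬gx s (w.filter (Hit (cyl (Zs s.cv))))) w * (F w - Op.ex (G.gs (yw y) s) F) ^ 2
    have t4 : 0 ≤ 2 * G.res (excMix G y (Real.exp (-1 / Tf)) s (cyl (Zs s.cv)) (cyl (C s.cv))
        (gx s)) s F := by
      rw [t1]
      refine add_nonneg (nsq_nn hμ.nn _) (ex_nn hμ.nn fun B => ?_)
      split_ifs
      exacts [var_nn (pr_law2 (ok_chd (ok_mdl hG y0.le hy1 s) _ _) (rr_mem h0 hy)).nn _, le_rfl]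
    simp only [var_law2, Dir_law2, ex_law2, law_mdl] at h1
    simp only [Op.ind, ← fg_filter, law_mdl] at h1 t2 t3 ⊢
    have t5 : ∀ B : Finset (Lp T Λ × Bool), B.filter (HitL (cyl (Zs s.cv))) =
      B.filter fun z => Hit (cyl (Zs s.cv)) z.1 := fun _ => rfl
    simp only [t5] at h1 t1
    linarith
  · exact mul_nonneg (add_nonneg (ind_nn _ _) S0) (hν.nn w)
  · exact mul_le_mul_of_nonneg_right (by
      linarith [ind_le_one (fun w => ¬gx s (w.filter (Hit (cyl (Zs s.cv))))) w]) (hν.nn w)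
  · have e : ∀ (S : Finset (Lp T Λ) → ℝ) (c : ℝ), Op.ex (fun w => (S w + c) * G.gs (yw y) s w)
        (G.ph s x0) = Op.ex (G.gs (yw y) s) fun w => G.ph s x0 w * S w + c * G.ph s x0 w :=
      fun S c => sum_congr rfl fun w _ => by ring
    rw [e, ex_add, ex_mul]
    have := rr0 x0 a b (gx s) (J.anti s x0)
    nlinarith [ex_nn hν.nn (p0 x0)]
  · have := rr0 x0 a b (fun x => Pre ((s.rev x (cyl (Zs s.cv))).add x0)) fun x c => by
      rw [rev_add]; exact J.pre _ _ b c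
    nlinarith [ex_nn hν.nn (p0 x0)]

end main

/-- **(Exc)** -/
theorem exc : ExcStmt := exc_of_giv giv

end Crest.Agent.N337.M
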