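import Crest.Agent.N337.M.Bas

-- ▼ part N337/M/Comp
section

/-!
# Row 337, the chain (helper56): composition of stages
-/

set_option autoImplicit false
set_option linter.unusedSectionVars false

namespace Crest.Agent.N337.M

open Finset Crest.Agent.N337.Op Crest.Agent.N337.Gas Crest.Agent.N337.A

variable {Λ : Type} [Fintype Λ] [DecidableEq Λ] {T : ℕ} [NeZero T] {G : Bs T Λ}
  {s : Cfg T Λ} {W : Lp T Λ → ℝ} {m : Mix T Λ}

/-- fibres of fibres. -/
def Mix.comp (m : Mix T Λ) (n : m.I → Mix T Λ) : Mix T Λ where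
  I := Σ i, (n i).I
  c k := m.c k.1 * (n k.1).c k.2
  x k := m.x k.1 ∪ (n k.1).x k.2
  Z k := (n k.1).Z k.2
  lv k := (n k.1).lv k.2
  op k := (n k.1).op k.2

/-- the fibre itself, closed. -/
def Mix.triv (Z : Finset (Fin T × Λ)) (y : ℝ) : Mix T Λ where
  I := Unit
  c _ := 1
  x _ := ∅
  Z _ := Z
  lv _ := y
  op _ := False

lemma Mix.cf_comp (n : m.I → Mix T Λ) (k : (m.comp n).I) :
    (m.comp n).cf s k = (n k.1).cf (m.cf s k.1) k.2 := by
  simp only [Mix.cf, Mix.comp, union_assoc]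

lemma Mix.cf_triv (s : Cfg T Λ) (y : ℝ) (k : Unit) : (Mix.triv s.Z y).cf s k = s := by
  simp [Mix.cf, Mix.triv]

/-- push forward of measures on the fibres. -/
noncomputable def Mix.push (m : Mix T Λ) (ν : m.I → Finset (Lp T Λ) → ℝ) (w : Finset (Lp T Λ)) :
    ℝ := ∑ i, m.c i * ∑ A, if m.x i ∪ A = w then ν i A else 0

lemma Mix.ex_push (ν : m.I → Finset (Lp T Λ) → ℝ) (F : Finset (Lp T Λ) → ℝ) :
    Op.ex (m.push ν) F = ∑ i, m.c i * Op.ex (ν i) fun A => F (m.x i ∪ A) := by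
  simp only [Op.ex, Mix.push, sum_mul, mul_sum]
  rw [sum_comm]
  refine sum_congr rfl fun i _ => ?_
  rw [sum_comm]
  refine sum_congr rfl fun A _ => ?_
  simp only [mul_ite, ite_mul, mul_zero, zero_mul, sum_ite_eq, mem_univ, if_true, mul_assoc]

namespace Bs

lemma fl_comp (n : m.I → Mix T Λ) (k : (m.comp n).I) :
    G.fl (m.comp n) s k = G.fl (n k.1) (m.cf s k.1) k.2 := by
  rw [fl, Mix.cf_comp]; rfl

lemma fE_comp (n : m.I → Mix T Λ) (F : Finset (Lp T Λ) → ℝ) (i : m.I) (j : (n i).I) :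
    G.fE (m.comp n) s F ⟨i, j⟩ = m.c i * G.fE (n i) (m.cf s i) (fun A => F (m.x i ∪ A)) j := by
  simp only [fE, fl_comp]
  simp only [Mix.comp, union_assoc, mul_assoc]

lemma res_comp (n : m.I → Mix T Λ) (F : Finset (Lp T Λ) → ℝ) :
    G.res (m.comp n) s F = ∑ i, m.c i * G.res (n i) (m.cf s i) fun A => F (m.x i ∪ A) := by
  simp only [res, fl_comp, mul_sum]
  refine (Fintype.sum_sigma _).trans (sum_congr rfl fun i _ => sum_congr rfl fun j _ => ?_)
  simp only [Mix.comp, union_assoc, mul_assoc]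

lemma red_triv {y y'' C K ε : ℝ} {In Out : Cfg T Λ → Prop} {σ : ℕ} (hG : G.Ok) (h : G.Val s)
    (hy : 0 ≤ y) (hy1 : y ≤ 1) (hB : G.Bk σ s.Z) (hC : 1 ≤ C) (hK : 0 ≤ K) (hε : 0 ≤ ε) :
    G.Red (yw y) y'' In Out σ C K ε s (Mix.triv s.Z y) fun _ => 0 := by
  have hp := hG.pr (yw_nn hy) s
  have e : ∀ k, G.fl (Mix.triv s.Z y) s k = G.gs (yw y) s := fun k => by
    rw [fl, Mix.cf_triv]; rfl
  have e0 : ∀ x0, 0 ≤ ε * Op.ex (G.gs (yw y) s) (G.ph s x0) := fun x0 =>
    mul_nonneg hε (ex_nn hp.nn (ph_nn hG s x0))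
  refine ⟨fun _ => zero_le_one, fun k _ => ⟨by rwa [Mix.cf_triv], Subset.rfl, hy, hy1⟩,
    fun _ _ h => h.elim, fun _ _ _ => hB, fun F _ => ?_, fun F => ?_, fun _ => le_rfl,
    fun w => mul_nonneg hK (hp.nn w), fun x0 _ _ => ?_, fun x0 _ _ => ?_⟩
  · simp only [fE, e]; simp [Mix.triv]
  · have : G.res (Mix.triv s.Z y) s F = var (G.gs (yw y) s) F := by
      simp only [res, e]; simp [Mix.triv]
    rw [this]
    have h1 := Dir_nn hp.nn F
    have h2 := var_nn hp.nn F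
    have h3 : nsq (fun _ : Finset (Lp T Λ) => (0 : ℝ)) F = 0 := by simp [nsq]
    rw [h3]; nlinarith
  · simpa [Op.ex] using e0 x0
  · simpa [Mix.triv] using e0 x0

lemma Dir_fib {s' : Cfg T Λ} {x : Finset (Lp T Λ)} (hG : G.Ok) (hW : ∀ g, 0 ≤ W g) (h : G.Val s')
    (hx : x ⊆ s'.e) (F : Finset (Lp T Λ) → ℝ) : Dir (G.gs W s') (fun A => F (x ∪ A)) ≤
      Op.ex (G.gs W s') fun A => ∑ g ∈ x ∪ A, (F (x ∪ A) - F ((x ∪ A).erase g)) ^ 2 := by
  refine sum_le_sum fun A _ => ?_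
  by_cases hA : G.gs W s' A = 0
  · simp [hA]
  refine mul_le_mul_of_nonneg_left ?_ ((hG.pr hW s').nn A)
  have hd := (h.disj hA).mono_left hx
  refine le_trans (le_of_eq (sum_congr rfl fun g hg => ?_))
    (sum_le_sum_of_subset_of_nonneg subset_union_right fun _ _ _ => sq_nonneg _)
  rw [erase_union_distrib, erase_eq_of_notMem (disjoint_right.1 hd hg)]

end Bs

open Bs in
theorem comp : CompStmt := by
  intro Λ _ _ T _ G W y' y'' In Mid Out σ C K ε C' K' ε' hG hW hC hC' hK' hε hε' h1 h2 s hs hI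
  classical
  obtain ⟨m, μ, R⟩ := h1 s hs hI
  have hp := hG.pr hW s
  have key : ∀ i, ∃ n ν, m.c i ≠ 0 →
      G.Red (yw (m.lv i)) y'' Mid Out σ C' K' ε' (m.cf s i) n ν ∧
        (¬ m.op i → (∀ j, ¬ n.op j) ∧ ∀ A, ν A = 0) := fun i => by
    by_cases hc : m.c i = 0
    · exact ⟨m, μ, fun h => absurd hc h⟩
    obtain ⟨v1, -, v2, v3⟩ := R.ok i hc
    by_cases ho : m.op i
    · obtain ⟨e1, e2⟩ := R.opn i hc ho
      obtain ⟨n, ν, h⟩ := h2 _ v1 e2
      exact ⟨n, ν, fun _ => ⟨e1 ▸ h, fun h => absurd ho h⟩⟩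
    · exact ⟨Mix.triv (m.cf s i).Z (m.lv i), fun _ => 0, fun _ =>
        ⟨red_triv hG v1 v2 v3 (R.cls i hc ho) hC' hK' hε', fun _ => ⟨fun _ h => h, fun _ => rfl⟩⟩⟩
  choose n ν hn using key
  have pf : ∀ i, m.c i ≠ 0 → Pr (G.fl m s i) := fun i hc => hG.pr (yw_nn (R.ok i hc).2.2.1) _
  -- termwise comparison
  have cmp : ∀ {a b : m.I → ℝ}, (∀ i, m.c i ≠ 0 → a i ≤ b i) →
      ∑ i, m.c i * a i ≤ ∑ i, m.c i * b i := fun h => sum_le_sum fun i _ => by
    by_cases hc : m.c i = 0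
    · simp [hc]
    · exact mul_le_mul_of_nonneg_left (h i hc) (R.c0 i)
  have c1 : ∀ k : (m.comp n).I, (m.comp n).c k ≠ 0 → m.c k.1 ≠ 0 ∧ (n k.1).c k.2 ≠ 0 :=
    fun k h => mul_ne_zero_iff.1 h
  -- the weight `ph` on a fibre
  have phi : ∀ x0 i, m.c i ≠ 0 → (fun A => G.ph s x0 (m.x i ∪ A)) = G.ph (m.cf s i) x0 ∧
      G.Val ((m.cf s i).add x0) ∨ (fun A => G.ph s x0 (m.x i ∪ A)) = fun _ => 0 := fun x0 i hc => by
    have v1 := (R.ok i hc).1
    by_cases hd : Disjoint (m.x i) x0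
    · have e : (fun A => G.ph s x0 (m.x i ∪ A)) = G.ph (m.cf s i) x0 :=
        funext fun A => by rw [ph_union hs v1 rfl, if_pos hd]
      by_cases hv : G.Val ((m.cf s i).add x0)
      · exact .inl ⟨e, hv⟩
      · exact .inr (e.trans (funext fun A => ph_eq_zero hG v1 hv A))
    · exact .inr (funext fun A => by rw [ph_union hs v1 rfl, if_neg hd])
  have phn : ∀ x0 i, m.c i ≠ 0 → 0 ≤ Op.ex (G.fl m s i) fun A => G.ph s x0 (m.x i ∪ A) :=
    fun x0 i hc => ex_nn (pf i hc).nn fun A => ph_nn hG s x0 _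
  have split : ∀ x0 (k : ℝ) (a : m.I → ℝ), G.Val (s.add x0) → In (s.add x0) → 0 ≤ k →
      (∀ i, m.c i ≠ 0 → a i ≤ (ε' + if m.op i ∧ ¬ Mid ((m.cf s i).add x0) then k else 0) *
        Op.ex (G.fl m s i) fun A => G.ph s x0 (m.x i ∪ A)) →
      ∑ i, m.c i * a i ≤ (ε' + k * ε) * Op.ex (G.gs W s) (G.ph s x0) := fun x0 k a v hi hk h => by
    refine (cmp h).trans ?_
    have a1 := mul_le_mul_of_nonneg_left (R.dom _ (ph_nn hG s x0)) hε'
    have a2 := mul_le_mul_of_nonneg_left (R.next x0 v hi) hk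
    rw [add_mul, mul_assoc]
    refine le_trans (le_of_eq ?_) (add_le_add a1 a2)
    rw [mul_sum, mul_sum, ← sum_add_distrib]
    refine sum_congr rfl fun i _ => ?_
    unfold fE
    split_ifs <;> ring
  refine ⟨m.comp n, fun w => μ w + m.push ν w, fun k => ?_, fun k hk => ?_, fun k hk ho => ?_,
    fun k hk ho => ?_, fun F hF => ?_, fun F => ?_, fun w => ?_, fun w => ?_,
    fun x0 v hi => ?_, fun x0 v hi => ?_⟩
  · by_cases hc : m.c k.1 = 0
    · simp [Mix.comp, hc]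
    · exact mul_nonneg (R.c0 _) ((hn _ hc).1.c0 _)
  · obtain ⟨a, b⟩ := c1 k hk
    obtain ⟨v1, v2, v3⟩ := (hn _ a).1.ok _ b
    exact ⟨by rwa [Mix.cf_comp], (R.ok _ a).2.1.trans v2, v3⟩
  · obtain ⟨a, b⟩ := c1 k hk
    rw [Mix.cf_comp]
    exact (hn _ a).1.opn _ b ho
  · obtain ⟨a, b⟩ := c1 k hk
    exact (hn _ a).1.cls _ b ho
  · refine le_trans ?_ (R.dom F hF)
    refine (le_of_eq ((Fintype.sum_sigma _).trans (sum_congr rfl fun i _ => ?_))).trans
      (cmp fun i hc => (hn i hc).1.dom (fun A => F (m.x i ∪ A)) fun A => hF _)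
    simp only [fE_comp, mul_sum]
  · have d0 := Dir_nn hp.nn F
    have n0 := nsq_nn R.μ0 F
    have a1 : ∑ i, m.c i * Dir (G.fl m s i) (fun A => F (m.x i ∪ A)) ≤ Dir (G.gs W s) F :=
      (cmp fun i hc => Dir_fib hG (yw_nn (R.ok i hc).2.2.1) (R.ok i hc).1 subset_union_right F).trans
        (R.dom (fun w => ∑ g ∈ w, (F w - F (w.erase g)) ^ 2) fun w => sum_nonneg fun _ _ => sq_nonneg _)
    have a2 : nsq (m.push ν) F = ∑ i, m.c i * nsq (ν i) fun A => F (m.x i ∪ A) :=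
      Mix.ex_push ν fun w => F w ^ 2
    have a3 : G.res m s F ≤ C' * (∑ i, m.c i * Dir (G.fl m s i) (fun A => F (m.x i ∪ A)) +
        G.res (m.comp n) s F + nsq (m.push ν) F) := by
      refine (cmp fun i hc => (hn i hc).1.var _).trans (le_of_eq ?_)
      rw [a2, res_comp, ← sum_add_distrib, ← sum_add_distrib, mul_sum]
      exact sum_congr rfl fun i _ => by unfold fl; ring
    have a4 : 0 ≤ G.res (m.comp n) s F := by
      rw [res_comp]
      refine le_trans (by simp) (cmp (a := fun _ => 0) fun i hc => sum_nonneg fun j _ => ?_)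
      by_cases hj : (n i).c j = 0
      · simp [hj]
      · exact mul_nonneg ((hn i hc).1.c0 j)
          (var_nn (hG.pr (yw_nn ((hn i hc).1.ok j hj).2.2.1) _).nn _)
    have a5 : 0 ≤ nsq (m.push ν) F := by
      rw [a2]
      exact le_trans (by simp) (cmp (a := fun _ => 0) fun i hc => nsq_nn (hn i hc).1.μ0 _)
    have a6 : nsq (fun w => μ w + m.push ν w) F = nsq μ F + nsq (m.push ν) F := by
      simp only [nsq, add_mul, sum_add_distrib]
    rw [a6, mul_assoc]
    refine (R.var F).trans (mul_le_mul_of_nonneg_left ?_ hC)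
    nlinarith [mul_le_mul_of_nonneg_left a1 (by linarith : 0 ≤ C')]
  · refine add_nonneg (R.μ0 w) (le_trans (by simp) (cmp (a := fun _ => 0) fun i hc => ?_))
    exact sum_nonneg fun A _ => by split_ifs; exacts [(hn i hc).1.μ0 A, le_rfl]
  · rw [add_mul]
    refine add_le_add (R.μ1 w) ?_
    have a1 := R.dom (fun w' => if w' = w then 1 else 0) fun w' => by split_ifs <;> norm_num
    have a2 : Op.ex (G.gs W s) (fun w' => if w' = w then 1 else 0) = G.gs W s w := by simp [Op.ex]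
    rw [a2] at a1
    refine le_trans ?_ (mul_le_mul_of_nonneg_left a1 hK')
    rw [mul_sum]
    refine (cmp (b := fun i => K' * Op.ex (G.fl m s i) fun A => if m.x i ∪ A = w then 1 else 0)
      fun i hc => ?_).trans (le_of_eq (sum_congr rfl fun i _ => by unfold fE; ring))
    rw [Op.ex, mul_sum]
    refine sum_le_sum fun A _ => ?_
    split_ifs
    · rw [mul_one]; exact (hn i hc).1.μ1 A
    · simp
  · have a1 : Op.ex (fun w => μ w + m.push ν w) (G.ph s x0) =
        Op.ex μ (G.ph s x0) + Op.ex (m.push ν) (G.ph s x0) := by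
      simp only [Op.ex, add_mul, sum_add_distrib]
    rw [a1, Mix.ex_push, add_assoc, add_mul]
    refine add_le_add (R.rare x0 v hi) (split x0 K' _ v hi hK' fun i hc => ?_)
    have p0 := phn x0 i hc
    by_cases ho : m.op i
    · rcases phi x0 i hc with ⟨e, hv⟩ | e
      · rw [e] at p0 ⊢
        by_cases hM : Mid ((m.cf s i).add x0)
        · simpa [hM, fl] using (hn i hc).1.rare x0 hv hM
        · rw [if_pos ⟨ho, hM⟩, add_mul]
          refine le_add_of_nonneg_of_le (mul_nonneg hε' p0) ?_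
          rw [Op.ex, Op.ex, mul_sum]
          exact sum_le_sum fun A _ => by
            rw [← mul_assoc]
            exact mul_le_mul_of_nonneg_right ((hn i hc).1.μ1 A) (ph_nn hG _ _ _)
      · rw [e]; simp [Op.ex]
    · simp only [Op.ex, ((hn i hc).2 ho).2, zero_mul, sum_const_zero, ho, false_and, if_false,
        add_zero]
      exact mul_nonneg hε' p0
  · have e0 : 0 ≤ Op.ex (G.gs W s) (G.ph s x0) := ex_nn hp.nn (ph_nn hG s x0)
    refine le_trans ?_ (mul_le_mul_of_nonneg_right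
      (by nlinarith [mul_nonneg hK' hε] : ε' + 1 * ε ≤ ε + ε' + K' * ε) e0)
    refine (le_of_eq ((Fintype.sum_sigma _).trans (sum_congr rfl fun i _ => ?_))).trans
      (split x0 1 (fun i => ∑ j, if (n i).op j ∧ ¬ Out (((n i).cf (m.cf s i) j).add x0) then
        G.fE (n i) (m.cf s i) (fun A => G.ph s x0 (m.x i ∪ A)) j else 0) v hi zero_le_one
        fun i hc => ?_)
    · simp only [fE_comp, mul_sum, Mix.cf_comp, mul_ite, mul_zero]; rfl
    have p0 := phn x0 i hc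
    by_cases ho : m.op i
    · rcases phi x0 i hc with ⟨e, hv⟩ | e
      · rw [e] at p0 ⊢
        by_cases hM : Mid ((m.cf s i).add x0)
        · simpa [hM, fl] using (hn i hc).1.next x0 hv hM
        · rw [if_pos ⟨ho, hM⟩, add_mul, one_mul]
          refine le_add_of_nonneg_of_le (mul_nonneg hε' p0)
            (le_trans (sum_le_sum fun j _ => ?_) ((hn i hc).1.dom _ (ph_nn hG _ x0)))
          split_ifs
          · exact le_rfl
          · by_cases hj : (n i).c j = 0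
            · simp [fE, hj]
            · exact mul_nonneg ((hn i hc).1.c0 j) (ex_nn
                (hG.pr (yw_nn ((hn i hc).1.ok j hj).2.2.1) _).nn fun _ => ph_nn hG _ _ _)
      · rw [e]; simp [fE, Op.ex]
    · simp only [((hn i hc).2 ho).1, false_and, if_false, sum_const_zero, ho, add_zero]
      exact mul_nonneg hε' p0

end Crest.Agent.N337.M
end

-- ▼ part N337/M/Ind

/-!
# Row 337, the chain (helper56): the induction over the levels

`In j` = class at the entry of level `j`, `Pre j` = class before the peel, `Post j` = after it.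
-/

set_option autoImplicit false
set_option linter.unusedSectionVars false

namespace Crest.Agent.N337.M

open Finset Crest.Agent.N337.Op Crest.Agent.N337.Gas Crest.Agent.N337.A

variable {Λ : Type} [Fintype Λ] [DecidableEq Λ] {T : ℕ} [NeZero T]

/-- constant of one stage. -/
def c1 : ℝ := 4000
/-- constant of the local Poincaré inequality. -/
def c3 : ℝ := c1 * (1 + c1 * (1 + c1))

/-- the levels: inverse fields, classes, block sizes, errors. -/
structure Lev (T : ℕ) (Λ : Type) where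
  Tf : ℕ → ℝ
  In : ℕ → Cfg T Λ → Prop
  Pre : ℕ → Cfg T Λ → Prop
  Post : ℕ → Cfg T Λ → Prop
  σ : ℕ → ℕ
  e : ℕ → ℝ

namespace Lev
variable (V : Lev T Λ) (G : Bs T Λ)

/-- fugacity of level `j`. -/
noncomputable def y (j : ℕ) : ℝ := if j = 0 then 0 else Real.exp (-1 / V.Tf j)

/-- `LP_j`. -/
def LP (j : ℕ) : Prop := G.LP (yw (V.y j)) (V.In j) (V.σ j) c3 30 (33 * V.e j)

/-- admissible total weights of level `j + 1`: `D = W - y_j ^ k` is the top colour. -/
def AdmW (j : ℕ) (W : Lp T Λ → ℝ) : Prop :=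
  ∀ g, 0 ≤ W g - yw (V.y j) g ∧ W g - yw (V.y j) g ≤ yw (V.y (j + 1)) g ∧
    (W g - yw (V.y j) g) * V.Tf j ≤ 3 * wd g

/-- what has to be delivered at the level `j + 1`. -/
structure Step (j : ℕ) : Prop where
  e0 : 0 ≤ V.e (j + 1)
  anti : Cfg.Anti (V.Post (j + 1))
  /-- entry: nothing (`j + 1 ≡ 1`), excision (`≡ 2`), box move (`≡ 0` mod 3). -/
  ent : V.LP G j → (∀ s, V.In (j + 1) s → V.Pre (j + 1) s) ∨
    G.Stg (yw (V.y (j + 1))) (V.y (j + 1)) (V.In (j + 1)) (V.Pre (j + 1)) (V.σ (j + 1)) c1 10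
      (V.e (j + 1))
  lad : V.LP G j → ∀ W, V.AdmW j W → G.LadH W (V.y j) (V.Pre (j + 1)) (V.Post (j + 1)) 2
  stepH : G.StepH (yw (V.y (j + 1))) (V.y j) (V.Pre (j + 1)) (V.Post (j + 1)) (V.e (j + 1) / 10)
  /-- the closed box move of the medium. -/
  fin : G.LP (yw (V.y j)) (V.Post (j + 1)) (V.σ (j + 1)) c1 10 (V.e (j + 1))

variable {V G}

lemma y_nn (j : ℕ) : 0 ≤ V.y j := by
  unfold y; split_ifs; exacts [le_rfl, (Real.exp_pos _).le]

lemma y_le_one (h : ∀ j, 0 ≤ V.Tf j) (j : ℕ) : V.y j ≤ 1 := by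
  unfold y; split_ifs
  · exact zero_le_one
  · exact Real.exp_le_one_iff.2 (div_nonpos_of_nonpos_of_nonneg (by norm_num) (h j))

end Lev

lemma yw_eq (y : ℝ) (g : Lp T Λ) : yw y g = y ^ wd g := by
  classical
  unfold yw ub Top.bt wd
  rw [prod_ite, prod_const_one, mul_one, prod_const]
  congr 1
  refine (card_bij (fun x _ => ((0 : Fin T), x)) (fun x hx => ?_) (fun x _ z _ h => ?_)
    fun v hv => ?_).symm
  · simpa using hx
  · exact (Prod.ext_iff.1 h).2
  · obtain ⟨h1, h2⟩ := mem_filter.1 hv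
    obtain ⟨a, b⟩ := v
    simp only at h2
    subst h2
    exact ⟨b, by simpa using h1, rfl⟩

namespace Lev
variable {V : Lev T Λ} {G : Bs T Λ}

/-- the untilted weight is admissible. -/
lemma admW_yw {j : ℕ} (h0 : V.Tf 0 = 0) (h : ∀ j, 0 ≤ V.Tf j) (hy : V.y j ≤ V.y (j + 1)) :
    V.AdmW j (yw (V.y (j + 1))) := fun g => by
  simp only [yw_eq]
  have a1 := pow_le_pow_left₀ (V.y_nn j) hy (wd g)
  have a2 := pow_nonneg (V.y_nn j) (wd g)
  have a3 : V.y (j + 1) ^ wd g ≤ 1 := pow_le_one₀ (V.y_nn _) (y_le_one h _)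
  refine ⟨by linarith, by linarith, ?_⟩
  rcases (h j).eq_or_lt with h1 | h1
  · rw [← h1]; simp
  have hj : j ≠ 0 := fun e => by rw [e, h0] at h1; exact lt_irrefl _ h1
  have a4 : 1 - wd g / V.Tf j ≤ V.y j ^ wd g := by
    rw [y, if_neg hj, ← Real.exp_nat_mul]
    have := Real.add_one_le_exp (wd g * (-1 / V.Tf j))
    rwa [show (wd g : ℝ) * (-1 / V.Tf j) + 1 = 1 - wd g / V.Tf j by ring] at this
  have a5 : (V.y (j + 1) ^ wd g - V.y j ^ wd g) ≤ wd g / V.Tf j := by linarith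
  have a6 := (le_div_iff₀ h1).1 a5
  have a7 : (0 : ℝ) ≤ wd g := Nat.cast_nonneg _
  linarith

/-- peel and closed box move. -/
lemma low (hP : PeelStmt) (hM : MonoStmt) (hG : G.Ok) (h : ∀ j, 0 ≤ V.Tf j) {j : ℕ}
    (S : V.Step G j) {W : Lp T Λ → ℝ} (hW : ∀ g, 0 ≤ W g) {In : Cfg T Λ → Prop}
    (hL : G.LadH W (V.y j) In (V.Post (j + 1)) 2)
    (hS : G.StepH W (V.y j) In (V.Post (j + 1)) (V.e (j + 1) / 10)) :
    G.LP W In (V.σ (j + 1)) (c1 * (1 + c1)) 20 (12 * V.e (j + 1)) := by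
  have e0 := S.e0
  have a1 := hM _ _ G W _ In In _ _ _ (V.σ (j + 1)) _ _ _ c1 10 (V.e (j + 1)) hG hW (fun _ h => h)
    (fun _ h => h) le_rfl (by norm_num [c1]) le_rfl (le_of_eq (by ring))
    (hP _ _ G W _ _ 2 In _ (V.σ (j + 1)) hG (V.y_nn j) (y_le_one h j) (by norm_num) le_rfl S.anti
      hL hS)
  have a2 := comp _ _ G W _ _ _ _ _ _ _ _ _ _ _ _ hG hW (by norm_num [c1]) (by norm_num [c1])
    (by norm_num) e0 e0 a1 S.fin
  exact hM _ _ G W _ In In _ _ _ _ _ _ _ _ _ _ hG hW (fun _ h => h) (fun _ h => h) le_rfl le_rfl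
    (by norm_num) (le_of_eq (by ring)) a2

/-- **the induction over the levels.** -/
theorem lp (hP : PeelStmt) (hM : MonoStmt) (hZ : ZeroStmt) (hG : G.Ok) (h0 : V.Tf 0 = 0)
    (h : ∀ j, 0 ≤ V.Tf j) (hy : ∀ j, V.y j ≤ V.y (j + 1)) (e0 : 0 ≤ V.e 0) :
    ∀ J, (∀ j < J, V.Step G j) → V.LP G J := by
  intro J
  induction J with
  | zero =>
    intro _
    have : V.y 0 = 0 := if_pos rfl
    rw [LP, this]
    exact hZ _ _ G _ _ _ _ _ hG (by norm_num [c3, c1]) (by norm_num) (by positivity)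
  | succ j ih =>
    intro hS
    have L := ih fun i hi => hS i (by omega)
    have S := hS j (by omega)
    have hW := yw_nn (T := T) (Λ := Λ) (V.y_nn (j + 1))
    have a := low hP hM hG h S hW (S.lad L _ (admW_yw h0 h (hy j))) S.stepH
    have e1 := S.e0
    rcases S.ent L with b | b
    · exact hM _ _ G _ _ _ _ _ _ _ _ _ _ _ _ _ _ hG hW b (fun _ h => h) le_rfl
        (by norm_num [c3, c1]) (by norm_num) (by linarith) a
    · have := comp _ _ G _ _ _ _ _ _ _ _ _ _ _ _ _ hG hW (by norm_num [c1]) (by norm_num [c1])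
        (by norm_num) e1 (by positivity) b a
      exact hM _ _ G _ _ _ _ _ _ _ _ _ _ _ _ _ _ hG hW (fun _ h => h) (fun _ h => h) le_rfl
        le_rfl (by norm_num) (le_of_eq (by ring)) this

/-- **the top**: an admissible weight of level `J + 1` in one configuration. -/
theorem top (hP : PeelStmt) (hM : MonoStmt) (hZ : ZeroStmt) (hG : G.Ok) (h0 : V.Tf 0 = 0)
    (h : ∀ j, 0 ≤ V.Tf j) (hy : ∀ j, V.y j ≤ V.y (j + 1)) (e0 : 0 ≤ V.e 0) {J : ℕ}
    (hS : ∀ j ≤ J, V.Step G j) {W : Lp T Λ → ℝ} (hW : V.AdmW J W) {s : Cfg T Λ}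
    (hs : V.Pre (J + 1) s)
    (hH : G.StepH W (V.y J) (fun s' => s' = s) (V.Post (J + 1)) (V.e (J + 1) / 10)) :
    G.LP W (fun s' => s' = s) (V.σ (J + 1)) (c1 * (1 + c1)) 20 (12 * V.e (J + 1)) :=
  low hP hM hG h (hS J le_rfl) (fun g => by linarith [(hW g).1, yw_nn (V.y_nn J) g])
    (fun s' v e => (hS J le_rfl).lad (lp hP hM hZ hG h0 h hy e0 J fun j hj => hS j hj.le) W hW s' v
      (e ▸ hs)) hH

end Lev

end Crest.Agent.N337.M
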